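import Vale.Agent.P193.C.Defs

/-!
# P193, part D: the accepted strings of a program

The program `e` enumerates relators. A string is accepted when it is empty or a relator found within
`s` steps followed by `s` copies of the cancelling pair `0 1`. Then the accepted values generate the
same normal subgroup as the relators and the pair, and acceptance is primitive recursive.
-/

namespace Vale.Agent.P193.Dec

open C Nat.Partrec

/-- The number of the inverse letter. -/
def flipD (i : Fin 24) : Fin 24 :=
  ⟨if i.val % 2 = 0 then i.val + 1 else i.val - 1, by split <;> omega⟩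

/-- The cancelling pairs. -/
def pairs : List (List (Fin 24)) := (List.finRange 24).map fun i => [i, flipD i]

/-- The cancelling pair. -/
def pair01 : List (Fin 24) := [0, 1]

/-- `s` cancelling pairs. -/
def pad (s : ℕ) : List (Fin 24) := (List.replicate s pair01).flatten

/-- The relator with index `i` found by `e` within `s` steps. -/
def found (e s i : ℕ) : Option (List (Fin 24)) :=
  (Code.evaln s (Denumerable.ofNat Code e) i).bind Encodable.decode

/-- The accepted strings. -/
def accE (e : ℕ) (l : List (Fin 24)) : Bool :=
  decide (l = []) || decide (l ∈ pairs) || (List.range (l.length + 1)).any fun s => (List.range s).any fun i =>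
    decide ((found e s i).map (· ++ pad s) = some l)

theorem accE_pair (e : ℕ) (i : Fin 24) : accE e [i, flipD i] = true := by
  have h : decide ([i, flipD i] ∈ pairs) = true :=
    decide_eq_true (List.mem_map.2 ⟨i, List.mem_finRange i, rfl⟩)
  simp only [accE, h, Bool.or_true, Bool.true_or]

theorem accE_nil (e : ℕ) : accE e [] = true := by simp [accE]

theorem length_pad (s : ℕ) : (pad s).length = 2 * s := by
  induction s with
  | zero => rfl
  | succ s ih =>
    rw [pad, List.replicate_succ, List.flatten_cons, List.length_append]
    have h : ((List.replicate s pair01).flatten).length = 2 * s := ih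
    rw [h]; simp [pair01]; ring

theorem found_lt {e s i : ℕ} {r : List (Fin 24)} (h : found e s i = some r) : i < s := by
  rw [found, Option.bind_eq_some_iff] at h
  obtain ⟨x, hx, -⟩ := h
  exact Code.evaln_bound hx

theorem found_sound {e s i : ℕ} {r : List (Fin 24)} (h : found e s i = some r) :
    ∃ x ∈ Code.eval (Denumerable.ofNat Code e) i, Encodable.decode x = some r := by
  rw [found, Option.bind_eq_some_iff] at h
  obtain ⟨x, hx, hr⟩ := h
  exact ⟨x, Code.evaln_sound hx, hr⟩

theorem accE_iff {e : ℕ} {l : List (Fin 24)} :
    accE e l = true ↔ l = [] ∨ l ∈ pairs ∨ ∃ s i r, found e s i = some r ∧ r ++ pad s = l := by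
  simp only [accE, Bool.or_eq_true, decide_eq_true_eq, List.any_eq_true, List.mem_range,
    Option.map_eq_some_iff, or_assoc]
  refine or_congr Iff.rfl (or_congr Iff.rfl ?_)
  refine ⟨?_, ?_⟩
  · rintro ⟨s, -, i, -, r, hr, hl⟩
    exact ⟨s, i, r, hr, hl⟩
  · rintro ⟨s, i, r, hr, hl⟩
    refine ⟨s, ?_, i, found_lt hr, r, hr, hl⟩
    have h := congrArg List.length hl
    rw [List.length_append, length_pad] at h
    omega

theorem primrec_pad : Primrec pad :=
  Primrec.list_flatten.comp
    ((Primrec.list_map Primrec.list_range (Primrec.const pair01).to₂).of_eq fun s => by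
      simp [List.map_const'])

theorem primrec_found : Primrec fun a : (ℕ × ℕ) × ℕ => found a.1.1 a.1.2 a.2 :=
  Primrec.option_bind
    (Code.primrec_evaln.comp (Primrec.pair
      (Primrec.pair (Primrec.snd.comp Primrec.fst)
        ((Primrec.ofNat Code).comp (Primrec.fst.comp Primrec.fst)))
      Primrec.snd))
    (Primrec.decode.comp Primrec.snd).to₂

theorem primrec_accE : Primrec₂ accE := by
  have h1 : PrimrecPred fun a : ((ℕ × List (Fin 24)) × ℕ) × ℕ =>
      (found a.1.1.1 a.1.2 a.2).map (· ++ pad a.1.2) = some a.1.1.2 :=
    Primrec.eq.comp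
      (Primrec.option_map
        (primrec_found.comp (Primrec.pair (Primrec.pair
          (Primrec.fst.comp (Primrec.fst.comp Primrec.fst)) (Primrec.snd.comp Primrec.fst))
          Primrec.snd))
        (Primrec.list_append.comp Primrec.snd
          (primrec_pad.comp (Primrec.snd.comp (Primrec.fst.comp Primrec.fst)))).to₂)
      (Primrec.option_some.comp (Primrec.snd.comp (Primrec.fst.comp Primrec.fst)))
  have h1' := h1.decide
  have hany : ∀ {α β : Type} [Primcodable α] [Primcodable β] {f : α → List β} {g : α → β → Bool},
      Primrec f → Primrec₂ g → Primrec fun a => (f a).any (g a) := by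
    intro α β _ _ f g hf hg
    refine (Primrec.list_foldl (g := fun _ => false) (h := fun a (p : Bool × β) => p.1 || g a p.2)
      hf (Primrec.const _) ?_).of_eq fun a => ?_
    · exact (Primrec.or.comp (Primrec.fst.comp Primrec.snd)
        (hg.comp Primrec.fst (Primrec.snd.comp Primrec.snd))).to₂
    · have : ∀ (l : List β) (b : Bool),
          l.foldl (fun s x => s || g a x) b = (b || l.any (g a)) := by
        intro l
        induction l with
        | nil => simp
        | cons x l ih => intro b; simp [ih, Bool.or_assoc]
      simp [this]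
  have he : PrimrecPred fun a : ℕ × List (Fin 24) => a.2 = [] :=
    Primrec.eq.comp Primrec.snd (Primrec.const [])
  have he' := he.decide
  have hp : PrimrecPred fun a : ℕ × List (Fin 24) => a.2 ∈ pairs := by
    have : ∀ L : List (List (Fin 24)), PrimrecPred fun a : ℕ × List (Fin 24) => a.2 ∈ L := by
      intro L
      induction L with
      | nil => exact (PrimrecPred.of_eq (Primrec.eq.comp (Primrec.const (0:ℕ)) (Primrec.const 1))
          fun a => by simp)
      | cons x L ih =>
        exact ((Primrec.eq.comp Primrec.snd (Primrec.const x)).or ih).of_eq fun a => by simp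
    exact this _
  have hp' := hp.decide
  refine (Primrec.or.comp (Primrec.or.comp he' hp') (hany (Primrec.list_range.comp
      (Primrec.succ.comp (Primrec.list_length.comp Primrec.snd)))
    (hany (Primrec.list_range.comp Primrec.snd) h1'.to₂).to₂)).of_eq fun a => ?_
  simp only [accE, Nat.succ_eq_add_one]

theorem val_append {k : ℕ} (a b : List (Fin k)) : val (a ++ b) = val a * val b := by
  simp [val, List.map_append, List.prod_append]

theorem val_pad (s : ℕ) : val (pad s) = (val pair01) ^ s := by
  induction s with
  | zero => rfl
  | succ s ih =>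
    rw [pow_succ', ← ih, pad, List.replicate_succ, List.flatten_cons, val_append]
    rfl

/-- The relators of a program. -/
def relators (e : ℕ) : Set (List (Fin 24)) :=
  {r | ∃ i, ∃ x ∈ Code.eval (Denumerable.ofNat Code e) i, Encodable.decode x = some r}

/-- If the cancelling pair is a relator, the accepted values and the relators generate the same
normal subgroup. -/
theorem normalClosure_accE {e : ℕ} (hps : ∀ p ∈ pairs, p ∈ relators e) :
    Subgroup.normalClosure (val '' {l | accE e l = true}) =
      Subgroup.normalClosure (val '' relators e) := by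
  have hp : pair01 ∈ relators e := hps _ (List.mem_map.2 ⟨0, List.mem_finRange _, rfl⟩)
  refine le_antisymm (Subgroup.normalClosure_le_normal ?_) (Subgroup.normalClosure_le_normal ?_)
  · rintro _ ⟨l, hl, rfl⟩
    rcases accE_iff.1 hl with rfl | hl | ⟨s, i, r, hr, rfl⟩
    · exact one_mem _
    · exact Subgroup.subset_normalClosure ⟨l, hps l hl, rfl⟩
    · obtain ⟨x, hx, hd⟩ := found_sound hr
      rw [val_append, val_pad]
      exact mul_mem (Subgroup.subset_normalClosure (s := val '' relators e) ⟨r, ⟨i, x, hx, hd⟩, rfl⟩)
        (pow_mem (Subgroup.subset_normalClosure (s := val '' relators e) ⟨pair01, hp, rfl⟩) _)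
  · have key : ∀ r ∈ relators e, ∃ s₀, ∀ s ≥ s₀, val r * val pair01 ^ s ∈
        Subgroup.normalClosure (val '' {l | accE e l = true}) := by
      rintro r ⟨i, x, hx, hd⟩
      obtain ⟨k, hk⟩ := Code.evaln_complete.1 hx
      refine ⟨k, fun s hs => ?_⟩
      rw [← val_pad, ← val_append]
      refine Subgroup.subset_normalClosure ⟨r ++ pad s, accE_iff.2 (.inr (.inr ⟨s, i, r, ?_, rfl⟩)), rfl⟩
      rw [found, Option.mem_def.1 (Code.evaln_mono hs hk)]
      simpa using hd
    have hpair : val pair01 ∈ Subgroup.normalClosure (val '' {l | accE e l = true}) := by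
      obtain ⟨s₀, h⟩ := key _ hp
      have h1 := mul_mem (inv_mem (h s₀ le_rfl)) (h (s₀ + 1) (Nat.le_succ _))
      simpa [pow_succ, mul_assoc] using h1
    rintro _ ⟨r, hr, rfl⟩
    obtain ⟨s₀, h⟩ := key r hr
    have h1 := mul_mem (h s₀ le_rfl) (inv_mem (pow_mem hpair s₀ : val pair01 ^ s₀ ∈ _))
    simpa [mul_assoc] using h1

end Vale.Agent.P193.Dec
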