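import Mathlib

/-!
P193, module Dec/Base: closure properties of computable and recursively enumerable predicates,
and free-group words encoded as lists.
-/

open Encodable

namespace Vale.Agent.P193.Dec

variable {α β γ σ : Type*} [Primcodable α] [Primcodable β] [Primcodable γ] [Primcodable σ]

/-! ### Computable operations on lists -/

omit [Primcodable β] [Primcodable γ] in
theorem foldl_take_succ {h : γ → β → γ} (z : γ) (l : List β) (i : ℕ) :
    (l.take (i + 1)).foldl h z =
      (l[i]?).elim ((l.take i).foldl h z) (fun b => h ((l.take i).foldl h z) b) := by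
  cases hi : l[i]? with
  | none =>
    rw [List.getElem?_eq_none_iff] at hi
    simp [List.take_of_length_le hi, List.take_of_length_le (hi.trans i.le_succ)]
  | some b => simp [List.take_add_one, hi, List.foldl_append]

theorem computable_foldl {f : α → List β} {g : α → γ} {h : α → γ × β → γ} (hf : Computable f)
    (hg : Computable g) (hh : Computable₂ h) :
    Computable fun a => (f a).foldl (fun c b => h a (c, b)) (g a) := by
  have step : Computable₂ fun (a : α) (p : ℕ × γ) =>
      ((f a)[p.1]?).elim p.2 (fun b => h a (p.2, b)) := by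
    refine Computable.of_eq (Computable.option_casesOn
      (Computable.list_getElem?.comp (hf.comp Computable.fst) (Computable.fst.comp Computable.snd))
      (Computable.snd.comp Computable.snd)
      ((hh.comp (Computable.fst.comp Computable.fst)
        (Computable.pair (Computable.snd.comp (Computable.snd.comp Computable.fst))
          Computable.snd)).to₂)) fun p => ?_
    cases hh : (f p.1)[p.2.1]? <;> simp [hh]
  refine (Computable.nat_rec (Computable.list_length.comp hf) hg step).of_eq fun a => ?_
  have key : ∀ n : ℕ, Nat.rec (motive := fun _ => γ) (g a)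
      (fun i c => ((f a)[i]?).elim c (fun b => h a (c, b))) n =
        ((f a).take n).foldl (fun c b => h a (c, b)) (g a) := by
    intro n
    induction n with
    | zero => rfl
    | succ n ih => rw [foldl_take_succ, ← ih]
  exact (key _).trans (by rw [List.take_length])

theorem computable_flatMap {f : α → List β} {g : α → β → List γ} (hf : Computable f)
    (hg : Computable₂ g) : Computable fun a => (f a).flatMap (g a) := by
  have h := computable_foldl (γ := List γ) (h := fun a p => p.1 ++ g a p.2) hf (Computable.const [])
    ((Computable.list_append.comp (Computable.fst.comp Computable.snd)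
      (hg.comp Computable.fst (Computable.snd.comp Computable.snd))).to₂)
  refine h.of_eq fun a => ?_
  have key : ∀ (l : List β) (z : List γ),
      l.foldl (fun c b => c ++ g a b) z = z ++ l.flatMap (g a) := by
    intro l
    induction l with
    | nil => simp
    | cons b l ih => intro z; simp [ih]
  simpa using key (f a) []

theorem computable_map {f : α → List β} {g : α → β → γ} (hf : Computable f) (hg : Computable₂ g) :
    Computable fun a => (f a).map (g a) :=
  (computable_flatMap (g := fun a b => [g a b]) hf
    ((Computable.list_cons.comp (hg.comp Computable.fst Computable.snd)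
      (Computable.const [])).to₂)).of_eq fun _ => List.map_eq_flatMap.symm

theorem computable_any {f : α → List β} {g : α → β → Bool} (hf : Computable f)
    (hg : Computable₂ g) : Computable fun a => (f a).any (g a) := by
  have h := computable_foldl (γ := Bool) (h := fun a p => p.1 || g a p.2) hf (Computable.const false)
    ((Primrec.or.to_comp.comp (Computable.fst.comp Computable.snd)
      (hg.comp Computable.fst (Computable.snd.comp Computable.snd))).to₂)
  refine h.of_eq fun a => ?_
  have key : ∀ (l : List β) (z : Bool), l.foldl (fun c b => c || g a b) z = (z || l.any (g a)) := by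
    intro l
    induction l with
    | nil => simp
    | cons b l ih => intro z; simp [ih, Bool.or_assoc]
  simpa using key (f a) false

theorem computable_all {f : α → List β} {g : α → β → Bool} (hf : Computable f)
    (hg : Computable₂ g) : Computable fun a => (f a).all (g a) :=
  (Primrec.not.to_comp.comp
    (computable_any (g := fun a b => !g a b) hf
      ((Primrec.not.to_comp.comp (hg.comp Computable.fst Computable.snd)).to₂))).of_eq fun a => by
    simp [List.all_eq_not_any_not]

/-! ### Computable predicates -/

theorem computablePred_of_bool {p : α → Prop} {f : α → Bool} (hf : Computable f)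
    (h : ∀ a, p a ↔ f a = true) : ComputablePred p :=
  ComputablePred.computable_iff.2 ⟨f, hf, funext fun a => propext (h a)⟩

theorem exists_bool_of_computablePred {p : α → Prop} (hp : ComputablePred p) :
    ∃ f : α → Bool, Computable f ∧ ∀ a, p a ↔ f a = true := by
  obtain ⟨f, hf, rfl⟩ := ComputablePred.computable_iff.1 hp
  exact ⟨f, hf, fun _ => Iff.rfl⟩

theorem computablePred_comp {p : β → Prop} (hp : ComputablePred p) {g : α → β} (hg : Computable g) :
    ComputablePred fun a => p (g a) := by
  obtain ⟨f, hf, h⟩ := exists_bool_of_computablePred hp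
  exact computablePred_of_bool (hf.comp hg) fun a => h _

theorem computablePred_and {p q : α → Prop} (hp : ComputablePred p) (hq : ComputablePred q) :
    ComputablePred fun a => p a ∧ q a := by
  obtain ⟨f, hf, h⟩ := exists_bool_of_computablePred hp
  obtain ⟨g, hg, h'⟩ := exists_bool_of_computablePred hq
  exact computablePred_of_bool (Primrec.and.to_comp.comp hf hg) fun a => by simp [h, h']

theorem computablePred_or {p q : α → Prop} (hp : ComputablePred p) (hq : ComputablePred q) :
    ComputablePred fun a => p a ∨ q a := by
  obtain ⟨f, hf, h⟩ := exists_bool_of_computablePred hp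
  obtain ⟨g, hg, h'⟩ := exists_bool_of_computablePred hq
  exact computablePred_of_bool (Primrec.or.to_comp.comp hf hg) fun a => by simp [h, h']

theorem computablePred_eq [DecidableEq β] {f g : α → β} (hf : Computable f) (hg : Computable g) :
    ComputablePred fun a => f a = g a :=
  computablePred_of_bool (f := fun a => decide (encode (f a) = encode (g a)))
    ((Primrec.eq (α := ℕ)).decide.to_comp.comp (Computable.encode.comp hf)
      (Computable.encode.comp hg)) fun a => by simp

theorem computablePred_exists_mem {R : α → β → Prop}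
    (hR : ComputablePred fun p : α × β => R p.1 p.2) {l : α → List β} (hl : Computable l) :
    ComputablePred fun a => ∃ b ∈ l a, R a b := by
  obtain ⟨f, hf, h⟩ := exists_bool_of_computablePred hR
  refine computablePred_of_bool
    (computable_any (g := fun a b => f (a, b)) hl hf.to₂) fun a => ?_
  simp only [List.any_eq_true]
  exact ⟨fun ⟨b, hb, hr⟩ => ⟨b, hb, (h (a, b)).1 hr⟩, fun ⟨b, hb, hr⟩ => ⟨b, hb, (h (a, b)).2 hr⟩⟩

theorem computablePred_forall_mem {R : α → β → Prop}
    (hR : ComputablePred fun p : α × β => R p.1 p.2) {l : α → List β} (hl : Computable l) :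
    ComputablePred fun a => ∀ b ∈ l a, R a b := by
  obtain ⟨f, hf, h⟩ := exists_bool_of_computablePred hR
  refine computablePred_of_bool
    (computable_all (g := fun a b => f (a, b)) hl hf.to₂) fun a => ?_
  simp only [List.all_eq_true]
  exact ⟨fun H b hb => (h (a, b)).1 (H b hb), fun H b hb => (h (a, b)).2 (H b hb)⟩

/-! ### Recursively enumerable predicates -/

theorem rePred_iff {p : α → Prop} :
    REPred p ↔ ∃ f : α → ℕ → Bool, Computable₂ f ∧ ∀ a, p a ↔ ∃ n, f a n = true := by
  constructor
  · intro hp
    obtain ⟨c, hc⟩ := Nat.Partrec.Code.exists_code.1 hp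
    refine ⟨fun a n => (Nat.Partrec.Code.evaln n c (encode a)).isSome,
      (Primrec.option_isSome.comp (Nat.Partrec.Code.primrec_evaln.comp (Primrec.pair
        (Primrec.pair Primrec.snd (Primrec.const c))
        (Primrec.encode.comp Primrec.fst)))).to_comp.to₂, fun a => ?_⟩
    have he : (Nat.Partrec.Code.eval c (encode a)).Dom ↔ p a := by
      rw [hc]
      simp [Part.assert]
    rw [← he]
    constructor
    · intro h
      obtain ⟨n, hn⟩ := Nat.Partrec.Code.evaln_complete.1 (Part.get_mem h)
      exact ⟨n, Option.isSome_iff_exists.2 ⟨_, hn⟩⟩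
    · rintro ⟨n, hn⟩
      obtain ⟨x, hx⟩ := Option.isSome_iff_exists.1 hn
      exact Part.dom_iff_mem.2 ⟨x, Nat.Partrec.Code.evaln_sound hx⟩
  · rintro ⟨f, hf, h⟩
    refine (Partrec.dom_re (Partrec.rfind (p := fun a n => Part.some (f a n)) hf.partrec₂)).of_eq
      fun a => ?_
    refine Nat.rfind_dom.trans ?_
    rw [h a]
    constructor
    · rintro ⟨n, hn, -⟩
      exact ⟨n, (Part.mem_some_iff.1 hn).symm⟩
    · rintro ⟨n, hn⟩
      exact ⟨n, Part.mem_some_iff.2 hn.symm, fun _ => trivial⟩

theorem rePred_comp {p : β → Prop} (hp : REPred p) {g : α → β} (hg : Computable g) :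
    REPred fun a => p (g a) := by
  obtain ⟨f, hf, h⟩ := rePred_iff.1 hp
  exact rePred_iff.2 ⟨fun a n => f (g a) n,
    (hf.comp (hg.comp Computable.fst) Computable.snd).to₂, fun a => h _⟩

theorem rePred_exists {R : α → β → Prop} (hR : REPred fun p : α × β => R p.1 p.2) :
    REPred fun a => ∃ b, R a b := by
  obtain ⟨f, hf, h⟩ := rePred_iff.1 hR
  refine rePred_iff.2 ⟨fun a n => ((decode (α := β) n.unpair.1).elim false
    fun b => f (a, b) n.unpair.2), ?_, fun a => ⟨fun ⟨b, hb⟩ => ?_, fun ⟨n, hn⟩ => ?_⟩⟩
  · refine Computable.of_eq (Computable.option_casesOn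
      (Computable.decode.comp
        (Computable.fst.comp (Computable.unpair.comp Computable.snd)))
      (Computable.const false)
      ((hf.comp (Computable.pair (Computable.fst.comp Computable.fst) Computable.snd)
        (Computable.snd.comp
          (Computable.unpair.comp (Computable.snd.comp Computable.fst)))).to₂)) fun p => ?_
    cases hh : (decode (α := β) p.2.unpair.1) <;> simp [hh]
  · obtain ⟨n, hn⟩ := (h (a, b)).1 hb
    exact ⟨Nat.pair (encode b) n, by simp [hn]⟩
  · cases hd : decode (α := β) n.unpair.1 with
    | none => simp [hd] at hn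
    | some b => exact ⟨b, (h (a, b)).2 ⟨n.unpair.2, by simpa [hd] using hn⟩⟩

theorem rePred_and {p q : α → Prop} (hp : REPred p) (hq : REPred q) :
    REPred fun a => p a ∧ q a := by
  obtain ⟨f, hf, h⟩ := rePred_iff.1 hp
  obtain ⟨g, hg, h'⟩ := rePred_iff.1 hq
  refine rePred_iff.2 ⟨fun a n => f a n.unpair.1 && g a n.unpair.2,
    (Primrec.and.to_comp.comp
      (hf.comp Computable.fst (Computable.fst.comp (Computable.unpair.comp Computable.snd)))
      (hg.comp Computable.fst (Computable.snd.comp (Computable.unpair.comp Computable.snd)))).to₂,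
    fun a => ⟨fun ⟨hp, hq⟩ => ?_, fun ⟨n, hn⟩ => ?_⟩⟩
  · obtain ⟨m, hm⟩ := (h a).1 hp
    obtain ⟨n, hn⟩ := (h' a).1 hq
    exact ⟨Nat.pair m n, by simp [hm, hn]⟩
  · rw [Bool.and_eq_true] at hn
    exact ⟨(h a).2 ⟨_, hn.1⟩, (h' a).2 ⟨_, hn.2⟩⟩

theorem rePred_or {p q : α → Prop} (hp : REPred p) (hq : REPred q) :
    REPred fun a => p a ∨ q a := by
  obtain ⟨f, hf, h⟩ := rePred_iff.1 hp
  obtain ⟨g, hg, h'⟩ := rePred_iff.1 hq
  refine rePred_iff.2 ⟨fun a n => f a n || g a n,
    (Primrec.or.to_comp.comp hf hg).to₂, fun a => ?_⟩
  rw [h, h']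
  simp [exists_or]

/-- A uniform quantifier over a computable finite list of an r.e. predicate. -/
theorem rePred_forall_mem {R : α → β → Prop} (hR : REPred fun p : α × β => R p.1 p.2)
    {l : α → List β} (hl : Computable l) : REPred fun a => ∀ b ∈ l a, R a b := by
  obtain ⟨f, hf, h⟩ := rePred_iff.1 hR
  refine rePred_iff.2 ⟨fun a n => (l a).all fun b => (List.range (n + 1)).any fun m => f (a, b) m,
    ?_, fun a => ⟨fun H => ?_, fun ⟨n, hn⟩ b hb => ?_⟩⟩
  · exact (computable_all (f := fun p : α × ℕ => l p.1)
      (g := fun p b => (List.range (p.2 + 1)).any fun m => f (p.1, b) m) (hl.comp Computable.fst)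
      ((computable_any (f := fun q : (α × ℕ) × β => List.range (q.1.2 + 1))
        (g := fun q m => f (q.1.1, q.2) m)
        (Primrec.list_range.to_comp.comp
          (Computable.succ.comp (Computable.snd.comp Computable.fst)))
        ((hf.comp (Computable.pair (Computable.fst.comp (Computable.fst.comp Computable.fst))
          (Computable.snd.comp Computable.fst)) Computable.snd).to₂)).to₂)).to₂
  · classical
    let N : β → ℕ := fun b => if hb : ∃ n, f (a, b) n = true then Nat.find hb else 0
    refine ⟨((l a).map N).sum, List.all_eq_true.2 fun b hb => List.any_eq_true.2 ⟨N b, ?_, ?_⟩⟩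
    · exact List.mem_range.2 (Nat.lt_succ_of_le (List.le_sum_of_mem (List.mem_map_of_mem hb)))
    · have he : ∃ n, f (a, b) n = true := (h (a, b)).1 (H b hb)
      simp only [N, dif_pos he]
      exact Nat.find_spec he
  · obtain ⟨m, -, hm⟩ := List.any_eq_true.1 (List.all_eq_true.1 hn b hb)
    exact (h (a, b)).2 ⟨m, hm⟩

theorem rePred_exists_mem {R : α → β → Prop} (hR : REPred fun p : α × β => R p.1 p.2)
    {l : α → List β} (hl : Computable l) : REPred fun a => ∃ b ∈ l a, R a b := by
  classical
  exact rePred_exists (rePred_and
    (computablePred_exists_mem (R := fun (p : α × β) b => b = p.2)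
      (computablePred_eq Computable.snd (Computable.snd.comp Computable.fst))
      (hl.comp Computable.fst) |>.to_re.of_eq fun p => by simp) hR)

/-- A race between two sound searches, one of which always succeeds. -/
theorem computablePred_of_race {p q r : α → Prop} (hp : REPred p) (hq : REPred q)
    (h₁ : ∀ a, p a → r a) (h₂ : ∀ a, q a → ¬r a) (ht : ∀ a, p a ∨ q a) : ComputablePred r := by
  refine ComputablePred.computable_iff_re_compl_re'.2 ⟨hp.of_eq fun a => ⟨h₁ a, fun hr => ?_⟩,
    hq.of_eq fun a => ⟨h₂ a, fun hr => ?_⟩⟩
  · exact (ht a).resolve_right fun h => h₂ a h hr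
  · exact (ht a).resolve_left fun h => hr (h₁ a h)

/-! ### Encoded words in a free group -/

/-- Words in the letters and their inverses. -/
abbrev Word (α : Type*) : Type _ := List (α × Bool)

/-- One step of reduction from the left. -/
def push [DecidableEq α] (x : α × Bool) (s : Word α) : Word α :=
  List.casesOn s [x] fun hd tl => if x.1 = hd.1 ∧ x.2 = !hd.2 then tl else x :: hd :: tl

omit [Primcodable α] in
theorem reduce_eq_foldr [DecidableEq α] (w : Word α) :
    FreeGroup.reduce w = w.foldr push [] := by
  induction w with
  | nil => rfl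
  | cons x w ih => rw [FreeGroup.reduce.cons, List.foldr_cons, ← ih]; rfl

theorem primrec_reduce [DecidableEq α] : Primrec (FreeGroup.reduce : Word α → Word α) := by
  have hpush : Primrec₂ fun (_ : Word α) (p : (α × Bool) × Word α) => push p.1 p.2 := by
    refine (Primrec.list_casesOn (h := fun (q : Word α × (α × Bool) × Word α)
      (r : (α × Bool) × Word α) =>
        if q.2.1.1 = r.1.1 ∧ q.2.1.2 = !r.1.2 then r.2 else q.2.1 :: r.1 :: r.2)
      (Primrec.snd.comp Primrec.snd)
      (Primrec.list_cons.comp (Primrec.fst.comp Primrec.snd) (Primrec.const [])) ?_).of_eq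
      fun q => ?_
    · exact Primrec.ite
        ((Primrec.eq.comp (Primrec.fst.comp (Primrec.fst.comp (Primrec.snd.comp Primrec.fst)))
          (Primrec.fst.comp (Primrec.fst.comp Primrec.snd))).and
        (Primrec.eq.comp (Primrec.snd.comp (Primrec.fst.comp (Primrec.snd.comp Primrec.fst)))
          (Primrec.not.comp (Primrec.snd.comp (Primrec.fst.comp Primrec.snd)))))
        (Primrec.snd.comp Primrec.snd)
        (Primrec.list_cons.comp (Primrec.fst.comp (Primrec.snd.comp Primrec.fst))
          (Primrec.list_cons.comp (Primrec.fst.comp Primrec.snd) (Primrec.snd.comp Primrec.snd)))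
    · obtain ⟨_, x, s⟩ := q
      cases s <;> rfl
  exact (Primrec.list_foldr Primrec.id (Primrec.const []) hpush).of_eq fun w =>
    (reduce_eq_foldr w).symm

theorem primrec_invRev : Primrec (FreeGroup.invRev : Word α → Word α) :=
  Primrec.list_reverse.comp (Primrec.list_map Primrec.id
    (Primrec.pair (Primrec.fst.comp Primrec.snd)
      (Primrec.not.comp (Primrec.snd.comp Primrec.snd))).to₂)

theorem computablePred_mk_eq [DecidableEq α] {f g : σ → Word α} (hf : Computable f)
    (hg : Computable g) : ComputablePred fun s => FreeGroup.mk (f s) = FreeGroup.mk (g s) :=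
  (computablePred_eq (primrec_reduce.to_comp.comp hf) (primrec_reduce.to_comp.comp hg)).of_eq
    fun _ => ⟨fun h => FreeGroup.toWord_injective h, fun h => congrArg FreeGroup.toWord h⟩

/-- Substitution of words for letters. -/
def subst (φ : α → Word β) (w : Word α) : Word β :=
  w.flatMap fun x => cond x.2 (φ x.1) (FreeGroup.invRev (φ x.1))

omit [Primcodable α] [Primcodable β] in
theorem mk_subst (φ : α → Word β) (w : Word α) :
    FreeGroup.mk (subst φ w) = FreeGroup.lift (fun a => FreeGroup.mk (φ a)) (FreeGroup.mk w) := by
  induction w with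
  | nil => simp [subst, ← FreeGroup.one_eq_mk]
  | cons x w ih =>
    obtain ⟨a, b⟩ := x
    rw [FreeGroup.lift_mk] at ih
    simp only [subst, List.flatMap_cons] at ih ⊢
    rw [← FreeGroup.mul_mk, ih, FreeGroup.lift_mk, List.map_cons, List.prod_cons]
    cases b <;> simp [← FreeGroup.inv_mk]

theorem computable_subst {φ : σ → α → Word β} (hφ : Computable₂ φ) {w : σ → Word α}
    (hw : Computable w) : Computable fun s => subst (φ s) (w s) :=
  computable_flatMap hw
    ((Computable.cond (Computable.snd.comp Computable.snd)
      (hφ.comp Computable.fst (Computable.fst.comp Computable.snd))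
      (primrec_invRev.to_comp.comp
        (hφ.comp Computable.fst (Computable.fst.comp Computable.snd)))).to₂)

omit [Primcodable α] in
theorem norm_mk_le' [DecidableEq α] (w : Word α) : (FreeGroup.mk w).norm ≤ w.length :=
  FreeGroup.norm_mk_le

/-! ### Bounded searches for words -/

/-- All lists over `L` of length at most `n`. -/
def listsLE (L : List β) : ℕ → List (List β)
  | 0 => [[]]
  | n + 1 => [] :: L.flatMap fun x => (listsLE L n).map (x :: ·)

omit [Primcodable β] in
theorem mem_listsLE {L : List β} {n : ℕ} {l : List β} :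
    l ∈ listsLE L n ↔ l.length ≤ n ∧ ∀ x ∈ l, x ∈ L := by
  induction n generalizing l with
  | zero => cases l <;> simp [listsLE]
  | succ n ih =>
    cases l with
    | nil => simp [listsLE]
    | cons x l => simp [listsLE, ih]; tauto

theorem primrec_listsLE : Primrec₂ (listsLE : List β → ℕ → List (List β)) := by
  refine (Primrec.nat_rec' Primrec.snd (Primrec.const [[]])
    (h := fun (p : List β × ℕ) (q : ℕ × List (List β)) =>
      [] :: p.1.flatMap fun x => q.2.map (x :: ·))
    (Primrec.list_cons.comp (Primrec.const [])
      (Primrec.list_flatMap (Primrec.fst.comp Primrec.fst)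
        (Primrec.list_map (Primrec.snd.comp (Primrec.snd.comp Primrec.fst))
          (Primrec.list_cons.comp (Primrec.snd.comp Primrec.fst) Primrec.snd).to₂).to₂)).to₂).of_eq
    fun p => ?_
  obtain ⟨L, n⟩ := p
  induction n with
  | zero => rfl
  | succ n ih =>
    simp only [listsLE] at ih ⊢
    rw [← ih]

/-- Words of bounded length over a finite alphabet can be searched. -/
theorem computablePred_exists_word_le [Fintype α] {R : σ → Word α → Prop}
    (hR : ComputablePred fun p : σ × Word α => R p.1 p.2) {C : σ → ℕ} (hC : Computable C) :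
    ComputablePred fun s => ∃ w : Word α, w.length ≤ C s ∧ R s w :=
  (computablePred_exists_mem hR (l := fun s => listsLE Finset.univ.toList (C s))
    ((primrec_listsLE.comp (Primrec.const _) Primrec.id).to_comp.comp hC)).of_eq fun s => by
    simp [mem_listsLE]

/-! ### Subgroups and normal closures given by r.e. sets of words -/

/-- The product of conjugates of words with signs. -/
def conjProd (cs : List (Word α × Word α × Bool)) : Word α :=
  cs.flatMap fun c => c.1 ++ (cond c.2.2 c.2.1 (FreeGroup.invRev c.2.1) ++ FreeGroup.invRev c.1)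

theorem primrec_conjProd : Primrec (conjProd : List (Word α × Word α × Bool) → Word α) :=
  Primrec.list_flatMap Primrec.id
    (Primrec.list_append.comp (Primrec.fst.comp Primrec.snd)
      (Primrec.list_append.comp
        (Primrec.cond (Primrec.snd.comp (Primrec.snd.comp Primrec.snd))
          (Primrec.fst.comp (Primrec.snd.comp Primrec.snd))
          (primrec_invRev.comp (Primrec.fst.comp (Primrec.snd.comp Primrec.snd))))
        (primrec_invRev.comp (Primrec.fst.comp Primrec.snd)))).to₂

omit [Primcodable α] in
theorem mem_normalClosure_iff (R : Word α → Prop) (x : FreeGroup α) :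
    x ∈ Subgroup.normalClosure (FreeGroup.mk '' {r | R r}) ↔
      ∃ cs : List (Word α × Word α × Bool), (∀ c ∈ cs, R c.2.1) ∧
        x = FreeGroup.mk (conjProd cs) := by
  have cons : ∀ (c : Word α × Word α × Bool) cs, FreeGroup.mk (conjProd (c :: cs)) =
      (FreeGroup.mk c.1 * FreeGroup.mk (cond c.2.2 c.2.1 (FreeGroup.invRev c.2.1)) *
        (FreeGroup.mk c.1)⁻¹) * FreeGroup.mk (conjProd cs) := fun c cs => by
    simp [conjProd, FreeGroup.inv_mk]
  constructor
  · intro hx
    refine Subgroup.closure_induction_left ⟨[], by simp, rfl⟩ ?_ ?_ hx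
    · intro g hg y _ ⟨cs, hcs, hy⟩
      obtain ⟨_, ⟨r, hr, rfl⟩, hc⟩ := Group.mem_conjugatesOfSet_iff.1 hg
      obtain ⟨c, rfl⟩ := isConj_iff.1 hc
      obtain ⟨u, rfl⟩ := Quot.exists_rep c
      refine ⟨(u, r, true) :: cs, ?_, ?_⟩
      · simp only [List.mem_cons, forall_eq_or_imp]
        exact ⟨hr, hcs⟩
      · rw [cons, hy]; rfl
    · intro g hg y _ ⟨cs, hcs, hy⟩
      obtain ⟨_, ⟨r, hr, rfl⟩, hc⟩ := Group.mem_conjugatesOfSet_iff.1 hg
      obtain ⟨c, rfl⟩ := isConj_iff.1 hc
      obtain ⟨u, rfl⟩ := Quot.exists_rep c
      refine ⟨(u, r, false) :: cs, ?_, ?_⟩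
      · simp only [List.mem_cons, forall_eq_or_imp]
        exact ⟨hr, hcs⟩
      · rw [cons, hy]
        simp [← FreeGroup.inv_mk, mul_assoc, FreeGroup.quot_mk_eq_mk, -FreeGroup.mul_mk]
  · rintro ⟨cs, hcs, rfl⟩
    induction cs with
    | nil => exact one_mem _
    | cons c cs ih =>
      rw [cons]
      refine mul_mem (Subgroup.normalClosure_normal.conj_mem _ ?_ _)
        (ih fun d hd => hcs d (List.mem_cons_of_mem _ hd))
      have hr : FreeGroup.mk c.2.1 ∈ Subgroup.normalClosure (FreeGroup.mk '' {r | R r}) :=
        Subgroup.subset_normalClosure ⟨_, hcs c List.mem_cons_self, rfl⟩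
      cases c.2.2
      · simpa [← FreeGroup.inv_mk] using hr
      · exact hr

/-- The normal closure of a uniformly r.e. set of relators is uniformly r.e. -/
theorem rePred_mem_normalClosure [DecidableEq α] {R : σ → Word α → Prop}
    (hR : REPred fun p : σ × Word α => R p.1 p.2) {w : σ → Word α} (hw : Computable w) :
    REPred fun s =>
      FreeGroup.mk (w s) ∈ Subgroup.normalClosure (FreeGroup.mk '' {r | R s r}) := by
  refine (rePred_exists (R := fun s cs =>
    (∀ c ∈ cs, R s c.2.1) ∧ FreeGroup.mk (w s) = FreeGroup.mk (conjProd cs)) ?_).of_eq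
    fun s => (mem_normalClosure_iff (R s) _).symm
  refine rePred_and (rePred_forall_mem ?_ Computable.snd)
    (computablePred_mk_eq (hw.comp Computable.fst) (primrec_conjProd.to_comp.comp Computable.snd)).to_re
  exact rePred_comp hR (Computable.pair (Computable.fst.comp Computable.fst)
    (Computable.fst.comp (Computable.snd.comp Computable.snd)))

/-- The word problem of a uniformly recursively presented group is uniformly r.e. -/
theorem rePred_eq_one_presented [DecidableEq α] {R : σ → Word α → Prop}
    (hR : REPred fun p : σ × Word α => R p.1 p.2) {w : σ → Word α} (hw : Computable w) :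
    REPred fun s =>
      PresentedGroup.mk (FreeGroup.mk '' {r | R s r}) (FreeGroup.mk (w s)) = 1 :=
  (rePred_mem_normalClosure hR hw).of_eq fun _ => (QuotientGroup.eq_one_iff _).symm

/-- The product of words with signs. -/
def signProd (cs : List (Word α × Bool)) : Word α :=
  cs.flatMap fun c => cond c.2 c.1 (FreeGroup.invRev c.1)

omit [Primcodable α] in
theorem mem_closure_iff (R : Word α → Prop) (x : FreeGroup α) :
    x ∈ Subgroup.closure (FreeGroup.mk '' {r | R r}) ↔
      ∃ cs : List (Word α × Bool), (∀ c ∈ cs, R c.1) ∧ x = FreeGroup.mk (signProd cs) := by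
  have cons : ∀ (c : Word α × Bool) cs, FreeGroup.mk (signProd (c :: cs)) =
      FreeGroup.mk (cond c.2 c.1 (FreeGroup.invRev c.1)) * FreeGroup.mk (signProd cs) :=
    fun c cs => by simp [signProd]
  constructor
  · intro hx
    refine Subgroup.closure_induction_left ⟨[], by simp, rfl⟩ ?_ ?_ hx
    · rintro _ ⟨r, hr, rfl⟩ y _ ⟨cs, hcs, hy⟩
      refine ⟨(r, true) :: cs, ?_, ?_⟩
      · simp only [List.mem_cons, forall_eq_or_imp]
        exact ⟨hr, hcs⟩
      · rw [cons, hy]; rfl
    · rintro _ ⟨r, hr, rfl⟩ y _ ⟨cs, hcs, hy⟩
      refine ⟨(r, false) :: cs, ?_, ?_⟩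
      · simp only [List.mem_cons, forall_eq_or_imp]
        exact ⟨hr, hcs⟩
      · rw [cons, hy]
        simp [← FreeGroup.inv_mk]
  · rintro ⟨cs, hcs, rfl⟩
    induction cs with
    | nil => exact one_mem _
    | cons c cs ih =>
      rw [cons]
      refine mul_mem ?_ (ih fun d hd => hcs d (List.mem_cons_of_mem _ hd))
      have hr : FreeGroup.mk c.1 ∈ Subgroup.closure (FreeGroup.mk '' {r | R r}) :=
        Subgroup.subset_closure ⟨_, hcs c List.mem_cons_self, rfl⟩
      cases c.2
      · simpa [← FreeGroup.inv_mk] using hr
      · exact hr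

/-- The subgroup generated by a uniformly r.e. set of words is uniformly r.e. -/
theorem rePred_mem_closure [DecidableEq α] {R : σ → Word α → Prop}
    (hR : REPred fun p : σ × Word α => R p.1 p.2) {w : σ → Word α} (hw : Computable w) :
    REPred fun s => FreeGroup.mk (w s) ∈ Subgroup.closure (FreeGroup.mk '' {r | R s r}) := by
  refine (rePred_exists (R := fun s cs =>
    (∀ c ∈ cs, R s c.1) ∧ FreeGroup.mk (w s) = FreeGroup.mk (signProd cs)) ?_).of_eq
    fun s => (mem_closure_iff (R s) _).symm
  refine rePred_and (rePred_forall_mem ?_ Computable.snd)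
    (computablePred_mk_eq (hw.comp Computable.fst) (?_ : Computable fun p => signProd p.2)).to_re
  · exact rePred_comp hR (Computable.pair (Computable.fst.comp Computable.fst)
      (Computable.fst.comp Computable.snd))
  · exact (Primrec.list_flatMap Primrec.snd
      (Primrec.cond (Primrec.snd.comp Primrec.snd) (Primrec.fst.comp Primrec.snd)
        (primrec_invRev.comp (Primrec.fst.comp Primrec.snd))).to₂).to_comp

end Vale.Agent.P193.Dec
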