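import Vale.Agent.P193.C.WPres
import Vale.Agent.P193.B.WordL

/-!
# P193, part D: coding and interfaces (PROOF v4.1)

`L` has the letters `WordL.Gen` (twelve), a signed letter is one of the 24 letters read by the machines,
so a `Raw` word over `WordL.Gen` is a string and `val` is its value in `F 24`; the relators `a a⁻¹` are
listed with the others.

The generators of the group `K` of a machine are coded by natural numbers, the same for every `e`:
`0..23` the second copy `y'` (so the letters of `L`), `24..47` the first copy `y`, `48 49 50 51` the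
letters `w t σ v`, `52 53` the translations, `54..` the letters of `F` in `W`, `78..` the letters `q`,
`102..` the letters `e`, `126 + i` the rule `i`; other codes denote `1`.
-/

namespace Vale.Agent.P193.Dec

open C B

/-- The number of letters read by the machines. -/
abbrev nL : ℕ := 24

/-- Strings of signed letters of `L`. -/
abbrev GWord := Reduce.Raw WordL.Gen

/-- The number of a letter of the long words. -/
def letterIdx : B.Letter → ℕ
  | .a => 0
  | .b => 1
  | .e => 2

/-- The long-word letters as `Fin 3`. -/
def letterEquiv : B.Letter ≃ Fin 3 where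
  toFun := fun | .a => 0 | .b => 1 | .e => 2
  invFun := ![.a, .b, .e]
  left_inv := fun l => by cases l <;> rfl
  right_inv := fun i => by fin_cases i <;> rfl

instance : Primcodable B.Letter := Primcodable.ofEquiv (Fin 3) letterEquiv

/-- The number of a signed letter of `L`: the pair of `E` (`false`) comes first. -/
def digit : WordL.Gen × Bool → Fin nL
  | ((p, b, l), s) =>
    ⟨(cond p 12 0) + (cond b 0 6) + 2 * letterIdx l + cond s 0 1, by
      cases p <;> cases b <;> cases l <;> cases s <;> decide⟩

theorem digit_bijective : Function.Bijective digit := by decide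

/-- A string as a list of letters of the machine. -/
def digits (w : GWord) : List (Fin nL) := w.map digit

/-- Codes of the generators of `K`. -/
def decK (M : Mach nL) (n : ℕ) : Option (KGen M.WGen (Fin nL)) :=
  if h : n < 24 then some (.y' ⟨n, h⟩)
  else if h : n - 24 < 24 then some (.y ⟨n - 24, h⟩)
  else if n = 48 then some .cw
  else if n = 49 then some .t
  else if n = 50 then some .s
  else if n = 51 then some .v
  else if n = 52 then some (.w (.inl true))
  else if n = 53 then some (.w (.inl false))
  else if h : n - 54 < 24 then some (.w (.inr (.inl ⟨n - 54, h⟩)))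
  else if h : n - 78 < 24 then some (.w (.inr (.inr (.q ⟨n - 78, h⟩))))
  else if h : n - 102 < 24 then some (.w (.inr (.inr (.e ⟨n - 102, h⟩))))
  else if h : n - 126 < M.rules.length then some (.w (.inr (.inr (.rule ⟨n - 126, h⟩))))
  else none

/-- The codes of the letters of `L` inside `K`. -/
def toKWord (w : GWord) : Reduce.Raw ℕ := w.map fun p => ((digit p : ℕ), true)

/-- The machines of all programs, with the two facts of C1. -/
structure Family (acc : ℕ → List (Fin nL) → Bool) where
  M : ℕ → Mach nL
  acc_eq : ∀ e l, (M e).acc l = acc e l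
  hA : ∀ e, (M e).AccStmt
  hK : ∀ e, (M e).KeyStmt
  rules_computable : Computable fun e =>
    (M e).rules.map fun r => (r.M, r.N, r.M', r.N', r.a, r.b, r.c, r.d)
  origin_computable : Computable fun e => (M e).origin
  final_computable : Computable fun e => (M e).final
  live_computable : Computable₂ fun e x => (M e).live x

namespace Family

variable {acc : ℕ → List (Fin nL) → Bool} (Φ : Family acc) (e : ℕ)

/-- The data of C for the program `e`. -/
noncomputable abbrev base := (Φ.M e).toBase (Φ.hA e) (Φ.hK e)

/-- The finitely presented group `K`. -/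
abbrev K := (Φ.base e).K

/-- The group `L`. -/
abbrev L := (Φ.base e).L

/-- The element of a code. -/
noncomputable def kg (n : ℕ) : Φ.K e :=
  (decK (Φ.M e) n).elim 1 fun g => ((Φ.M e).words (Φ.hA e) (Φ.hK e)).toK (FreeGroup.of g)

/-- The value of a coded word of `K`. -/
noncomputable def kval (w : Reduce.Raw ℕ) : Φ.K e := Reduce.gval (Φ.kg e) w

/-- The value of a string in `L`. -/
noncomputable def lval (w : GWord) : Φ.L e := (C.val (digits w) : F nL)

/-- `L → K`. -/
noncomputable def toL : Φ.L e →* Φ.K e := (Φ.base e).toL

/-- The subgroup `E` inside `K`: the letters of pair one. -/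
noncomputable def X₀ : Subgroup (Φ.K e) := Subgroup.closure (Φ.kg e '' {n | n < 12})

/-- The retraction `K → Γ₂`. -/
noncomputable def gamPart : Φ.K e →* (Φ.base e).Gam :=
  HNNExtension.lift (MonoidHom.fst _ _) 1
    (graph_cond (Φ.base e).incl (Φ.base e).incl_injective (Φ.base e).phi (MonoidHom.fst _ _) 1
      fun s => by simp)

/-- The oracle-free part: the word problem of `Γ₂` and membership in `Σ`. -/
structure SigmaSolver where
  one : ℕ → Reduce.Raw ℕ → Bool
  mem : ℕ → Reduce.Raw ℕ → Bool
  one_spec : ∀ e w, one e w = true ↔ Φ.gamPart e (Φ.kval e w) = 1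
  mem_spec : ∀ e w, mem e w = true ↔ Φ.gamPart e (Φ.kval e w) ∈ (Φ.base e).incl.range
  one_computable : Computable₂ one
  mem_computable : Computable₂ mem

/-- COR of C3: `φ` is linearly bounded (`u` uses only the letters `y`, `y'`, `σ`). -/
def PhiBound (C : ℕ) : Prop :=
  ∀ e (w : Reduce.Raw ℕ) (z : (Φ.base e).Sig),
    Φ.gamPart e (Φ.kval e w) = (Φ.base e).incl z →
      ∃ u : Reduce.Raw ℕ, u.length ≤ C * w.length ∧ (∀ p ∈ u, p.1 < 48 ∨ p.1 = 50) ∧
        Φ.kval e u = HNNExtension.of (1, (Φ.base e).phi z)

/-- A finite list of defining relators of `K`, coded. -/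
structure KRels where
  list : ℕ → List (Reduce.Raw ℕ)
  computable : Computable list
  spec : ∀ e w, Φ.kval e w = 1 ↔
    (FreeGroup.mk w : FreeGroup ℕ) ∈ Subgroup.normalClosure
      ({x | ∃ r ∈ list e, FreeGroup.mk r = x} ∪ {x | ∃ n, decK (Φ.M e) n = none ∧ FreeGroup.of n = x})

/-- The word problem of `K` and the intersection with `L`, relative to an oracle for `L`. -/
structure KSolver where
  C : ℕ
  one : ℕ → (GWord → Bool) → Reduce.Raw ℕ → Bool
  back : ℕ → (GWord → Bool) → Reduce.Raw ℕ → Option GWord
  spec : ∀ e O n, (∀ l : GWord, l.length ≤ C * n → (O l = true ↔ Φ.lval e l = 1)) →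
    ∀ w : Reduce.Raw ℕ, w.length ≤ n →
      (one e O w = true ↔ Φ.kval e w = 1) ∧
      (∀ l, back e O w = some l → l.length ≤ C * n ∧ Φ.kval e w = Φ.toL e (Φ.lval e l)) ∧
      (back e O w = none → Φ.kval e w ∉ (Φ.toL e).range)
  one_computable : ∀ {σ : Type} [Primcodable σ] {fe : σ → ℕ} {fO : σ → GWord → Bool}
    {fw : σ → List (ℕ × Bool)},
    Computable fe → Computable₂ fO → Computable fw → Computable fun x => one (fe x) (fO x) (fw x)
  back_computable : ∀ {σ : Type} [Primcodable σ] {fe : σ → ℕ} {fO : σ → GWord → Bool}
    {fw : σ → List (ℕ × Bool)},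
    Computable fe → Computable₂ fO → Computable fw → Computable fun x => back (fe x) (fO x) (fw x)

end Family

end Vale.Agent.P193.Dec
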