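import Vale.Agent.P193.C.Tower
import Vale.Agent.P193.B.Reduce

/-!
# P193, part D: Britton reduction in an HNN extension of `A × B` along a graph

`A × B` is extended by a letter conjugating `i s` to `(i s, f s)`. The stack keeps for each segment
an `A`-word and a `B`-word; a pinch forgets the old `B`-word, so the oracle of `B` is only asked
about words of linear length. The same algorithm serves for `K` and for `L₊`.
-/

namespace Vale.Agent.P193.Dec.Graph

open C B.Reduce

/-- A segment: an `A`-word and a `B`-word. -/
abbrev Seg : Type := Raw ℕ × Raw ℕ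

/-- The segments before the stable letters (top first) and the current segment. -/
abbrev State : Type := List (Seg × Bool) × Seg

section Algorithm

variable (tc : ℕ) (kA kB : ℕ → Bool) (mem : Raw ℕ → Bool) (oneB : Raw ℕ → Bool)
  (ph : Raw ℕ → Raw ℕ)

/-- Append a letter of the base. -/
def app (cur : Seg) (p : ℕ × Bool) : Seg :=
  (cond (kA p.1) (cur.1 ++ [p]) cur.1, cond (kB p.1) (cur.2 ++ [p]) cur.2)

/-- The test for a pinch. -/
def pinch (ε : Bool) (cur : Seg) : Bool :=
  mem cur.1 && oneB (cond ε cur.2 (cur.2 ++ FreeGroup.invRev (ph cur.1)))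

/-- The segment replacing a pinch. -/
def joinSeg (prev : Seg) (ε : Bool) (cur : Seg) : Seg :=
  (prev.1 ++ cur.1, prev.2 ++ cond ε (ph cur.1) [])

/-- A stable letter arrives. -/
def tStep (s : State) (δ : Bool) : State :=
  List.casesOn s.1 ([(s.2, δ)], ([], [])) fun top st =>
    cond (xor top.2 δ && pinch mem oneB ph top.2 s.2) (st, joinSeg ph top.1 top.2 s.2)
      ((s.2, δ) :: top :: st, ([], []))

/-- One letter. -/
def step (s : State) (p : ℕ × Bool) : State :=
  cond (p.1 == tc) (tStep mem oneB ph s p.2) (s.1, app kA kB s.2 p)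

/-- Reduce a word. -/
def run (w : Raw ℕ) : State := w.foldl (step tc kA kB mem oneB ph) ([], ([], []))

/-- The remaining segment, if no stable letter is left. -/
def flat (w : Raw ℕ) : Option Seg :=
  List.casesOn (run tc kA kB mem oneB ph w).1 (some (run tc kA kB mem oneB ph w).2) fun _ _ => none

end Algorithm

section Semantics

variable {S A B : Type} [Group S] [Group A] [Group B] (i : S →* A) (hi : Function.Injective i)
  (f : S →* B) (gA : ℕ → A) (gB : ℕ → B) {tc : ℕ} {kA kB : ℕ → Bool}

/-- The group. -/
abbrev KG : Type := HNNExtension (A × B) _ _ (graphEquiv i hi f)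

/-- The value of a letter. -/
noncomputable def gen (tc : ℕ) (kA kB : ℕ → Bool) (n : ℕ) : KG i hi f :=
  if n = tc then HNNExtension.t
  else HNNExtension.of (if kA n then gA n else 1, if kB n then gB n else 1)

/-- The value of a segment. -/
def sv (s : Seg) : A × B := (gval gA s.1, gval gB s.2)

/-- The value of a stable letter. -/
noncomputable def tv (ε : Bool) : KG i hi f :=
  cond ε HNNExtension.t (HNNExtension.t)⁻¹

/-- The sign of a stable letter. -/
def sg (ε : Bool) : ℤˣ := cond ε 1 (-1)

/-- The value of a stack followed by a segment. -/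
noncomputable def value : List (Seg × Bool) → Seg → KG i hi f
  | [], s => HNNExtension.of (sv gA gB s)
  | (p, ε) :: st, s => value st p * tv i hi f ε * HNNExtension.of (sv gA gB s)

/-- No pinch inside a stack. -/
def Red : List (Seg × Bool) → Prop
  | [] => True
  | [_] => True
  | (p, ε) :: (q, δ) :: st =>
    (sv gA gB p ∈ HNNExtension.toSubgroup (i.prod (1 : S →* B)).range (i.prod f).range (sg δ) →
      δ = ε) ∧ Red ((q, δ) :: st)

/-- The word of a stack. -/
def word : List (Seg × Bool) → Seg → List (ℤˣ × A × B)
  | [], _ => []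
  | (p, ε) :: st, s => word st p ++ [(sg ε, sv gA gB s)]

/-- The first segment. -/
def hd : List (Seg × Bool) → Seg → Seg
  | [], s => s
  | (p, _) :: st, _ => hd st p

theorem value_eq : ∀ (st : List (Seg × Bool)) (s : Seg), value i hi f gA gB st s =
    HNNExtension.of (sv gA gB (hd st s)) *
      ((word gA gB st s).map fun x => HNNExtension.t ^ (x.1 : ℤ) * HNNExtension.of x.2).prod
  | [], s => by simp [value, word, hd]
  | (p, ε) :: st, s => by
    rw [value, value_eq st p, word, hd, List.map_append, List.prod_append, mul_assoc, mul_assoc]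
    cases ε <;> simp [tv, sg]

theorem chain_word : ∀ (st : List (Seg × Bool)) (s : Seg), Red i f gA gB st →
    (word gA gB st s).IsChain fun a b =>
      a.2 ∈ HNNExtension.toSubgroup (i.prod (1 : S →* B)).range (i.prod f).range a.1 → a.1 = b.1
  | [], _, _ => List.isChain_nil
  | [(p, ε)], s, _ => by simp [word]
  | (p, ε) :: (q, δ) :: st, s, h => by
    rw [word]
    refine List.isChain_append.2 ⟨chain_word _ p h.2, List.isChain_singleton _, ?_⟩
    intro a ha b hb
    simp only [word, List.getLast?_append, List.getLast?_singleton, Option.mem_def,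
      Option.some_or, Option.some.injEq, List.head?_cons] at ha hb
    subst ha hb
    exact fun hm => congrArg sg (h.1 hm)

theorem eq_nil_of_value {st : List (Seg × Bool)} {s : Seg} (hr : Red i f gA gB st)
    (hv : value i hi f gA gB st s ∈ (HNNExtension.of : A × B →* KG i hi f).range) : st = [] := by
  let w : HNNExtension.NormalWord.ReducedWord (A × B) (i.prod (1 : S →* B)).range (i.prod f).range :=
    { head := sv gA gB (hd st s)
      toList := word gA gB st s
      chain := chain_word i f gA gB st s hr }
  have h := HNNExtension.ReducedWord.toList_eq_nil_of_mem_of_range (graphEquiv i hi f) w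
    (by rw [HNNExtension.NormalWord.ReducedWord.prod, ← value_eq]; exact hv)
  cases st with
  | nil => rfl
  | cons x st => simp [w, word] at h

/-- What the subroutines have to do, with queries up to length `N`. -/
structure Hyp (mem : Raw ℕ → Bool) (oneB : Raw ℕ → Bool) (ph : Raw ℕ → Raw ℕ) (C N : ℕ) :
    Prop where
  mem_spec : ∀ a, mem a = true ↔ gval gA a ∈ i.range
  ph_spec : ∀ a z, gval gA a = i z → gval gB (ph a) = f z
  ph_len : ∀ a, (ph a).length ≤ C * a.length
  one_spec : ∀ b, b.length ≤ N → (oneB b = true ↔ gval gB b = 1)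

variable {mem : Raw ℕ → Bool} {oneB : Raw ℕ → Bool} {ph : Raw ℕ → Raw ℕ} {C N : ℕ}

/-- The potential of a state. -/
def Small (C m : ℕ) (st : List (Seg × Bool)) (s : Seg) : Prop :=
  ((st.map fun x => x.1.1.length).sum + s.1.length ≤ m) ∧
    ((st.map fun x => x.1.2.length - C * x.1.1.length).sum + (s.2.length - C * s.1.length) ≤ m)

theorem Small.seg {m : ℕ} {st : List (Seg × Bool)} {s : Seg} (h : Small C m st s) :
    s.1.length ≤ m ∧ s.2.length ≤ m + C * m := by
  obtain ⟨h1, h2⟩ := h
  have := Nat.mul_le_mul_left C (show s.1.length ≤ m by omega)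
  omega

theorem pinch_spec (hp : Hyp i f gA gB mem oneB ph C N) {m : ℕ} {st : List (Seg × Bool)} {s : Seg}
    (hs : Small C m st s) (hm : (2 * C + 1) * m ≤ N) (ε : Bool) :
    pinch mem oneB ph ε s = true ↔
      sv gA gB s ∈ HNNExtension.toSubgroup (i.prod (1 : S →* B)).range (i.prod f).range (sg ε) := by
  obtain ⟨h1, h2⟩ := hs.seg
  have h3 := hp.ph_len s.1
  have h4 := Nat.mul_le_mul_left C h1
  have hN : m + C * m + C * m ≤ N := le_trans (le_of_eq (by ring)) hm
  rw [pinch, Bool.and_eq_true, hp.mem_spec]
  cases ε
  · simp only [cond_false, sg, HNNExtension.toSubgroup_neg_one, MonoidHom.mem_range,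
      MonoidHom.prod_apply, sv, Prod.mk.injEq]
    rw [hp.one_spec _ (by simp [FreeGroup.invRev_length]; omega), gval_append, gval_invRev,
      mul_inv_eq_one]
    refine ⟨fun ⟨⟨z, hz⟩, h⟩ => ⟨z, hz, (h.trans (hp.ph_spec _ z hz.symm)).symm⟩,
      fun ⟨z, hz, h⟩ => ⟨⟨z, hz⟩, ?_⟩⟩
    rw [hp.ph_spec _ z hz.symm, h]
  · simp only [cond_true, sg, HNNExtension.toSubgroup_one, MonoidHom.mem_range,
      MonoidHom.prod_apply, MonoidHom.one_apply, sv, Prod.mk.injEq]
    rw [hp.one_spec _ (by omega)]
    exact ⟨fun ⟨⟨z, hz⟩, h⟩ => ⟨z, hz, h.symm⟩, fun ⟨z, hz, h⟩ => ⟨⟨z, hz⟩, h.symm⟩⟩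

theorem tv_mul {ε : Bool} : tv i hi f ε * tv i hi f (!ε) = 1 := by cases ε <;> simp [tv]

theorem joinSeg_value (hp : Hyp i f gA gB mem oneB ph C N) {ε : Bool} {s prev : Seg}
    (hm : sv gA gB s ∈
      HNNExtension.toSubgroup (i.prod (1 : S →* B)).range (i.prod f).range (sg ε)) :
    (HNNExtension.of (sv gA gB (joinSeg ph prev ε s)) : KG i hi f) =
      HNNExtension.of (sv gA gB prev) * tv i hi f ε * HNNExtension.of (sv gA gB s) *
        tv i hi f (!ε) := by
  have key : ∀ z, (HNNExtension.t : KG i hi f) * HNNExtension.of (i z, 1) *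
      (HNNExtension.t : KG i hi f)⁻¹ = HNNExtension.of (i z, f z) := fun z => by
    have h := HNNExtension.equiv_eq_conj (G := A × B) (φ := graphEquiv i hi f)
      ⟨(i z, 1), z, rfl⟩
    rw [graphEquiv_apply] at h
    exact h.symm
  have split : ∀ a b, sv gA gB ((prev.1 ++ a, prev.2 ++ b) : Seg) =
      sv gA gB prev * (gval gA a, gval gB b) := fun a b => by simp [sv, gval_append]
  cases ε
  · simp only [sg, cond_false, HNNExtension.toSubgroup_neg_one, MonoidHom.mem_range] at hm
    obtain ⟨z, hz⟩ := hm
    have h0 : (gval gB ([] : Raw ℕ)) = 1 := by simp [gval, ← FreeGroup.one_eq_mk]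
    have ha : gval gA s.1 = i z := (congrArg Prod.fst hz).symm
    rw [joinSeg, split, map_mul, cond_false, h0, ha, ← hz, MonoidHom.prod_apply, ← key]
    simp [tv, mul_assoc]
  · simp only [sg, cond_true, HNNExtension.toSubgroup_one, MonoidHom.mem_range] at hm
    obtain ⟨z, hz⟩ := hm
    have ha : gval gA s.1 = i z := (congrArg Prod.fst hz).symm
    rw [joinSeg, split, map_mul, cond_true, hp.ph_spec _ z ha, ha, ← hz, MonoidHom.prod_apply,
      MonoidHom.one_apply, ← key]
    simp [tv, mul_assoc]

variable (tc kA kB) in
/-- The invariant after reading `w`. -/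
def Inv (C : ℕ) (w : Raw ℕ) (s : State) : Prop :=
  value i hi f gA gB s.1 s.2 = gval (gen i hi f gA gB tc kA kB) w ∧ Red i f gA gB s.1 ∧
    Small C w.length s.1 s.2

theorem gval_single {T G : Type} [Group G] (g : T → G) (x : T) (δ : Bool) :
    gval g [(x, δ)] = cond δ (g x) (g x)⁻¹ := by
  rw [gval, FreeGroup.lift_mk]
  cases δ <;> simp

theorem inv_step (hp : Hyp i f gA gB mem oneB ph C N) {w : Raw ℕ} {s : State}
    (h : Inv i hi f gA gB tc kA kB C w s) (hN : (2 * C + 1) * (w.length + 1) ≤ N) (p : ℕ × Bool) :
    Inv i hi f gA gB tc kA kB C (w ++ [p]) (step tc kA kB mem oneB ph s p) := by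
  obtain ⟨st, cur⟩ := s
  obtain ⟨x, δ⟩ := p
  obtain ⟨hv, hr, hsm⟩ := h
  have hv' : gval (gen i hi f gA gB tc kA kB) (w ++ [(x, δ)]) = value i hi f gA gB st cur *
      cond δ (gen i hi f gA gB tc kA kB x) (gen i hi f gA gB tc kA kB x)⁻¹ := by
    rw [gval_append, gval_single, ← hv]
  have hlen : (w ++ [(x, δ)]).length = w.length + 1 := by simp
  rw [Inv, hv', hlen]
  have hN' : (2 * C + 1) * w.length ≤ N := le_trans (Nat.mul_le_mul_left _ (Nat.le_succ _)) hN
  rcases eq_or_ne x tc with rfl | hx
  · have hg : cond δ (gen i hi f gA gB x kA kB x) (gen i hi f gA gB x kA kB x)⁻¹ =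
        tv i hi f δ := by
      simp [gen, tv]
    rw [hg]
    simp only [step, beq_self_eq_true, cond_true]
    cases st with
    | nil =>
      refine ⟨by simp [tStep, value, sv, gval, ← FreeGroup.one_eq_mk, Prod.mk_one_one],
        trivial, ?_⟩
      obtain ⟨a, b⟩ := hsm
      simp [tStep, Small] at a b ⊢
      omega
    | cons top st =>
      obtain ⟨prev, ε⟩ := top
      have hsp := pinch_spec i f gA gB hp hsm hN' ε
      cases hc : xor ε δ && pinch mem oneB ph ε cur with
      | false =>
        simp only [tStep, hc, cond_false]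
        refine ⟨by simp [value, sv, gval, ← FreeGroup.one_eq_mk, Prod.mk_one_one],
          ⟨fun hm => ?_, hr⟩, ?_⟩
        · rw [hsp.2 hm, Bool.and_true] at hc
          cases ε <;> cases δ <;> simp_all
        · obtain ⟨a, b⟩ := hsm
          simp [Small] at a b ⊢
          omega
      | true =>
        simp only [Bool.and_eq_true] at hc
        have hδ : δ = !ε := by cases ε <;> cases δ <;> simp_all
        subst hδ
        simp only [tStep, hc.1, hc.2, Bool.and_self, cond_true]
        refine ⟨?_, ?_, ?_⟩
        · have hj := joinSeg_value i hi f gA gB hp (prev := prev) (hsp.1 hc.2)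
          cases st with
          | nil => simp only [value, hj]
          | cons t st =>
            obtain ⟨q, η⟩ := t
            simp only [value, hj, mul_assoc]
        · cases st with
          | nil => trivial
          | cons t st => exact hr.2
        · obtain ⟨a, b⟩ := hsm
          have h3 := hp.ph_len cur.1
          simp [Small, joinSeg] at a b ⊢
          refine ⟨by omega, ?_⟩
          cases ε <;> simp [Nat.mul_add] <;> omega
  · have hne : (x == tc) = false := by simpa using hx
    simp only [step, hne, cond_false]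
    refine ⟨?_, hr, ?_⟩
    · have hA : gval gA (app kA kB cur (x, δ)).1 =
          gval gA cur.1 * cond δ (if kA x then gA x else 1) (if kA x then gA x else 1)⁻¹ := by
        cases hk : kA x <;> simp [app, hk, gval_append, gval_single]
      have hB : gval gB (app kA kB cur (x, δ)).2 =
          gval gB cur.2 * cond δ (if kB x then gB x else 1) (if kB x then gB x else 1)⁻¹ := by
        cases hk : kB x <;> simp [app, hk, gval_append, gval_single]
      have hs : sv gA gB (app kA kB cur (x, δ)) = sv gA gB cur *
          cond δ (if kA x then gA x else 1, if kB x then gB x else 1)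
            (if kA x then gA x else 1, if kB x then gB x else 1)⁻¹ := by
        refine Prod.ext (hA.trans ?_) (hB.trans ?_) <;> cases δ <;> rfl
      have hg : cond δ (gen i hi f gA gB tc kA kB x) (gen i hi f gA gB tc kA kB x)⁻¹ =
          HNNExtension.of (cond δ (if kA x then gA x else 1, if kB x then gB x else 1)
            (if kA x then gA x else 1, if kB x then gB x else 1)⁻¹) := by
        cases δ <;> simp [gen, hx, ← map_inv]
      rw [hg]
      cases st with
      | nil => simp only [value, hs, map_mul]
      | cons t st =>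
        obtain ⟨q, η⟩ := t
        simp only [value, hs, map_mul, mul_assoc]
    · obtain ⟨a, b⟩ := hsm
      simp [Small, app] at a b ⊢
      cases kA x <;> cases kB x <;> simp [Nat.mul_add] <;> omega

theorem inv_run (hp : Hyp i f gA gB mem oneB ph C N) (w : Raw ℕ)
    (hN : (2 * C + 1) * w.length ≤ N) :
    Inv i hi f gA gB tc kA kB C w (run tc kA kB mem oneB ph w) := by
  induction w using List.reverseRecOn with
  | nil =>
    refine ⟨?_, trivial, by simp [run, Small]⟩
    simp [run, value, sv, gval, ← FreeGroup.one_eq_mk, Prod.mk_one_one]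
  | append_singleton w p ih =>
    rw [List.length_append, List.length_singleton] at hN
    rw [run, List.foldl_append, List.foldl_cons, List.foldl_nil]
    exact inv_step i hi f gA gB hp
      (ih (le_trans (Nat.mul_le_mul_left _ (Nat.le_succ _)) hN)) hN p

include hi in
/-- Membership in the base, decided by the stack. -/
theorem flat_spec (hp : Hyp i f gA gB mem oneB ph C N) (w : Raw ℕ)
    (hN : (2 * C + 1) * w.length ≤ N) :
    (∀ s, flat tc kA kB mem oneB ph w = some s →
      gval (gen i hi f gA gB tc kA kB) w = HNNExtension.of (sv gA gB s) ∧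
        s.1.length ≤ w.length ∧ s.2.length ≤ (C + 1) * w.length) ∧
    (flat tc kA kB mem oneB ph w = none →
      gval (gen i hi f gA gB tc kA kB) w ∉ (HNNExtension.of : A × B →* KG i hi f).range) := by
  have h := inv_run i hi f gA gB (tc := tc) (kA := kA) (kB := kB) hp w hN
  revert h
  rw [flat]
  generalize run tc kA kB mem oneB ph w = s
  obtain ⟨st, cur⟩ := s
  rintro ⟨hv, hr, hs⟩
  cases st with
  | nil =>
    refine ⟨fun s hs' => ?_, fun h => by simp at h⟩
    simp only [Option.some.injEq] at hs'
    subst hs'
    exact ⟨hv.symm, hs.seg.1, hs.seg.2.trans (le_of_eq (by ring))⟩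
  | cons t st =>
    refine ⟨fun s hs' => by simp at hs', fun _ hm => ?_⟩
    rw [← hv] at hm
    exact List.cons_ne_nil _ _ (eq_nil_of_value i hi f gA gB hr hm)

end Semantics

end Vale.Agent.P193.Dec.Graph
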