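import Vale.Agent.P193.Dec.Base
import Vale.Agent.P193.Dec.Graph

/-!
# P193, part D: the stack of `Graph` is computable in its subroutines
-/

namespace Vale.Agent.P193.Dec.Graph

open B.Reduce

/-- Computable case distinction on a list. -/
theorem computable_listCases {σ β γ : Type} [Primcodable σ] [Primcodable β] [Primcodable γ]
    {l : σ → List β} {f : σ → γ} {g : σ → β × List β → γ} (hl : Computable l) (hf : Computable f)
    (hg : Computable₂ g) :
    Computable fun x => List.casesOn (motive := fun _ => γ) (l x) (f x) fun a t => g x (a, t) := by
  refine (Computable.option_casesOn (Primrec.list_head?.to_comp.comp hl) hf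
    ((hg.comp Computable.fst (Computable.snd.pair
      (Primrec.list_tail.to_comp.comp (hl.comp Computable.fst)))).to₂)).of_eq fun x => ?_
  cases h : l x <;> simp [h]

variable {σ : Type} [Primcodable σ] {mem oneB : σ → Raw ℕ → Bool} {ph : σ → Raw ℕ → Raw ℕ}
  (hm : Computable₂ mem) (ho : Computable₂ oneB) (hph : Computable₂ ph)

include hm ho hph in
theorem computable_pinch {ε : σ → Bool} {cur : σ → Seg} (he : Computable ε) (hc : Computable cur) :
    Computable fun x => pinch (mem x) (oneB x) (ph x) (ε x) (cur x) := by
  have h1 : Computable fun x => (cur x).1 := Computable.fst.comp hc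
  have h2 : Computable fun x => (cur x).2 := Computable.snd.comp hc
  exact Primrec.and.to_comp.comp (hm.comp Computable.id h1)
    (ho.comp Computable.id (Computable.cond he h2 (Computable.list_append.comp h2
      (primrec_invRev.to_comp.comp (hph.comp Computable.id h1)))))

include hph in
theorem computable_joinSeg {prev cur : σ → Seg} {ε : σ → Bool} (hp : Computable prev)
    (he : Computable ε) (hc : Computable cur) :
    Computable fun x => joinSeg (ph x) (prev x) (ε x) (cur x) :=
  (Computable.list_append.comp (Computable.fst.comp hp) (Computable.fst.comp hc)).pair
    (Computable.list_append.comp (Computable.snd.comp hp) (Computable.cond he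
      (hph.comp Computable.id (Computable.fst.comp hc)) (Computable.const [])))

include hm ho hph in
theorem computable_tStep {s : σ → State} {δ : σ → Bool} (hs : Computable s) (hd : Computable δ) :
    Computable fun x => tStep (mem x) (oneB x) (ph x) (s x) (δ x) := by
  have hst : Computable fun x => (s x).1 := Computable.fst.comp hs
  have hcur : Computable fun x => (s x).2 := Computable.snd.comp hs
  let τ := σ × (Seg × Bool) × List (Seg × Bool)
  have lift : ∀ {g : σ → Raw ℕ → Bool}, Computable₂ g →
      Computable₂ fun (q : τ) v => g q.1 v := fun hg =>
    (hg.comp (Computable.fst.comp Computable.fst) Computable.snd).to₂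
  have hph' : Computable₂ fun (q : τ) v => ph q.1 v :=
    (hph.comp (Computable.fst.comp Computable.fst) Computable.snd).to₂
  have htop : Computable fun q : τ => q.2.1.2 :=
    Computable.snd.comp (Computable.fst.comp Computable.snd)
  have hprev : Computable fun q : τ => q.2.1.1 :=
    Computable.fst.comp (Computable.fst.comp Computable.snd)
  have hc' : Computable fun q : τ => (s q.1).2 := hcur.comp Computable.fst
  have hd' : Computable fun q : τ => δ q.1 := hd.comp Computable.fst
  have body : Computable fun q : τ =>
      cond (xor q.2.1.2 (δ q.1) && pinch (mem q.1) (oneB q.1) (ph q.1) q.2.1.2 (s q.1).2)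
        ((q.2.2, joinSeg (ph q.1) q.2.1.1 q.2.1.2 (s q.1).2) : State)
        (((s q.1).2, δ q.1) :: q.2.1 :: q.2.2, ([], [])) :=
    Computable.cond
      (Primrec.and.to_comp.comp
        ((Primrec.dom_bool₂ xor).to_comp.comp htop hd')
        (computable_pinch (lift hm) (lift ho) hph' htop hc'))
      ((Computable.snd.comp Computable.snd).pair (computable_joinSeg hph' hprev htop hc'))
      ((Computable.list_cons.comp (hc'.pair hd')
        (Computable.list_cons.comp (Computable.fst.comp Computable.snd)
          (Computable.snd.comp Computable.snd))).pair (Computable.const ([], [])))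
  have e : ∀ x, tStep (mem x) (oneB x) (ph x) (s x) (δ x) =
      List.casesOn (s x).1 ([((s x).2, δ x)], ([], [])) (fun a l =>
        cond (xor a.2 (δ x) && pinch (mem x) (oneB x) (ph x) a.2 (s x).2)
          ((l, joinSeg (ph x) a.1 a.2 (s x).2) : State)
          (((s x).2, δ x) :: a :: l, ([], []))) := fun _ => rfl
  refine Computable.of_eq (computable_listCases hst
    ((Computable.list_cons.comp (hcur.pair hd) (Computable.const [])).pair
      (Computable.const ([], []))) body.to₂) fun x => (e x).symm

include hm ho hph in
/-- The remaining segment is computable. -/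
theorem computable_flat (tc : ℕ) {kA kB : ℕ → Bool} (hA : Computable kA) (hB : Computable kB)
    {w : σ → Raw ℕ} (hw : Computable w) :
    Computable fun x => flat tc kA kB (mem x) (oneB x) (ph x) (w x) := by
  let τ := σ × State × ℕ × Bool
  have lift : ∀ {g : σ → Raw ℕ → Bool}, Computable₂ g →
      Computable₂ fun (q : τ) v => g q.1 v := fun hg =>
    (hg.comp (Computable.fst.comp Computable.fst) Computable.snd).to₂
  have hph' : Computable₂ fun (q : τ) v => ph q.1 v :=
    (hph.comp (Computable.fst.comp Computable.fst) Computable.snd).to₂
  have hs : Computable fun q : τ => q.2.1 := Computable.fst.comp Computable.snd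
  have hp : Computable fun q : τ => q.2.2 := Computable.snd.comp Computable.snd
  have hx : Computable fun q : τ => q.2.2.1 := Computable.fst.comp hp
  have hcur : Computable fun q : τ => q.2.1.2 := Computable.snd.comp hs
  have happ : Computable fun q : τ => app kA kB q.2.1.2 q.2.2 :=
    (Computable.cond (hA.comp hx)
      (Computable.list_append.comp (Computable.fst.comp hcur)
        (Computable.list_cons.comp hp (Computable.const [])))
      (Computable.fst.comp hcur)).pair
    (Computable.cond (hB.comp hx)
      (Computable.list_append.comp (Computable.snd.comp hcur)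
        (Computable.list_cons.comp hp (Computable.const [])))
      (Computable.snd.comp hcur))
  have hstep : Computable₂ fun (x : σ) (q : State × ℕ × Bool) =>
      step tc kA kB (mem x) (oneB x) (ph x) q.1 q.2 :=
    (Computable.cond
      ((Primrec.beq (α := ℕ)).to_comp.comp hx (Computable.const tc))
      (computable_tStep (lift hm) (lift ho) hph' hs (Computable.snd.comp hp))
      ((Computable.fst.comp hs).pair happ)).to₂
  have hrun : Computable fun x => run tc kA kB (mem x) (oneB x) (ph x) (w x) :=
    computable_foldl hw (Computable.const (([], ([], [])) : State)) hstep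
  exact (computable_listCases (Computable.fst.comp hrun)
    (Computable.option_some.comp (Computable.snd.comp hrun))
    (Computable.const (none : Option Seg)).to₂).of_eq fun _ => rfl

end Vale.Agent.P193.Dec.Graph
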