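import Vale.Agent.P193.Dec.Code
import Vale.Agent.P193.Dec.Base

/-!
# P193, module Dec/Phi: a computable word for the values of `φ`

If the `Γ₂` part `g` of a coded word lies in `Σ` then `v (g, 1) v⁻¹ (g, 1)⁻¹ = (1, φ g)` holds in
`K`, so a word for the right-hand side can be searched for in the presentation; the bound on `φ`
makes the search succeed within the stated length.
-/

namespace Vale.Agent.P193.Dec

open C B

/-- The codes of the generators of `Γ₂`. -/
def isGam (n : ℕ) : Bool := decide (n = 48 ∨ n = 49 ∨ 52 ≤ n)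

/-- The `Γ₂` part of a coded word. -/
def gamWord (w : Reduce.Raw ℕ) : Reduce.Raw ℕ := w.filter fun p => isGam p.1

/-- The word `v (g, 1) v⁻¹ (g, 1)⁻¹`. -/
def vWord (w : Reduce.Raw ℕ) : Reduce.Raw ℕ :=
  (51, true) :: (gamWord w ++ ((51, false) :: FreeGroup.invRev (gamWord w)))

theorem primrec_isGam : Primrec isGam :=
  ((Primrec.eq.comp Primrec.id (Primrec.const 48)).or
    ((Primrec.eq.comp Primrec.id (Primrec.const 49)).or
      (Primrec.nat_le.comp (Primrec.const 52) Primrec.id))).decide

theorem primrec_gamWord : Primrec gamWord :=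
  ((Primrec.listFilter
    (Primrec.eq.comp (primrec_isGam.comp Primrec.fst) (Primrec.const true))).of_eq fun w => by
      simp [gamWord])

theorem primrec_vWord : Primrec vWord :=
  Primrec.list_cons.comp (Primrec.const ((51, true) : ℕ × Bool))
    (Primrec.list_append.comp primrec_gamWord
      (Primrec.list_cons.comp (Primrec.const ((51, false) : ℕ × Bool))
        (primrec_invRev.comp primrec_gamWord)))

/-- A total search for a witness of an r.e. relation. -/
theorem exists_choice {α β : Type*} [Primcodable α] [Primcodable β] [Inhabited β] {Q : α → β → Prop}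
    (hQ : REPred fun p : α × β => Q p.1 p.2) (hex : ∀ a, ∃ b, Q a b) :
    ∃ f : α → β, Computable f ∧ ∀ a, Q a (f a) := by
  obtain ⟨c, hc, hcQ⟩ := rePred_iff.1 hQ
  let t : α → ℕ → Bool := fun a m =>
    (Encodable.decode (α := β) m.unpair.1).elim false fun b => c (a, b) m.unpair.2
  have ht : Computable₂ t := by
    refine Computable.of_eq (Computable.option_casesOn
      (Computable.decode.comp (Computable.fst.comp (Computable.unpair.comp Computable.snd)))
      (Computable.const false)
      ((hc.comp (Computable.pair (Computable.fst.comp Computable.fst) Computable.snd)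
        (Computable.snd.comp
          (Computable.unpair.comp (Computable.snd.comp Computable.fst)))).to₂)) fun p => ?_
    simp only [t]
    cases Encodable.decode (α := β) p.2.unpair.1 <;> rfl
  have htot : ∀ a, ∃ m, t a m = true := fun a => by
    obtain ⟨b, hb⟩ := hex a
    obtain ⟨n, hn⟩ := (hcQ (a, b)).1 hb
    exact ⟨Nat.pair (Encodable.encode b) n, by simp [t, hn]⟩
  classical
  let g : α → β := fun a => (Encodable.decode (α := β) (Nat.find (htot a)).unpair.1).getD default
  have hfind : Computable fun a => Nat.find (htot a) := by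
    refine (Partrec.rfind (p := fun a m => Part.some (t a m)) ht.partrec₂).of_eq fun a => ?_
    refine Part.eq_some_iff.2 (Nat.mem_rfind.2 ⟨?_, fun {m} hm => ?_⟩)
    · exact Part.mem_some_iff.2 (Nat.find_spec (htot a)).symm
    · exact Part.mem_some_iff.2 (Bool.eq_false_iff.2 (Nat.find_min (htot a) hm)).symm
  refine ⟨g, Computable.option_getD (Computable.decode.comp
    (Computable.fst.comp (Computable.unpair.comp hfind))) (Computable.const default), fun a => ?_⟩
  have hm := Nat.find_spec (htot a)
  simp only [t] at hm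
  simp only [g]
  cases hd : Encodable.decode (α := β) (Nat.find (htot a)).unpair.1 with
  | none => simp [hd] at hm
  | some b => exact (hcQ (a, b)).2 ⟨(Nat.find (htot a)).unpair.2, by simpa [hd] using hm⟩

/-- The generators of `Γ₂`. -/
def isGamGen {α κ : Type} : KGen α κ → Bool
  | .w _ | .cw | .t => true
  | _ => false

theorem map_isGamGen_decK (M : Mach nL) (n : ℕ) :
    (decK M n).map isGamGen = if n < 126 + M.rules.length then some (isGam n) else none := by
  unfold decK
  by_cases h0 : n < 24
  · rw [dif_pos h0, if_pos (by omega), Option.map_some]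
    exact congrArg some (decide_eq_false (by omega)).symm
  rw [dif_neg h0]
  by_cases h1 : n - 24 < 24
  · rw [dif_pos h1, if_pos (by omega), Option.map_some]
    exact congrArg some (decide_eq_false (by omega)).symm
  rw [dif_neg h1]
  by_cases h2 : n = 48
  · rw [if_pos h2, if_pos (by omega), Option.map_some]
    exact congrArg some (decide_eq_true (by omega)).symm
  rw [if_neg h2]
  by_cases h3 : n = 49
  · rw [if_pos h3, if_pos (by omega), Option.map_some]
    exact congrArg some (decide_eq_true (by omega)).symm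
  rw [if_neg h3]
  by_cases h4 : n = 50
  · rw [if_pos h4, if_pos (by omega), Option.map_some]
    exact congrArg some (decide_eq_false (by omega)).symm
  rw [if_neg h4]
  by_cases h5 : n = 51
  · rw [if_pos h5, if_pos (by omega), Option.map_some]
    exact congrArg some (decide_eq_false (by omega)).symm
  rw [if_neg h5]
  by_cases h6 : n = 52
  · rw [if_pos h6, if_pos (by omega), Option.map_some]
    exact congrArg some (decide_eq_true (by omega)).symm
  rw [if_neg h6]
  by_cases h7 : n = 53
  · rw [if_pos h7, if_pos (by omega), Option.map_some]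
    exact congrArg some (decide_eq_true (by omega)).symm
  rw [if_neg h7]
  by_cases h8 : n - 54 < 24
  · rw [dif_pos h8, if_pos (by omega), Option.map_some]
    exact congrArg some (decide_eq_true (by omega)).symm
  rw [dif_neg h8]
  by_cases h9 : n - 78 < 24
  · rw [dif_pos h9, if_pos (by omega), Option.map_some]
    exact congrArg some (decide_eq_true (by omega)).symm
  rw [dif_neg h9]
  by_cases h10 : n - 102 < 24
  · rw [dif_pos h10, if_pos (by omega), Option.map_some]
    exact congrArg some (decide_eq_true (by omega)).symm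
  rw [dif_neg h10]
  by_cases h11 : n - 126 < M.rules.length
  · rw [dif_pos h11, if_pos (by omega), Option.map_some]
    exact congrArg some (decide_eq_true (by omega)).symm
  rw [dif_neg h11]
  rw [if_neg (by omega), Option.map_none]

theorem isGamGen_decK (M : Mach nL) {n : ℕ} {g : KGen M.WGen (Fin nL)} (h : decK M n = some g) :
    isGamGen g = isGam n := by
  have h2 := map_isGamGen_decK M n
  rw [h, Option.map_some] at h2
  by_cases hn : n < 126 + M.rules.length
  · rw [if_pos hn] at h2
    exact Option.some.inj h2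
  · rw [if_neg hn] at h2
    exact absurd h2 (Option.some_ne_none _)

/-- The undefined codes are those above the rules. -/
theorem decK_eq_none_iff (M : Mach nL) (n : ℕ) :
    decK M n = none ↔ 126 + M.rules.length ≤ n := by
  rw [← Option.map_eq_none_iff (f := isGamGen), map_isGamGen_decK]
  by_cases h : n < 126 + M.rules.length
  · rw [if_pos h]
    exact iff_of_false (Option.some_ne_none _) (by omega)
  · rw [if_neg h]
    exact iff_of_true rfl (by omega)

variable {ι κ W : Type} [Group W] {α : Type} {B : C.Base ι κ W} (D : B.Words α)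

/-- The retraction of `K` onto `Γ₂`. -/
noncomputable def retr (B : C.Base ι κ W) : B.K →* B.Gam :=
  HNNExtension.lift (MonoidHom.fst _ _) 1
    (graph_cond B.incl B.incl_injective B.phi (MonoidHom.fst _ _) 1 fun s => by simp)

theorem retr_of (x : B.Gam × B.Lp) : retr B (HNNExtension.of x) = x.1 := by
  simp [retr]

theorem retr_toK (g : KGen α κ) :
    (HNNExtension.of (retr B (D.toK (FreeGroup.of g)), 1) : B.K) =
      if isGamGen g then D.toK (FreeGroup.of g) else 1 := by
  cases g <;> simp [Base.Words.toK, retr, isGamGen, Prod.mk_one_one]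

/-- Filtering a word along an idempotent map. -/
theorem gval_filter {T Γ : Type} [Group Γ] (g : T → Γ) (ρ : Γ →* Γ) (P : T → Bool)
    (h : ∀ n, ρ (g n) = if P n then g n else 1) (w : Reduce.Raw T) :
    Reduce.gval g (w.filter fun p => P p.1) = ρ (Reduce.gval g w) := by
  induction w with
  | nil => simp [Reduce.gval, ← FreeGroup.one_eq_mk]
  | cons x w ih =>
    obtain ⟨n, b⟩ := x
    have hcons : ∀ v : Reduce.Raw T,
        Reduce.gval g ((n, b) :: v) = cond b (g n) (g n)⁻¹ * Reduce.gval g v := fun v => by
      simp [Reduce.gval, FreeGroup.lift_mk]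
    cases hn : P n <;> cases b <;> simp [hn, hcons, ih, h n]

namespace Family

variable {acc : ℕ → List (Fin nL) → Bool} (Φ : Family acc) (e : ℕ)

/-- `x ↦ (Γ₂ part of x, 1)`. -/
noncomputable def gamEnd : Φ.K e →* Φ.K e :=
  (HNNExtension.of.comp (MonoidHom.inl _ _)).comp (Φ.gamPart e)

/-- The codes of `Γ₂` are fixed, the others are killed. -/
theorem gamEnd_kg (n : ℕ) : Φ.gamEnd e (Φ.kg e n) = if isGam n then Φ.kg e n else 1 := by
  unfold kg
  cases h : decK (Φ.M e) n with
  | none => simp
  | some g =>
    simp only [Option.elim_some]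
    rw [← isGamGen_decK _ h]
    exact retr_toK ((Φ.M e).words (Φ.hA e) (Φ.hK e)) g

theorem kval_gamWord (w : Reduce.Raw ℕ) :
    Φ.kval e (gamWord w) = HNNExtension.of (Φ.gamPart e (Φ.kval e w), 1) :=
  gval_filter (Φ.kg e) (Φ.gamEnd e) isGam (gamEnd_kg Φ e) w

theorem kval_vWord (w : Reduce.Raw ℕ) {z : (Φ.base e).Sig}
    (h : Φ.gamPart e (Φ.kval e w) = (Φ.base e).incl z) :
    Φ.kval e (vWord w) = HNNExtension.of (1, (Φ.base e).phi z) := by
  have hv : Φ.kg e 51 = HNNExtension.t := by
    simp [kg, decK, Base.Words.toK]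
  have h0 : Φ.kval e (vWord w) = Φ.kg e 51 * Φ.kval e (gamWord w) * (Φ.kg e 51)⁻¹ *
      (Φ.kval e (gamWord w))⁻¹ := by
    unfold kval vWord
    rw [show ((51, true) :: (gamWord w ++ ((51, false) :: FreeGroup.invRev (gamWord w)))) =
        [((51 : ℕ), true)] ++ (gamWord w ++ ([(51, false)] ++ FreeGroup.invRev (gamWord w))) from rfl,
      Reduce.gval_append, Reduce.gval_append, Reduce.gval_append, Reduce.gval_invRev]
    simp [Reduce.gval, FreeGroup.lift_mk, mul_assoc]
  rw [h0, kval_gamWord, h, hv, Base.Words.v_of, mul_inv_eq_iff_eq_mul, ← map_mul]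
  simp

/-- A computable word for `φ`: linear, in the letters `y`, `y'`, `σ`. -/
structure PhiSolver (S : Φ.SigmaSolver) (C : ℕ) where
  f : ℕ → Reduce.Raw ℕ → Reduce.Raw ℕ
  f_computable : Computable₂ f
  spec : ∀ e w, S.mem e w = true →
    (f e w).length ≤ C * w.length ∧ (∀ p ∈ f e w, p.1 < 48 ∨ p.1 = 50) ∧
      ∃ z, Φ.gamPart e (Φ.kval e w) = (Φ.base e).incl z ∧
        Φ.kval e (f e w) = HNNExtension.of (1, (Φ.base e).phi z)

/-- What the search looks for. -/
def PhiWit (C : ℕ) (p : ℕ × Reduce.Raw ℕ) (u : Reduce.Raw ℕ) : Prop :=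
  u.length ≤ C * p.2.length ∧ (∀ q ∈ u, q.1 < 48 ∨ q.1 = 50) ∧
    Φ.kval p.1 (vWord p.2 ++ FreeGroup.invRev u) = 1

theorem rePred_kval_eq_one (R : Φ.KRels) {σ : Type} [Primcodable σ] {fe : σ → ℕ}
    {fw : σ → List (ℕ × Bool)} (he : Computable fe) (hw : Computable fw) :
    REPred fun s => Φ.kval (fe s) (fw s) = 1 := by
  have hlen : Computable fun e => (Φ.M e).rules.length :=
    (Computable.list_length.comp Φ.rules_computable).of_eq fun e => by simp
  let Rel : σ → Word ℕ → Prop := fun s r => r ∈ R.list (fe s) ∨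
    ∃ n, r = [(n, true)] ∧ 126 + (Φ.M (fe s)).rules.length ≤ n
  have hRel : REPred fun p : σ × Word ℕ => Rel p.1 p.2 := by
    refine rePred_or ((computablePred_exists_mem
        (R := fun (p : σ × Word ℕ) (r : Word ℕ) => p.2 = r)
        (computablePred_eq (Computable.snd.comp Computable.fst) Computable.snd)
        (R.computable.comp (he.comp Computable.fst))).to_re.of_eq fun p => by simp)
      (rePred_exists (rePred_and
        (computablePred_eq (Computable.snd.comp Computable.fst)
          (Computable.list_cons.comp (Computable.pair Computable.snd (Computable.const true))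
            (Computable.const []))).to_re
        ((computablePred_eq
          ((Primrec.nat_sub.to_comp).comp
            ((Primrec.nat_add.to_comp).comp (Computable.const 126)
              (hlen.comp (he.comp (Computable.fst.comp Computable.fst))))
            Computable.snd)
          (Computable.const 0)).to_re.of_eq fun p => by omega)))
  refine (rePred_mem_normalClosure hRel hw).of_eq fun s => ?_
  rw [R.spec]
  refine Iff.of_eq (congrArg (fun S => FreeGroup.mk (fw s) ∈ Subgroup.normalClosure S) ?_)
  ext x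
  simp only [Rel, Set.mem_image, Set.mem_ofPred_eq, Set.mem_union, decK_eq_none_iff]
  constructor
  · rintro ⟨r, hr | ⟨n, rfl, hn⟩, rfl⟩
    · exact Or.inl ⟨r, hr, rfl⟩
    · exact Or.inr ⟨n, hn, rfl⟩
  · rintro (⟨r, hr, rfl⟩ | ⟨n, hn, rfl⟩)
    · exact ⟨r, Or.inl hr, rfl⟩
    · exact ⟨[(n, true)], Or.inr ⟨n, rfl, hn⟩, rfl⟩

theorem rePred_phiWit (R : Φ.KRels) (C : ℕ) :
    REPred fun q : (ℕ × Reduce.Raw ℕ) × Reduce.Raw ℕ => Φ.PhiWit C q.1 q.2 := by
  refine rePred_and ?_ (rePred_and ?_ (Φ.rePred_kval_eq_one R
    (Computable.fst.comp Computable.fst)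
    (Computable.list_append.comp (primrec_vWord.to_comp.comp (Computable.snd.comp Computable.fst))
      (primrec_invRev.to_comp.comp Computable.snd))))
  · exact (computablePred_eq
      (Primrec.nat_sub.to_comp.comp (Computable.list_length.comp Computable.snd)
        (Primrec.nat_mul.to_comp.comp (Computable.const C)
          (Computable.list_length.comp (Computable.snd.comp Computable.fst))))
      (Computable.const 0)).to_re.of_eq fun q => by omega
  · refine (rePred_forall_mem (R := fun (_ : (ℕ × Reduce.Raw ℕ) × Reduce.Raw ℕ) (p : ℕ × Bool) =>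
      p.1 < 48 ∨ p.1 = 50) ?_ Computable.snd)
    have h : PrimrecPred fun p : ((ℕ × Reduce.Raw ℕ) × Reduce.Raw ℕ) × (ℕ × Bool) =>
        p.2.1 < 48 ∨ p.2.1 = 50 :=
      (Primrec.nat_lt.comp (Primrec.fst.comp Primrec.snd) (Primrec.const 48)).or
        (Primrec.eq.comp (Primrec.fst.comp Primrec.snd) (Primrec.const 50))
    exact h.computablePred.to_re

/-- The search for `φ`. -/
theorem nonempty_phiSolver (S : Φ.SigmaSolver) (R : Φ.KRels) {C : ℕ} (hC : Φ.PhiBound C) :
    Nonempty (Φ.PhiSolver S C) := by
  have hex : ∀ p : ℕ × Reduce.Raw ℕ, ∃ u, S.mem p.1 p.2 = false ∨ Φ.PhiWit C p u := by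
    rintro ⟨e, w⟩
    cases hm : S.mem e w with
    | false => exact ⟨[], Or.inl rfl⟩
    | true =>
      obtain ⟨z, hz⟩ := (S.mem_spec e w).1 hm
      obtain ⟨u, hlen, hlet, hu⟩ := hC e w z hz.symm
      refine ⟨u, Or.inr ⟨hlen, hlet, ?_⟩⟩
      show Reduce.gval (Φ.kg e) (vWord w ++ FreeGroup.invRev u) = 1
      rw [Reduce.gval_append, Reduce.gval_invRev, mul_inv_eq_one]
      exact (Φ.kval_vWord e w hz.symm).trans hu.symm
  obtain ⟨f, hf, hfs⟩ := exists_choice
    (Q := fun (p : ℕ × Reduce.Raw ℕ) (u : Reduce.Raw ℕ) => S.mem p.1 p.2 = false ∨ Φ.PhiWit C p u)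
    (rePred_or ((computablePred_eq
      (S.mem_computable.comp (Computable.fst.comp Computable.fst)
        (Computable.snd.comp Computable.fst)) (Computable.const false)).to_re)
      (Φ.rePred_phiWit R C)) hex
  refine ⟨⟨fun e w => f (e, w), hf.to₂, fun e w hm => ?_⟩⟩
  obtain h | ⟨hlen, hlet, hu⟩ := hfs (e, w)
  · exact absurd (show S.mem e w = false from h) (by simp [hm])
  obtain ⟨z, hz⟩ := (S.mem_spec e w).1 hm
  refine ⟨hlen, hlet, z, hz.symm, ?_⟩
  rw [← Φ.kval_vWord e w hz.symm]
  simp only [Family.kval, Reduce.gval_append, Reduce.gval_invRev, mul_inv_eq_one] at hu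
  exact hu.symm

/-- The specification for a given point of `Σ`. -/
theorem PhiSolver.spec' {S : Φ.SigmaSolver} {C : ℕ} (P : Φ.PhiSolver S C) (e : ℕ)
    (w : Reduce.Raw ℕ) (z : (Φ.base e).Sig)
    (hz : Φ.gamPart e (Φ.kval e w) = (Φ.base e).incl z) :
    (P.f e w).length ≤ C * w.length ∧ (∀ p ∈ P.f e w, p.1 < 48 ∨ p.1 = 50) ∧
      Φ.kval e (P.f e w) = HNNExtension.of (1, (Φ.base e).phi z) := by
  obtain ⟨h1, h2, z', hz', h3⟩ := P.spec e w ((S.mem_spec e w).2 ⟨z, hz.symm⟩)
  rw [(Φ.base e).incl_injective (hz.symm.trans hz')]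
  exact ⟨h1, h2, h3⟩

end Family

end Vale.Agent.P193.Dec
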