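import Vale.Agent.P193.Dec.Code
import Vale.Agent.P193.Dec.Phi

/-!
# P193, part D: the coded presentation of `K` and the letters of `L` inside it
-/

namespace Vale.Agent.P193.Dec

open C B

/-- Every generator of `K` has a code. -/
theorem exists_code (M : Mach nL) (g : KGen M.WGen (Fin nL)) :
    ∃ n, decK M n = some g := by
  rcases g with (_ | _) | _ | _ | k | k | _ | _
  case w.inl b =>
    cases b
    · exact ⟨53, by simp [decK]⟩
    · exact ⟨52, by simp [decK]⟩
  case cw => exact ⟨48, by simp [decK]⟩
  case t => exact ⟨49, by simp [decK]⟩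
  case s => exact ⟨50, by simp [decK]⟩
  case v => exact ⟨51, by simp [decK]⟩
  case y' => exact ⟨k, by rw [decK, dif_pos k.2]⟩
  case y =>
    refine ⟨(k : ℕ) + 24, ?_⟩
    rw [decK, dif_neg (by omega), dif_pos (by simp)]
    simp
  case w.inr a =>
    rcases a with i | r
    · refine ⟨(i : ℕ) + 54, ?_⟩
      have := i.2
      simp only [decK]
      rw [dif_neg (by omega), dif_neg (by omega), if_neg (by omega), if_neg (by omega),
        if_neg (by omega), if_neg (by omega), if_neg (by omega), if_neg (by omega),
        dif_pos (by simp)]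
      simp
    · cases r with
      | q i =>
        refine ⟨(i : ℕ) + 78, ?_⟩
        have := i.2
        simp only [decK]
        rw [dif_neg (by omega), dif_neg (by omega), if_neg (by omega), if_neg (by omega),
          if_neg (by omega), if_neg (by omega), if_neg (by omega), if_neg (by omega),
          dif_neg (by omega), dif_pos (by simp)]
        simp
      | e i =>
        refine ⟨(i : ℕ) + 102, ?_⟩
        have := i.2
        simp only [decK]
        rw [dif_neg (by omega), dif_neg (by omega), if_neg (by omega), if_neg (by omega),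
          if_neg (by omega), if_neg (by omega), if_neg (by omega), if_neg (by omega),
          dif_neg (by omega), dif_neg (by omega), dif_pos (by simp)]
        simp
      | rule i =>
        refine ⟨(i : ℕ) + 126, ?_⟩
        have := i.2
        simp only [decK]
        rw [dif_neg (by omega), dif_neg (by omega), if_neg (by omega), if_neg (by omega),
          if_neg (by omega), if_neg (by omega), if_neg (by omega), if_neg (by omega),
          dif_neg (by omega), dif_neg (by omega), dif_neg (by omega), dif_pos (by simp)]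
        simp

namespace Family

variable {acc : ℕ → List (Fin nL) → Bool} (Φ : Family acc) (e : ℕ)

/-- The coded generators generate `K`. -/
theorem kg_surjective : Function.Surjective (FreeGroup.lift (Φ.kg e)) := by
  intro x
  obtain ⟨u, rfl⟩ := ((Φ.M e).words (Φ.hA e) (Φ.hK e)).toK_surjective x
  induction u using FreeGroup.induction_on with
  | C1 => exact ⟨1, by simp⟩
  | of g =>
    obtain ⟨n, hn⟩ := exists_code (Φ.M e) g
    exact ⟨FreeGroup.of n, by rw [FreeGroup.lift_apply_of, kg, hn]; rfl⟩
  | inv_of g hg =>
    obtain ⟨z, hz⟩ := hg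
    exact ⟨z⁻¹, by rw [map_inv, hz, map_inv]⟩
  | mul a b ha hb =>
    obtain ⟨y, hy⟩ := ha
    obtain ⟨z, hz⟩ := hb
    exact ⟨y * z, by rw [map_mul, hy, hz, map_mul]⟩

/-- The relators: the coded list, and the codes without a generator. -/
def rK (R : Φ.KRels) (e m : ℕ) : Reduce.Raw ℕ :=
  cond (m % 2 == 0) (((R.list e)[m / 2]?).getD [])
    [(126 + (Φ.M e).rules.length + m / 2, true)]

theorem computable_rK (R : Φ.KRels) : Computable₂ (Φ.rK R) := by
  have hlen : Computable fun e => (Φ.M e).rules.length :=
    (Computable.list_length.comp Φ.rules_computable).of_eq fun e => by simp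
  have hd : Computable fun p : ℕ × ℕ => p.2 / 2 :=
    Primrec.nat_div.to_comp.comp Computable.snd (Computable.const 2)
  exact (Computable.cond
    ((Primrec.beq (α := ℕ)).to_comp.comp
      (Primrec.nat_mod.to_comp.comp Computable.snd (Computable.const 2)) (Computable.const 0))
    (Computable.option_getD
      (Computable.list_getElem?.comp (R.computable.comp Computable.fst) hd) (Computable.const []))
    (Computable.list_cons.comp
      ((Primrec.nat_add.to_comp.comp
        (Primrec.nat_add.to_comp.comp (Computable.const 126) (hlen.comp Computable.fst)) hd).pair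
        (Computable.const true)) (Computable.const []))).to₂

/-- **The coded relators present `K`.** -/
theorem kg_ker (R : Φ.KRels) : (FreeGroup.lift (Φ.kg e)).ker =
    Subgroup.normalClosure (Set.range fun m => FreeGroup.mk (Φ.rK R e m)) := by
  set S : Set (FreeGroup ℕ) := {x | ∃ r ∈ R.list e, FreeGroup.mk r = x} ∪
    {x | ∃ n, decK (Φ.M e) n = none ∧ FreeGroup.of n = x} with hS
  have h1 : (FreeGroup.lift (Φ.kg e)).ker = Subgroup.normalClosure S := by
    ext x
    obtain ⟨w, rfl⟩ := Quot.exists_rep x
    exact R.spec e w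
  rw [h1]
  refine le_antisymm (Subgroup.normalClosure_le_normal ?_) (Subgroup.normalClosure_le_normal ?_)
  · rintro x (⟨r, hr, rfl⟩ | ⟨n, hn, rfl⟩)
    · obtain ⟨i, hi, rfl⟩ := List.getElem_of_mem hr
      refine Subgroup.subset_normalClosure ⟨2 * i, ?_⟩
      simp [rK, hi]
    · rw [decK_eq_none_iff] at hn
      refine Subgroup.subset_normalClosure ⟨2 * (n - (126 + (Φ.M e).rules.length)) + 1, ?_⟩
      have hm : (2 * (n - (126 + (Φ.M e).rules.length)) + 1) % 2 = 1 := by omega
      simp only [rK, hm]
      show FreeGroup.mk [(_, true)] = FreeGroup.mk [(n, true)]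
      congr 3
      omega
  · rintro _ ⟨m, rfl⟩
    rcases Nat.mod_two_eq_zero_or_one m with hm | hm
    · cases hl : (R.list e)[m / 2]? with
      | none => simp [rK, hm, hl, ← FreeGroup.one_eq_mk]
      | some r =>
        refine Subgroup.subset_normalClosure (Or.inl ⟨r, List.mem_of_getElem? hl, ?_⟩)
        simp [rK, hm, hl]
    · refine Subgroup.subset_normalClosure
        (Or.inr ⟨126 + (Φ.M e).rules.length + m / 2, ?_, ?_⟩)
      · rw [decK_eq_none_iff]; omega
      · simp only [rK, hm]
        rfl

/-- A letter of `L` inside `K`. -/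
theorem kg_letter (p : WordL.Gen × Bool) : Φ.kg e (digit p) = Φ.toL e (Φ.lval e [p]) := by
  have h : decK (Φ.M e) (digit p) = some (.y' (digit p)) := by rw [decK, dif_pos (digit p).2]
  simp [kg, h, lval, digits, C.val, toL, Base.toL, Base.Words.toK]

/-- Strings of letters of `L` inside `K`. -/
theorem toL_lval (w : GWord) : Φ.kval e (toKWord w) = Φ.toL e (Φ.lval e w) := by
  induction w with
  | nil =>
    show _ = Φ.toL e 1
    simp [kval, Reduce.gval, toKWord, ← FreeGroup.one_eq_mk]
  | cons p w ih =>
    have h1 : Φ.kval e (toKWord (p :: w)) = Φ.kg e (digit p) * Φ.kval e (toKWord w) := by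
      simp [kval, Reduce.gval, toKWord, FreeGroup.lift_mk]
    have h2 : Φ.lval e (p :: w) = Φ.lval e [p] * Φ.lval e w := by
      simp [lval, digits, C.val]
    rw [h1, h2, map_mul, ih, kg_letter]

/-- `X₀` is the image of the first pair. -/
theorem X0_eq : Φ.X₀ e =
    (Subgroup.closure {x | ∃ p : WordL.Gen × Bool, p.1.1 = false ∧ Φ.lval e [p] = x}).map
      (Φ.toL e) := by
  have hd : ∀ p : WordL.Gen × Bool, (digit p : ℕ) < 12 ↔ p.1.1 = false := by
    rintro ⟨⟨p, b, l⟩, s⟩
    cases p <;> cases b <;> cases l <;> cases s <;> decide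
  rw [MonoidHom.map_closure, X₀]
  congr 1
  ext x
  constructor
  · rintro ⟨n, hn, rfl⟩
    obtain ⟨p, hp⟩ := digit_bijective.2 ⟨n, Nat.lt_trans hn (by decide)⟩
    have hp' : (digit p : ℕ) = n := congrArg Fin.val hp
    exact ⟨_, ⟨p, (hd p).1 (hp' ▸ hn), rfl⟩, by rw [← kg_letter, hp']⟩
  · rintro ⟨_, ⟨p, hp, rfl⟩, rfl⟩
    exact ⟨_, (hd p).2 hp, kg_letter Φ e p⟩

end Family

end Vale.Agent.P193.Dec
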