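import Vale.Agent.P193.Dec.Code
import Vale.Agent.P193.Dec.Base
import Vale.Agent.P193.Machine.IntPrim

/-!
# P193, part D: the relators of `K` as a computable list of coded words
-/

namespace Vale.Agent.P193.Dec

open C B

/-- The data of a machine that the relators use. -/
abbrev Tup := ℕ × ℕ × ℕ × ℕ × ℤ × ℤ × ℤ × ℤ

/-- A coded word. -/
abbrev KW := Reduce.Raw ℕ

/-- One generator. -/
def gw (n : ℕ) : KW := [(n, true)]

/-- A power of a generator. -/
def pw (n : ℕ) (z : ℤ) : KW := (List.range z.natAbs).map fun _ => (n, decide (0 ≤ z))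

/-- The word of a commutator. -/
def cmw (a b : KW) : KW := a ++ b ++ FreeGroup.invRev a ++ FreeGroup.invRev b

/-- The word of a position with given `F` part. -/
def wc (a b : ℤ) (l : KW) : KW := pw 52 a ++ pw 53 b ++ l

/-- The relation saying that `r` conjugates `x` to `y`. -/
def cjw (r : ℕ) (x y : KW) : KW :=
  gw r ++ x ++ FreeGroup.invRev (gw r) ++ FreeGroup.invRev y

/-- The coded relators: translations and letters of `F`. -/
def listA0 : List KW :=
  cmw (gw 52) (gw 53) ::
    [52, 53].flatMap fun b => (List.range 24).map fun i => cmw (gw b) (gw (54 + i))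

/-- The conjugation relators of a rule. -/
def ruleRels (i : ℕ) (t : Tup) : List KW :=
  [cjw (126 + i) (wc ((t.1 + 1 : ℕ) : ℤ) 0 []) (wc ((t.2.2.1 + 1 : ℕ) : ℤ) 0 []),
    cjw (126 + i) (wc 0 ((t.2.1 + 1 : ℕ) : ℤ) []) (wc 0 ((t.2.2.2.1 + 1 : ℕ) : ℤ) [])] ++
  (List.range 24).map fun j => cjw (126 + i) (gw (54 + j)) (gw (54 + j))

/-- The conjugation relators of a loading letter. -/
def qRels (i : ℕ) : List KW :=
  [cjw (78 + i) (wc 1 0 []) (wc (C.base nL : ℤ) 0 []), cjw (78 + i) (wc 0 1 []) (wc 0 1 [])] ++
  (List.range 24).map fun j =>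
    cjw (78 + i) (gw (54 + j)) (gw (54 + i) ++ gw (54 + j) ++ FreeGroup.invRev (gw (54 + i)))

/-- The conjugation relators of a final letter. -/
def eRels (i : ℕ) : List KW :=
  (List.range 24).map fun j =>
    cjw (102 + i) (gw (54 + j)) (gw (54 + i) ++ gw (54 + j) ++ FreeGroup.invRev (gw (54 + i)))

/-- The edge word of a letter. -/
def edw (r : ℕ) (s t : KW) : KW := FreeGroup.invRev s ++ FreeGroup.invRev (gw r) ++ t

/-- The edge word of a rule. -/
def ruleEdge (i : ℕ) (t : Tup) : KW :=
  edw (126 + i) (wc t.2.2.2.2.1 t.2.2.2.2.2.1 []) (wc t.2.2.2.2.2.2.1 t.2.2.2.2.2.2.2 [])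

/-- The indices of the rules with their data. -/
def indexed (rs : List Tup) : List (ℕ × Tup) :=
  (List.range rs.length).map fun i => (i, rs.getD i default)

/-- The relators of `W`. -/
def listA (rs : List Tup) : List KW :=
  listA0 ++ ((indexed rs).flatMap fun p => ruleRels p.1 p.2) ++ (List.range 24).flatMap qRels ++
    (List.range 24).flatMap eRels

/-- The letters in `R` commute with `w`. -/
def listB (rs : List Tup) : List KW :=
  ((List.range rs.length).map fun i => cmw (gw 48) (gw (126 + i))) ++
    (List.range 24).map fun i => cmw (gw 48) (gw (102 + i))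

/-- The edges commute with `t`. -/
def listC (rs : List Tup) (f : ℤ × ℤ) : List KW :=
  ((indexed rs).map fun p => cmw (gw 49) (ruleEdge p.1 p.2)) ++
  ((List.range 24).map fun i =>
    cmw (gw 49) (edw (78 + i) [] (wc ((i + 1 : ℕ) : ℤ) 0 (gw (54 + i))))) ++
  (List.range 24).map fun i =>
    cmw (gw 49) (edw (102 + i) (wc f.1 f.2 []) (wc f.1 f.2 (gw (54 + i))))

/-- The last edge. -/
def listD (f : ℤ × ℤ) : List KW :=
  [cmw (gw 49) (FreeGroup.invRev (wc f.1 f.2 []) ++ gw 48 ++ wc f.1 f.2 [])]

/-- The two copies of `F` commute. -/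
def listE : List KW :=
  (List.range 24).flatMap fun i => (List.range 24).map fun j => cmw (gw (24 + i)) (gw j)

/-- `σ` on the first copy. -/
def listF : List KW :=
  (List.range 24).map fun k =>
    gw 50 ++ gw (24 + k) ++ FreeGroup.invRev (gw 50) ++ FreeGroup.invRev (gw (24 + k) ++ gw k)

/-- The codes of the generators of `Γ₂`. -/
def gamCodes (n : ℕ) : List ℕ :=
  [48, 49] ++ (List.range (74 + n)).map fun i => 52 + i

/-- The codes of the generators of `L₊`. -/
def lpCodes : List ℕ := List.range 48 ++ [50]

/-- The two factors commute. -/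
def listG (rs : List Tup) : List KW :=
  (gamCodes rs.length).flatMap fun g => lpCodes.map fun l => cmw (gw g) (gw l)

/-- `v` on the loading letters. -/
def listH : List KW :=
  (List.range 24).map fun j => gw 51 ++ gw (78 + j) ++ FreeGroup.invRev (gw 51) ++
    FreeGroup.invRev (gw (78 + j) ++ gw (24 + j))

/-- `v` on their conjugates. -/
def listI : List KW :=
  (List.range 24).map fun j => cmw (gw 51) (gw 48 ++ gw (78 + j) ++ FreeGroup.invRev (gw 48))

/-- The word of `t` at the start point. -/
def t0w (o : ℤ) : KW :=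
  wc ((C.base nL : ℤ) - 1) o [] ++ gw 49 ++ FreeGroup.invRev (wc ((C.base nL : ℤ) - 1) o [])

/-- `v` at the start point. -/
def listJ (o : ℤ) : List KW :=
  [gw 51 ++ t0w o ++ FreeGroup.invRev (gw 51) ++ FreeGroup.invRev (t0w o ++ gw 50)]

/-- The coded relators of `K`. -/
def relList (rs : List Tup) (o : ℤ) (f : ℤ × ℤ) : List KW :=
  listA rs ++ listB rs ++ listC rs f ++ listD f ++ listE ++ listF ++ listG rs ++ listH ++ listI ++
    listJ o

/-! ### Computability -/

section Computability

open Computable

variable {α : Type} [Primcodable α]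

theorem comp_app {a b : α → KW} (ha : Computable a) (hb : Computable b) :
    Computable fun x => a x ++ b x := Computable.list_append.comp ha hb

theorem comp_inv {a : α → KW} (ha : Computable a) :
    Computable fun x => FreeGroup.invRev (a x) := primrec_invRev.to_comp.comp ha

theorem comp_gw {n : α → ℕ} (hn : Computable n) : Computable fun x => gw (n x) :=
  Computable.list_cons.comp (hn.pair (Computable.const true)) (Computable.const [])

theorem comp_cmw {a b : α → KW} (ha : Computable a) (hb : Computable b) :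
    Computable fun x => cmw (a x) (b x) :=
  comp_app (comp_app (comp_app ha hb) (comp_inv ha)) (comp_inv hb)

theorem comp_cjw {r : α → ℕ} {a b : α → KW} (hr : Computable r) (ha : Computable a)
    (hb : Computable b) : Computable fun x => cjw (r x) (a x) (b x) :=
  comp_app (comp_app (comp_app (comp_gw hr) ha) (comp_inv (comp_gw hr))) (comp_inv hb)

theorem comp_edw {r : α → ℕ} {a b : α → KW} (hr : Computable r) (ha : Computable a)
    (hb : Computable b) : Computable fun x => edw (r x) (a x) (b x) :=
  comp_app (comp_app (comp_inv ha) (comp_inv (comp_gw hr))) hb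

theorem comp_sgn : Computable fun z : ℤ => decide (0 ≤ z) :=
  (Machine.int_cases (h := fun z : ℤ => decide (0 ≤ z)) Primrec.id (Primrec.const true).to₂
    (Primrec.const false).to₂
    (fun a n h => by subst h; simp) (fun a n h => by subst h; simp)).to_comp

theorem comp_pw (n : ℕ) {z : α → ℤ} (hz : Computable z) : Computable fun x => pw n (z x) :=
  computable_map (f := fun x => List.range (z x).natAbs)
    (g := fun x (_ : ℕ) => (n, decide (0 ≤ z x)))
    (Primrec.list_range.to_comp.comp (Machine.int_natAbs.to_comp.comp hz))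
    (((Computable.const n).pair (comp_sgn.comp (hz.comp Computable.fst))).to₂)

theorem comp_wc {a b : α → ℤ} {l : α → KW} (ha : Computable a) (hb : Computable b)
    (hl : Computable l) : Computable fun x => wc (a x) (b x) (l x) :=
  comp_app (comp_app (comp_pw 52 ha) (comp_pw 53 hb)) hl

theorem comp_shift (c : ℕ) {n : α → ℕ} (hn : Computable n) : Computable fun x => c + n x :=
  Primrec.nat_add.to_comp.comp (Computable.const c) hn

theorem comp_succCast {n : α → ℕ} (hn : Computable n) :
    Computable fun x => ((n x + 1 : ℕ) : ℤ) :=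
  Machine.int_ofNat.to_comp.comp (Computable.succ.comp hn)

theorem comp_indexed {rs : α → List Tup} (h : Computable rs) :
    Computable fun x => indexed (rs x) :=
  computable_map (f := fun x => List.range (rs x).length)
    (g := fun x i => (i, (rs x).getD i default))
    (Primrec.list_range.to_comp.comp (Computable.list_length.comp h))
    ((Computable.snd.pair ((Primrec.list_getD default).to_comp.comp (h.comp Computable.fst)
      Computable.snd)).to₂)

theorem comp_ruleRels : Computable fun p : ℕ × Tup => ruleRels p.1 p.2 := by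
  have hr : Computable fun p : ℕ × Tup => 126 + p.1 := comp_shift 126 Computable.fst
  have g1 : Computable fun p : ℕ × Tup => p.2.1 := Computable.fst.comp Computable.snd
  have h2 : Computable fun p : ℕ × Tup => p.2.2 := Computable.snd.comp Computable.snd
  have h3 : Computable fun p : ℕ × Tup => p.2.2.2 := Computable.snd.comp h2
  have h4 : Computable fun p : ℕ × Tup => p.2.2.2.2 := Computable.snd.comp h3
  have g2 : Computable fun p : ℕ × Tup => p.2.2.1 := Computable.fst.comp h2
  have g3 : Computable fun p : ℕ × Tup => p.2.2.2.1 := Computable.fst.comp h3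
  have g4 : Computable fun p : ℕ × Tup => p.2.2.2.2.1 := Computable.fst.comp h4
  have z : Computable fun _ : ℕ × Tup => (0 : ℤ) := Computable.const 0
  have e : Computable fun _ : ℕ × Tup => ([] : KW) := Computable.const []
  have w1 := comp_cjw hr (comp_wc (comp_succCast g1) z e) (comp_wc (comp_succCast g3) z e)
  have w2 := comp_cjw hr (comp_wc z (comp_succCast g2) e) (comp_wc z (comp_succCast g4) e)
  have hm : Computable fun p : ℕ × Tup =>
      (List.range 24).map fun j => cjw (126 + p.1) (gw (54 + j)) (gw (54 + j)) :=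
    computable_map (f := fun _ => List.range 24)
      (g := fun (p : ℕ × Tup) j => cjw (126 + p.1) (gw (54 + j)) (gw (54 + j)))
      (Computable.const _) (comp_cjw (hr.comp Computable.fst)
        (comp_gw (comp_shift 54 Computable.snd)) (comp_gw (comp_shift 54 Computable.snd))).to₂
  have he : Computable fun _ : ℕ × Tup => ([] : List KW) := Computable.const []
  exact (Computable.list_append.comp
    (Computable.list_cons.comp w1 (Computable.list_cons.comp w2 he)) hm).of_eq fun p => rfl

theorem comp_ruleEdge : Computable fun p : ℕ × Tup => ruleEdge p.1 p.2 := by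
  have hr : Computable fun p : ℕ × Tup => 126 + p.1 := comp_shift 126 Computable.fst
  have h2 : Computable fun p : ℕ × Tup => p.2.2 := Computable.snd.comp Computable.snd
  have h3 : Computable fun p : ℕ × Tup => p.2.2.2 := Computable.snd.comp h2
  have h4 : Computable fun p : ℕ × Tup => p.2.2.2.2 := Computable.snd.comp h3
  have h5 : Computable fun p : ℕ × Tup => p.2.2.2.2.2 := Computable.snd.comp h4
  have h6 : Computable fun p : ℕ × Tup => p.2.2.2.2.2.2 := Computable.snd.comp h5
  have h7 : Computable fun p : ℕ × Tup => p.2.2.2.2.2.2.2 := Computable.snd.comp h6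
  have a : Computable fun p : ℕ × Tup => p.2.2.2.2.2.1 := Computable.fst.comp h5
  have b : Computable fun p : ℕ × Tup => p.2.2.2.2.2.2.1 := Computable.fst.comp h6
  have c : Computable fun p : ℕ × Tup => p.2.2.2.2.2.2.2.1 := Computable.fst.comp h7
  have d : Computable fun p : ℕ × Tup => p.2.2.2.2.2.2.2.2 := Computable.snd.comp h7
  have e : Computable fun _ : ℕ × Tup => ([] : KW) := Computable.const []
  exact (comp_edw hr (comp_wc a b e) (comp_wc c d e)).of_eq fun p => rfl

theorem comp_listA {rs : α → List Tup} (hrs : Computable rs) :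
    Computable fun x => listA (rs x) := by
  have h0 : Computable fun _ : α => listA0 := Computable.const _
  have hq : Computable fun _ : α => (List.range 24).flatMap qRels := Computable.const _
  have he : Computable fun _ : α => (List.range 24).flatMap eRels := Computable.const _
  have hr : Computable fun x => (indexed (rs x)).flatMap fun p => ruleRels p.1 p.2 :=
    computable_flatMap (g := fun (_ : α) (p : ℕ × Tup) => ruleRels p.1 p.2) (comp_indexed hrs)
      (comp_ruleRels.comp Computable.snd).to₂
  exact (Computable.list_append.comp (Computable.list_append.comp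
    (Computable.list_append.comp h0 hr) hq) he).of_eq fun x => rfl

theorem comp_listB {rs : α → List Tup} (hrs : Computable rs) :
    Computable fun x => listB (rs x) := by
  have hw : Computable fun _ : α × ℕ => gw 48 := Computable.const _
  have he : Computable fun _ : α => (List.range 24).map fun i => cmw (gw 48) (gw (102 + i)) :=
    Computable.const _
  have hr : Computable fun x =>
      (List.range (rs x).length).map fun i => cmw (gw 48) (gw (126 + i)) :=
    computable_map (g := fun (_ : α) i => cmw (gw 48) (gw (126 + i)))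
      (Primrec.list_range.to_comp.comp (Computable.list_length.comp hrs))
      (comp_cmw hw (comp_gw (comp_shift 126 Computable.snd))).to₂
  exact (Computable.list_append.comp hr he).of_eq fun x => rfl

theorem comp_listC {rs : α → List Tup} {f : α → ℤ × ℤ} (hrs : Computable rs)
    (hf : Computable f) : Computable fun x => listC (rs x) (f x) := by
  have hq : Computable fun _ : α => (List.range 24).map fun i =>
      cmw (gw 49) (edw (78 + i) [] (wc ((i + 1 : ℕ) : ℤ) 0 (gw (54 + i)))) := Computable.const _
  have hr : Computable fun x => (indexed (rs x)).map fun p => cmw (gw 49) (ruleEdge p.1 p.2) := by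
    have hw : Computable fun _ : α × (ℕ × Tup) => gw 49 := Computable.const _
    exact computable_map (g := fun (_ : α) (p : ℕ × Tup) => cmw (gw 49) (ruleEdge p.1 p.2))
      (comp_indexed hrs) (comp_cmw hw (comp_ruleEdge.comp Computable.snd)).to₂
  have he : Computable fun x => (List.range 24).map fun i => cmw (gw 49)
      (edw (102 + i) (wc (f x).1 (f x).2 []) (wc (f x).1 (f x).2 (gw (54 + i)))) := by
    have hw : Computable fun _ : α × ℕ => gw 49 := Computable.const _
    have hl : Computable fun _ : α => List.range 24 := Computable.const _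
    have he : Computable fun _ : α × ℕ => ([] : KW) := Computable.const _
    have f1 : Computable fun p : α × ℕ => (f p.1).1 :=
      Computable.fst.comp (hf.comp Computable.fst)
    have f2 : Computable fun p : α × ℕ => (f p.1).2 :=
      Computable.snd.comp (hf.comp Computable.fst)
    have w := comp_cmw hw (comp_edw (comp_shift 102 Computable.snd) (comp_wc f1 f2 he)
      (comp_wc f1 f2 (comp_gw (comp_shift 54 Computable.snd))))
    exact computable_map (g := fun (x : α) i => cmw (gw 49)
      (edw (102 + i) (wc (f x).1 (f x).2 []) (wc (f x).1 (f x).2 (gw (54 + i))))) hl w.to₂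
  exact (Computable.list_append.comp (Computable.list_append.comp hr hq) he).of_eq fun x => rfl

theorem comp_listD {f : α → ℤ × ℤ} (hf : Computable f) : Computable fun x => listD (f x) := by
  have he : Computable fun _ : α => ([] : KW) := Computable.const _
  have hfw := comp_wc (Computable.fst.comp hf) (Computable.snd.comp hf) he
  have h49 : Computable fun _ : α => gw 49 := Computable.const _
  have h48 : Computable fun _ : α => gw 48 := Computable.const _
  have hn : Computable fun _ : α => ([] : List KW) := Computable.const _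
  exact (Computable.list_cons.comp
    (comp_cmw h49 (comp_app (comp_app (comp_inv hfw) h48) hfw)) hn).of_eq fun x => rfl

theorem comp_listG {rs : α → List Tup} (hrs : Computable rs) :
    Computable fun x => listG (rs x) := by
  have hc : Computable fun _ : α => [48, 49] := Computable.const _
  have hl : Computable fun _ : α × ℕ => lpCodes := Computable.const _
  have hg : Computable fun x => gamCodes (rs x).length :=
    (Computable.list_append.comp hc (computable_map (g := fun (_ : α) i => 52 + i)
      (Primrec.list_range.to_comp.comp (comp_shift 74 (Computable.list_length.comp hrs)))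
      (comp_shift 52 Computable.snd).to₂)).of_eq fun x => rfl
  have hm : Computable fun p : α × ℕ => lpCodes.map fun l => cmw (gw p.2) (gw l) :=
    computable_map (g := fun (p : α × ℕ) l => cmw (gw p.2) (gw l)) hl
      (comp_cmw (comp_gw (Computable.snd.comp Computable.fst)) (comp_gw Computable.snd)).to₂
  exact computable_flatMap (g := fun (_ : α) g => lpCodes.map fun l => cmw (gw g) (gw l))
    hg hm.to₂

theorem comp_t0w {o : α → ℤ} (ho : Computable o) : Computable fun x => t0w (o x) := by
  have hb : Computable fun _ : α => (C.base nL : ℤ) - 1 := Computable.const _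
  have he : Computable fun _ : α => ([] : KW) := Computable.const _
  have h49 : Computable fun _ : α => gw 49 := Computable.const _
  have := comp_wc hb ho he
  exact (comp_app (comp_app this h49) (comp_inv this)).of_eq fun x => rfl

theorem comp_listJ {o : α → ℤ} (ho : Computable o) : Computable fun x => listJ (o x) := by
  have h51 : Computable fun _ : α => gw 51 := Computable.const _
  have hi : Computable fun _ : α => FreeGroup.invRev (gw 51) := Computable.const _
  have h50 : Computable fun _ : α => gw 50 := Computable.const _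
  have hn : Computable fun _ : α => ([] : List KW) := Computable.const _
  exact (Computable.list_cons.comp (comp_app (comp_app (comp_app h51 (comp_t0w ho)) hi)
    (comp_inv (comp_app (comp_t0w ho) h50))) hn).of_eq fun x => rfl

theorem comp_relList {rs : α → List Tup} {o : α → ℤ} {f : α → ℤ × ℤ} (hrs : Computable rs)
    (ho : Computable o) (hf : Computable f) :
    Computable fun x => relList (rs x) (o x) (f x) := by
  have hE : Computable fun _ : α => listE := Computable.const _
  have hF : Computable fun _ : α => listF := Computable.const _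
  have hH : Computable fun _ : α => listH := Computable.const _
  have hI : Computable fun _ : α => listI := Computable.const _
  have h := Computable.list_append.comp (Computable.list_append.comp (Computable.list_append.comp
    (comp_listA hrs) (comp_listB hrs)) (comp_listC hrs hf)) (comp_listD hf)
  exact (Computable.list_append.comp (Computable.list_append.comp (Computable.list_append.comp
    (Computable.list_append.comp (Computable.list_append.comp (Computable.list_append.comp h hE)
      hF) (comp_listG hrs)) hH) hI) (comp_listJ ho)).of_eq fun x => rfl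

end Computability

/-! ### The meaning of the list -/

section Meaning

open C.Mach Multiplicative

variable (M : Mach nL)

/-- The code of a generator. -/
def encK : KGen M.WGen (Fin nL) → ℕ
  | .y' k => k
  | .y k => 24 + k
  | .cw => 48
  | .t => 49
  | .s => 50
  | .v => 51
  | .w (.inl b) => bif b then 52 else 53
  | .w (.inr (.inl i)) => 54 + i
  | .w (.inr (.inr (.q i))) => 78 + i
  | .w (.inr (.inr (.e i))) => 102 + i
  | .w (.inr (.inr (.rule i))) => 126 + i

theorem decK_encK : ∀ g : KGen M.WGen (Fin nL), decK M (encK M g) = some g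
  | .y' k => by
    have hk : (k : ℕ) < 24 := k.isLt
    rw [encK, decK, dif_pos hk]
  | .y k => by
    have hk : (k : ℕ) < 24 := k.isLt
    rw [encK, decK, dif_neg (by omega), dif_pos (by omega)]
    simp [Fin.ext_iff]
  | .cw => rfl
  | .t => rfl
  | .s => rfl
  | .v => rfl
  | .w (.inl b) => by cases b <;> rfl
  | .w (.inr (.inl i)) => by
    have hi : (i : ℕ) < 24 := i.isLt
    rw [encK, decK, dif_neg (by omega), dif_neg (by omega), if_neg (by omega), if_neg (by omega),
      if_neg (by omega), if_neg (by omega), if_neg (by omega), if_neg (by omega),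
      dif_pos (by omega)]
    simp [Fin.ext_iff]
  | .w (.inr (.inr (.q i))) => by
    have hi : (i : ℕ) < 24 := i.isLt
    rw [encK, decK, dif_neg (by omega), dif_neg (by omega), if_neg (by omega), if_neg (by omega),
      if_neg (by omega), if_neg (by omega), if_neg (by omega), if_neg (by omega),
      dif_neg (by omega), dif_pos (by omega)]
    simp [Fin.ext_iff]
  | .w (.inr (.inr (.e i))) => by
    have hi : (i : ℕ) < 24 := i.isLt
    rw [encK, decK, dif_neg (by omega), dif_neg (by omega), if_neg (by omega), if_neg (by omega),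
      if_neg (by omega), if_neg (by omega), if_neg (by omega), if_neg (by omega),
      dif_neg (by omega), dif_neg (by omega), dif_pos (by omega)]
    simp [Fin.ext_iff]
  | .w (.inr (.inr (.rule i))) => by
    have hi := i.isLt
    rw [encK, decK, dif_neg (by omega), dif_neg (by omega), if_neg (by omega), if_neg (by omega),
      if_neg (by omega), if_neg (by omega), if_neg (by omega), if_neg (by omega),
      dif_neg (by omega), dif_neg (by omega), dif_neg (by omega), dif_pos (by omega)]
    simp [Fin.ext_iff]

theorem encK_decK {n : ℕ} {g : KGen M.WGen (Fin nL)} (h : decK M n = some g) :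
    encK M g = n := by
  rw [decK] at h
  by_cases c0 : n < 24
  · rw [dif_pos c0, Option.some_inj] at h
    subst h
    rfl
  rw [dif_neg c0] at h
  by_cases c1 : n - 24 < 24
  · rw [dif_pos c1, Option.some_inj] at h
    subst h
    simp only [encK, cond_true, cond_false]
    omega
  rw [dif_neg c1] at h
  by_cases c2 : n = 48
  · rw [if_pos c2, Option.some_inj] at h
    subst h
    simp only [encK, cond_true, cond_false]
    omega
  rw [if_neg c2] at h
  by_cases c3 : n = 49
  · rw [if_pos c3, Option.some_inj] at h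
    subst h
    simp only [encK, cond_true, cond_false]
    omega
  rw [if_neg c3] at h
  by_cases c4 : n = 50
  · rw [if_pos c4, Option.some_inj] at h
    subst h
    simp only [encK, cond_true, cond_false]
    omega
  rw [if_neg c4] at h
  by_cases c5 : n = 51
  · rw [if_pos c5, Option.some_inj] at h
    subst h
    simp only [encK, cond_true, cond_false]
    omega
  rw [if_neg c5] at h
  by_cases c6 : n = 52
  · rw [if_pos c6, Option.some_inj] at h
    subst h
    simp only [encK, cond_true, cond_false]
    omega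
  rw [if_neg c6] at h
  by_cases c7 : n = 53
  · rw [if_pos c7, Option.some_inj] at h
    subst h
    simp only [encK, cond_true, cond_false]
    omega
  rw [if_neg c7] at h
  by_cases c8 : n - 54 < 24
  · rw [dif_pos c8, Option.some_inj] at h
    subst h
    simp only [encK, cond_true, cond_false]
    omega
  rw [dif_neg c8] at h
  by_cases c9 : n - 78 < 24
  · rw [dif_pos c9, Option.some_inj] at h
    subst h
    simp only [encK, cond_true, cond_false]
    omega
  rw [dif_neg c9] at h
  by_cases c10 : n - 102 < 24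
  · rw [dif_pos c10, Option.some_inj] at h
    subst h
    simp only [encK, cond_true, cond_false]
    omega
  rw [dif_neg c10] at h
  by_cases c11 : n - 126 < M.rules.length
  · rw [dif_pos c11, Option.some_inj] at h
    subst h
    simp only [encK, cond_true, cond_false]
    omega
  rw [dif_neg c11] at h
  cases h

/-- Coding of words. -/
def epsK : FreeGroup (KGen M.WGen (Fin nL)) →* FreeGroup ℕ := FreeGroup.map (encK M)

/-- Decoding of words. -/
def delK : FreeGroup ℕ →* FreeGroup (KGen M.WGen (Fin nL)) :=
  FreeGroup.lift fun n => (decK M n).elim 1 FreeGroup.of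

theorem delK_epsK (x : FreeGroup (KGen M.WGen (Fin nL))) : delK M (epsK M x) = x :=
  DFunLike.congr_fun (f := (delK M).comp (epsK M)) (g := MonoidHom.id _)
    (FreeGroup.ext_hom _ _ fun g => by simp [delK, epsK, decK_encK]) x

theorem mk_gw (n : ℕ) : FreeGroup.mk (gw n) = FreeGroup.of n := rfl

theorem mk_app (a b : KW) : FreeGroup.mk (a ++ b) = FreeGroup.mk a * FreeGroup.mk b :=
  FreeGroup.mul_mk.symm

theorem mk_inv (a : KW) : FreeGroup.mk (FreeGroup.invRev a) = (FreeGroup.mk a)⁻¹ :=
  FreeGroup.inv_mk.symm

theorem mk_nil : FreeGroup.mk ([] : KW) = 1 := rfl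

theorem mk_cmw (a b : KW) :
    FreeGroup.mk (cmw a b) = C.comm (FreeGroup.mk a) (FreeGroup.mk b) := by
  simp only [cmw, mk_app, mk_inv, C.comm]

theorem mk_replicate (p : ℕ × Bool) : ∀ m : ℕ,
    FreeGroup.mk (List.replicate m p) = (FreeGroup.mk [p]) ^ m
  | 0 => rfl
  | m + 1 => by rw [List.replicate_succ', mk_app, mk_replicate p m, pow_succ]

theorem mk_pw (n : ℕ) (z : ℤ) : FreeGroup.mk (pw n z) = FreeGroup.of n ^ z := by
  rw [pw, List.map_const', List.length_range, mk_replicate]
  rcases z with m | m
  · simp [FreeGroup.of]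
  · have h : FreeGroup.mk [(n, false)] = (FreeGroup.of n)⁻¹ := (FreeGroup.inv_mk (L := [(n, true)])).symm
    rw [zpow_negSucc, ← inv_pow]
    simp [h]

theorem eps_wG (a b : ℤ) (f : F nL) :
    epsK M (FreeGroup.map KGen.w (M.wG (ofAdd (a, b), f))) =
      FreeGroup.of 52 ^ a * FreeGroup.of 53 ^ b * FreeGroup.map (fun i : Fin nL => 54 + (i : ℕ)) f := by
  have h : ∀ f : F nL, epsK M (FreeGroup.map KGen.w
      (FreeGroup.map (fun i => (Sum.inr (Sum.inl i) : M.WGen)) f)) =
      FreeGroup.map (fun i : Fin nL => 54 + (i : ℕ)) f := by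
    intro f
    rw [epsK, FreeGroup.map.comp, FreeGroup.map.comp]
    rfl
  simp only [Mach.wG, map_mul, map_zpow, h]
  simp [epsK, encK]

theorem eps_wG' (p : ℤ × ℤ) (f : F nL) :
    epsK M (FreeGroup.map KGen.w (M.wG (ofAdd p, f))) =
      FreeGroup.of 52 ^ p.1 * FreeGroup.of 53 ^ p.2 *
        FreeGroup.map (fun i : Fin nL => 54 + (i : ℕ)) f := eps_wG M p.1 p.2 f

/-- The elements of a list of coded words. -/
def wordsOf (l : List KW) : Set (FreeGroup ℕ) := {x | ∃ r ∈ l, FreeGroup.mk r = x}

theorem wordsOf_append (l l' : List KW) : wordsOf (l ++ l') = wordsOf l ∪ wordsOf l' := by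
  ext x; simp [wordsOf, or_and_right, exists_or]

theorem wordsOf_map_range (n : ℕ) (f : ℕ → KW) :
    wordsOf ((List.range n).map f) = Set.range fun i : Fin n => FreeGroup.mk (f i) := by
  ext x
  simp [wordsOf, Fin.exists_iff]

theorem wordsOf_flatMap_range (n : ℕ) (f : ℕ → List KW) :
    wordsOf ((List.range n).flatMap f) = ⋃ i : Fin n, wordsOf (f i) := by
  ext x
  simp [wordsOf, List.mem_flatMap, Fin.exists_iff]
  constructor
  · rintro ⟨r, ⟨i, hi, hr⟩, rfl⟩; exact ⟨i, hi, r, hr, rfl⟩
  · rintro ⟨i, hi, r, hr, rfl⟩; exact ⟨r, ⟨i, hi, hr⟩, rfl⟩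

theorem wordsOf_singleton (r : KW) : wordsOf [r] = {FreeGroup.mk r} := by
  ext x; simp [wordsOf, eq_comm]

theorem wordsOf_cons (r : KW) (l : List KW) :
    wordsOf (r :: l) = {FreeGroup.mk r} ∪ wordsOf l := by
  rw [← wordsOf_singleton, ← wordsOf_append]; rfl

theorem wordsOf_nil : wordsOf [] = ∅ := by ext x; simp [wordsOf]

/-- The data of a rule. -/
def tupOf (r : Move) : Tup := (r.M, r.N, r.M', r.N', r.a, r.b, r.c, r.d)

theorem indexed_map : indexed (M.rules.map tupOf) =
    (List.finRange M.rules.length).map fun i : Fin M.rules.length =>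
      ((i : ℕ), tupOf M.rules[i]) := by
  refine List.ext_getElem (by simp [indexed]) fun j h _ => ?_
  simp [indexed] at h
  simp [indexed, List.getD, h]

theorem wordsOf_indexed_map (f : ℕ × Tup → KW) :
    wordsOf ((indexed (M.rules.map tupOf)).map f) =
      Set.range fun i : Fin M.rules.length => FreeGroup.mk (f (i, tupOf M.rules[i])) := by
  ext x; simp [indexed_map, wordsOf]

theorem wordsOf_indexed_flatMap (f : ℕ × Tup → List KW) :
    wordsOf ((indexed (M.rules.map tupOf)).flatMap f) =
      ⋃ i : Fin M.rules.length, wordsOf (f (i, tupOf M.rules[i])) := by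
  ext x
  simp [indexed_map, wordsOf, List.mem_flatMap]
  constructor
  · rintro ⟨r, ⟨i, hr⟩, rfl⟩; exact ⟨i, r, hr, rfl⟩
  · rintro ⟨i, r, hr, rfl⟩; exact ⟨r, ⟨i, hr⟩, rfl⟩

theorem iUnion_letter {β : Type} (f : M.Letter → Set β) : (⋃ r, f r) =
    (⋃ i, f (.rule i)) ∪ (⋃ i, f (.q i)) ∪ ⋃ i, f (.e i) := by
  ext x
  simp only [Set.mem_iUnion, Set.mem_union]
  constructor
  · rintro ⟨_ | _ | _, h⟩
    exacts [Or.inl (Or.inl ⟨_, h⟩), Or.inl (Or.inr ⟨_, h⟩), Or.inr ⟨_, h⟩]
  · rintro ((⟨i, h⟩ | ⟨i, h⟩) | ⟨i, h⟩) <;> exact ⟨_, h⟩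

/-- The relator for one parameter of a letter, in `K`. -/
noncomputable def parRel (r : M.Letter) (p : M.Par r) : FreeGroup (KGen M.WGen (Fin nL)) :=
  FreeGroup.map KGen.w (M.gl r * M.wG (M.dom r p) * (M.gl r)⁻¹ * (M.wG (M.cod r p))⁻¹)

theorem range_bool {β : Type} (f : Bool → β) : Set.range f = {f true} ∪ {f false} := by
  ext x; simp [eq_comm, or_comm]

theorem eps_parRel (r : M.Letter) (p : M.Par r) (a b a' b' : ℤ) (f f' : F nL)
    (hd : M.dom r p = (ofAdd (a, b), f)) (hc : M.cod r p = (ofAdd (a', b'), f')) :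
    epsK M (parRel M r p) = FreeGroup.of (encK M (.w (.inr (.inr r)))) *
      (FreeGroup.of 52 ^ a * FreeGroup.of 53 ^ b *
        FreeGroup.map (fun i : Fin nL => 54 + (i : ℕ)) f) *
      (FreeGroup.of (encK M (.w (.inr (.inr r)))))⁻¹ *
      (FreeGroup.of 52 ^ a' * FreeGroup.of 53 ^ b' *
        FreeGroup.map (fun i : Fin nL => 54 + (i : ℕ)) f')⁻¹ := by
  rw [parRel, hd, hc]
  simp only [map_mul, map_inv, eps_wG]
  simp [epsK]

theorem words_ruleRels (i : Fin M.rules.length) :
    wordsOf (ruleRels i (tupOf M.rules[i])) =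
      (fun p => epsK M (parRel M (.rule i) p)) '' M.parGen (.rule i) := by
  simp only [parGen, Set.image_union, ← Set.range_comp, Function.comp_def, range_bool, Set.image_union, Set.image_singleton, ruleRels,
    wordsOf_append, wordsOf_cons, wordsOf_singleton, wordsOf_map_range]
  rw [eps_parRel M (.rule i) (unitPt true) ((M.rules[i]).M + 1) 0 ((M.rules[i]).M' + 1) 0 1 1
      (by simp [dom, unitPt, scale]) (by simp [cod, unitPt, scale]),
    eps_parRel M (.rule i) (unitPt false) 0 ((M.rules[i]).N + 1) 0 ((M.rules[i]).N' + 1) 1 1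
      (by simp [dom, unitPt, scale]) (by simp [cod, unitPt, scale])]
  refine congrArg₂ (· ∪ ·) ?_ (congrArg Set.range (funext fun j => ?_))
  · simp [cjw, wc, mk_app, mk_inv, mk_pw, mk_gw, tupOf, encK, wordsOf_nil, mul_assoc]
  · rw [eps_parRel M (.rule i) (unitF j) 0 0 0 0 (.of j) (.of j)
      (by simp [dom, unitF]; rfl) (by simp [cod, unitF]; rfl)]
    simp [cjw, mk_app, mk_inv, mk_gw, encK, mul_assoc]

theorem words_qRels (i : Fin nL) :
    wordsOf (qRels i) = (fun p => epsK M (parRel M (.q i) p)) '' M.parGen (.q i) := by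
  simp only [parGen, Set.image_union, ← Set.range_comp, Function.comp_def, range_bool, Set.image_union, Set.image_singleton, qRels,
    wordsOf_append, wordsOf_cons, wordsOf_singleton, wordsOf_map_range]
  rw [eps_parRel M (.q i) (unitPt true) 1 0 (C.base nL) 0 1 1
      (by simp [dom, unitPt]) (by simp [cod, unitPt, scale]),
    eps_parRel M (.q i) (unitPt false) 0 1 0 1 1 1
      (by simp [dom, unitPt]) (by simp [cod, unitPt, scale])]
  refine congrArg₂ (· ∪ ·) ?_ (congrArg Set.range (funext fun j => ?_))
  · simp [cjw, wc, mk_app, mk_inv, mk_pw, mk_gw, encK, wordsOf_nil, mul_assoc]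
  · rw [eps_parRel M (.q i) (unitF j) 0 0 0 0 (.of j) (.of i * .of j * (.of i)⁻¹)
      (by simp [dom, unitF]; rfl) (by simp [cod, unitF]; rfl)]
    simp [cjw, mk_app, mk_inv, mk_gw, encK, mul_assoc]

theorem words_eRels (i : Fin nL) :
    wordsOf (eRels i) = (fun p => epsK M (parRel M (.e i) p)) '' M.parGen (.e i) := by
  simp only [parGen, ← Set.range_comp, Function.comp_def, eRels, wordsOf_map_range]
  refine congrArg Set.range (funext fun j => ?_)
  rw [eps_parRel M (.e i) (FreeGroup.of j) 0 0 0 0 (.of j) (.of i * .of j * (.of i)⁻¹)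
    (by simp [dom]; rfl) (by simp [cod]; rfl)]
  simp [cjw, mk_app, mk_inv, mk_gw, encK, mul_assoc]

theorem words_A :
    wordsOf (listA (M.rules.map tupOf)) = epsK M '' (FreeGroup.map KGen.w '' M.relW) := by
  rw [relW, Set.image_union, Set.image_union, Set.image_union, Set.image_union, Set.image_iUnion,
    Set.image_iUnion, iUnion_letter, listA, wordsOf_append, wordsOf_append, wordsOf_append,
    wordsOf_indexed_flatMap, wordsOf_flatMap_range, wordsOf_flatMap_range]
  simp only [Set.image_image, Set.image_singleton, ← Set.union_assoc]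
  refine congrArg₂ (· ∪ ·) (congrArg₂ (· ∪ ·) (congrArg₂ (· ∪ ·) ?_ ?_) ?_) ?_
  · rw [listA0, wordsOf_cons, List.flatMap_cons, List.flatMap_cons, List.flatMap_nil,
      wordsOf_append, wordsOf_append, wordsOf_map_range, wordsOf_map_range]
    refine congrArg₂ (· ∪ ·) ?_ ?_
    · simp [mk_cmw, mk_gw, C.comm, epsK, encK]
    · ext x
      simp only [wordsOf_nil, Set.union_empty, Set.mem_union, Set.mem_range, Set.mem_image,
        Prod.exists, exists_exists_eq_and, Bool.exists_bool, mk_cmw, mk_gw]
      constructor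
      · rintro (⟨i, rfl⟩ | ⟨i, rfl⟩)
        · exact ⟨_, Or.inr ⟨i, rfl⟩, rfl⟩
        · exact ⟨_, Or.inl ⟨i, rfl⟩, rfl⟩
      · rintro ⟨_, (⟨i, rfl⟩ | ⟨i, rfl⟩), rfl⟩
        · exact Or.inr ⟨i, rfl⟩
        · exact Or.inl ⟨i, rfl⟩
  · exact Set.iUnion_congr fun i => words_ruleRels M i
  · exact Set.iUnion_congr fun i => words_qRels M i
  · exact Set.iUnion_congr fun i => words_eRels M i

theorem words_B : wordsOf (listB (M.rules.map tupOf)) = epsK M ''
    ((fun r => C.comm (FreeGroup.of KGen.cw) (FreeGroup.map KGen.w r)) ''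
      (M.gl '' {r | M.isR r})) := by
  rw [listB, wordsOf_append, wordsOf_map_range, wordsOf_map_range]
  simp only [Set.image_image]
  ext x
  simp only [Set.mem_union, Set.mem_range, Set.mem_image, mk_cmw, mk_gw, List.length_map]
  constructor
  · rintro (⟨i, rfl⟩ | ⟨i, rfl⟩)
    · exact ⟨.rule ⟨i, lt_of_lt_of_eq i.2 (List.length_map _)⟩, trivial, by simp [epsK, encK, C.comm]⟩
    · exact ⟨.e i, trivial, by simp [epsK, encK, C.comm]⟩
  · rintro ⟨r, hr, rfl⟩
    cases r with
    | rule i =>
      exact Or.inl ⟨⟨i, lt_of_lt_of_eq i.2 (List.length_map _).symm⟩,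
        by simp [epsK, encK, C.comm]⟩
    | e i => exact Or.inr ⟨i, by simp [epsK, encK, C.comm]⟩
    | q i => exact absurd hr id

theorem words_C : wordsOf (listC (M.rules.map tupOf) M.final) = epsK M ''
    ((fun r => C.comm (FreeGroup.of KGen.t) (FreeGroup.map KGen.w r)) ''
      Set.range M.edgeWord) := by
  rw [listC, wordsOf_append, wordsOf_append, wordsOf_indexed_map, wordsOf_map_range,
    wordsOf_map_range, ← Set.range_comp, ← Set.range_comp]
  have e : ∀ r, epsK M (C.comm (FreeGroup.of KGen.t) (FreeGroup.map KGen.w (M.edgeWord r))) =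
      C.comm (FreeGroup.of 49) ((epsK M (FreeGroup.map KGen.w (M.wG (M.src r))))⁻¹ *
        (FreeGroup.of (encK M (.w (.inr (.inr r)))))⁻¹ *
        epsK M (FreeGroup.map KGen.w (M.wG (M.tgt r)))) := fun r => by
    rw [edgeWord, map_comm]; simp [epsK, encK]
  ext x
  simp only [Set.mem_union, Set.mem_range, Function.comp_apply, e]
  constructor
  · rintro ((⟨i, rfl⟩ | ⟨i, rfl⟩) | ⟨i, rfl⟩)
    · exact ⟨.rule i, by simp [Mach.src, Mach.tgt, tau, eps_wG', mk_cmw, ruleEdge, edw, wc, mk_app,
        mk_inv, mk_pw, mk_gw, tupOf, encK, mul_assoc]⟩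
    · refine ⟨.q i, ?_⟩
      have h1 : (M.src (.q i)) = (ofAdd ((0 : ℤ), (0 : ℤ)), (1 : F nL)) := rfl
      simp [h1, Mach.tgt, tau, eps_wG', mk_cmw, edw, wc, mk_app, mk_inv, mk_pw, mk_gw, encK, mul_assoc]
    · exact ⟨.e i, by simp [Mach.src, Mach.tgt, tau, eps_wG', mk_cmw, edw, wc, mk_app,
        mk_inv, mk_pw, mk_gw, encK, mul_assoc]⟩
  · rintro ⟨r, rfl⟩
    cases r with
    | rule i => exact Or.inl (Or.inl ⟨i, by simp [Mach.src, Mach.tgt, tau, eps_wG', mk_cmw, ruleEdge,
        edw, wc, mk_app, mk_inv, mk_pw, mk_gw, tupOf, encK, mul_assoc]⟩)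
    | q i =>
      refine Or.inl (Or.inr ⟨i, ?_⟩)
      have h1 : (M.src (.q i)) = (ofAdd ((0 : ℤ), (0 : ℤ)), (1 : F nL)) := rfl
      simp [h1, Mach.tgt, tau, eps_wG', mk_cmw, edw, wc, mk_app, mk_inv, mk_pw, mk_gw, encK, mul_assoc]
    | e i => exact Or.inr ⟨i, by simp [Mach.src, Mach.tgt, tau, eps_wG', mk_cmw, edw, wc, mk_app,
        mk_inv, mk_pw, mk_gw, encK, mul_assoc]⟩

theorem words_D : wordsOf (listD M.final) = epsK M '' {C.comm (FreeGroup.of KGen.t)
    ((FreeGroup.map KGen.w (M.wG M.Pf))⁻¹ * FreeGroup.of KGen.cw *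
      FreeGroup.map KGen.w (M.wG M.Pf))} := by
  rw [listD, wordsOf_singleton, Set.image_singleton, map_comm, map_mul, map_mul, map_inv, Pf, tau,
    eps_wG]
  simp [mk_cmw, wc, mk_app, mk_inv, mk_pw, mk_gw, epsK, encK, mul_assoc]

theorem words_E : wordsOf listE = epsK M '' Set.range (fun p : Fin nL × Fin nL =>
    C.comm (FreeGroup.of (KGen.y (α := M.WGen) p.1)) (FreeGroup.of (KGen.y' p.2))) := by
  rw [listE, wordsOf_flatMap_range, ← Set.range_comp]
  ext x
  simp [wordsOf_map_range, mk_cmw, mk_gw, epsK, encK, C.comm]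

theorem words_F : wordsOf listF = epsK M '' Set.range (fun k : Fin nL =>
    FreeGroup.of (KGen.s (α := M.WGen)) * .of (.y k) * (.of .s)⁻¹ *
      (.of (.y k) * .of (.y' k))⁻¹) := by
  rw [listF, wordsOf_map_range, ← Set.range_comp]
  simp [Function.comp_def, mk_app, mk_inv, mk_gw, epsK, encK, mul_assoc]

/-- The code of a generator of `Γ₂`. -/
def gamCode : M.WGen ⊕ Bool → ℕ :=
  Sum.elim (fun a => encK M (.w a)) fun b => bif b then 48 else 49

theorem mem_gamCodes (n : ℕ) :
    n ∈ gamCodes M.rules.length ↔ ∃ a, gamCode M a = n := by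
  simp only [gamCodes, List.mem_append, List.mem_cons, List.not_mem_nil, or_false, List.mem_map,
    List.mem_range]
  constructor
  · rintro ((rfl | rfl) | ⟨i, hi, rfl⟩)
    · exact ⟨.inr true, rfl⟩
    · exact ⟨.inr false, rfl⟩
    · rcases Nat.lt_or_ge i 2 with h | h
      · refine ⟨.inl (.inl (decide (i = 0))), ?_⟩
        interval_cases i <;> rfl
      rcases Nat.lt_or_ge i 26 with h' | h'
      · exact ⟨.inl (.inr (.inl ⟨i - 2, by simp only [nL]; omega⟩)),
          by simp [gamCode, encK]; omega⟩
      rcases Nat.lt_or_ge i 50 with h'' | h''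
      · exact ⟨.inl (.inr (.inr (.q ⟨i - 26, by simp only [nL]; omega⟩))),
          by simp [gamCode, encK]; omega⟩
      rcases Nat.lt_or_ge i 74 with h3 | h3
      · exact ⟨.inl (.inr (.inr (.e ⟨i - 50, by simp only [nL]; omega⟩))),
          by simp [gamCode, encK]; omega⟩
      exact ⟨.inl (.inr (.inr (.rule ⟨i - 74, by omega⟩))), by simp [gamCode, encK]; omega⟩
  · rintro ⟨((b | i | (i | i | i)) | b), rfl⟩
    · refine Or.inr ⟨bif b then 0 else 1, ?_, ?_⟩ <;> cases b <;> simp [gamCode, encK] <;> omega
    · have := i.isLt; simp only [nL] at this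
      exact Or.inr ⟨2 + i, by omega, by simp [gamCode, encK]; omega⟩
    · exact Or.inr ⟨74 + i, by omega, by simp [gamCode, encK]; omega⟩
    · have := i.isLt; simp only [nL] at this
      exact Or.inr ⟨26 + i, by omega, by simp [gamCode, encK]; omega⟩
    · have := i.isLt; simp only [nL] at this
      exact Or.inr ⟨50 + i, by omega, by simp [gamCode, encK]; omega⟩
    · cases b <;> simp [gamCode]

/-- The code of a generator of `L₊`. -/
def lpCode : Fin nL ⊕ Fin nL ⊕ Unit → ℕ :=
  Sum.elim (fun k => 24 + k) (Sum.elim (fun k => k) fun _ => 50)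

theorem mem_lpCodes (n : ℕ) : n ∈ lpCodes ↔ ∃ a, lpCode a = n := by
  simp only [lpCodes, List.mem_append, List.mem_range, List.mem_singleton]
  constructor
  · rintro (h | rfl)
    · rcases Nat.lt_or_ge n 24 with h' | h'
      · exact ⟨.inr (.inl ⟨n, h'⟩), rfl⟩
      · exact ⟨.inl ⟨n - 24, by simp only [nL]; omega⟩, by simp [lpCode]; omega⟩
    · exact ⟨.inr (.inr ()), rfl⟩
  · rintro ⟨(k | k | u), rfl⟩
    · have := k.isLt; simp only [nL] at this; simp [lpCode]; omega
    · have := k.isLt; simp only [nL] at this; simp [lpCode]; omega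
    · simp [lpCode]

open Base.Words in
theorem words_G : wordsOf (listG (M.rules.map tupOf)) = epsK M ''
    Set.range (fun p : (M.WGen ⊕ Bool) × (Fin nL ⊕ Fin nL ⊕ Unit) =>
      C.comm (gamGen (κ := Fin nL) p.1) (lpGen (α := M.WGen) p.2)) := by
  have hg : ∀ a, epsK M (gamGen (κ := Fin nL) a) = FreeGroup.of (gamCode M a) := by
    rintro (a | b)
    · simp [gamGen, gamCode, epsK]
    · cases b <;> simp [gamGen, gamCode, epsK, encK]
  have hl : ∀ a, epsK M (lpGen (α := M.WGen) a) = FreeGroup.of (lpCode a) := by
    rintro (k | k | u) <;> simp [lpGen, lpCode, epsK, encK]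
  rw [← Set.range_comp, listG, List.length_map]
  ext x
  simp only [wordsOf, List.mem_flatMap, List.mem_map, Set.mem_ofPred_eq, Set.mem_range,
    Function.comp_apply, map_comm, hg, hl, Prod.exists]
  constructor
  · rintro ⟨r, ⟨g, hg', l, hl', rfl⟩, rfl⟩
    obtain ⟨a, rfl⟩ := (mem_gamCodes M g).1 hg'
    obtain ⟨b, rfl⟩ := (mem_lpCodes l).1 hl'
    exact ⟨a, b, by rw [mk_cmw, mk_gw, mk_gw]⟩
  · rintro ⟨a, b, rfl⟩
    exact ⟨_, ⟨_, (mem_gamCodes M _).2 ⟨a, rfl⟩, _, (mem_lpCodes _).2 ⟨b, rfl⟩, rfl⟩,
      by rw [mk_cmw, mk_gw, mk_gw]⟩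

theorem words_H : wordsOf listH = epsK M '' Set.range (fun j : Fin nL =>
    FreeGroup.of KGen.v * FreeGroup.map KGen.w (M.gl (.q j)) * (FreeGroup.of KGen.v)⁻¹ *
      (FreeGroup.map KGen.w (M.gl (.q j)) *
        FreeGroup.map (KGen.y (α := M.WGen)) (FreeGroup.of j))⁻¹) := by
  rw [listH, wordsOf_map_range, ← Set.range_comp]
  simp [Function.comp_def, mk_app, mk_inv, mk_gw, epsK, encK, mul_assoc]

theorem words_I : wordsOf listI = epsK M '' Set.range (fun j : Fin nL =>
    C.comm (FreeGroup.of KGen.v) (FreeGroup.of (KGen.cw (κ := Fin nL)) *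
      FreeGroup.map KGen.w (M.gl (.q j)) * (FreeGroup.of KGen.cw)⁻¹)) := by
  rw [listI, wordsOf_map_range, ← Set.range_comp]
  simp [Function.comp_def, mk_cmw, mk_app, mk_inv, mk_gw, epsK, encK, C.comm, mul_assoc]

theorem words_J : wordsOf (listJ M.origin) = epsK M '' {FreeGroup.of KGen.v *
    (FreeGroup.map KGen.w (M.wG M.P0) * FreeGroup.of (KGen.t (κ := Fin nL)) *
      (FreeGroup.map KGen.w (M.wG M.P0))⁻¹) * (FreeGroup.of KGen.v)⁻¹ *
    ((FreeGroup.map KGen.w (M.wG M.P0) * FreeGroup.of KGen.t *
      (FreeGroup.map KGen.w (M.wG M.P0))⁻¹) * FreeGroup.of KGen.s)⁻¹} := by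
  rw [listJ, wordsOf_singleton, Set.image_singleton]
  simp only [map_mul, map_inv, P0, tau, eps_wG]
  simp [mk_app, mk_inv, mk_gw, mk_pw, mk_nil, t0w, wc, epsK, encK, C.encode, mul_assoc]

theorem words_relList (hA : M.AccStmt) (hK : M.KeyStmt) :
    wordsOf (relList (M.rules.map tupOf) M.origin M.final) =
      epsK M '' (M.words hA hK).krels := by
  simp only [relList, wordsOf_append, Base.Words.krels, Set.image_union, words_A M, words_B M,
    words_C M, words_D M, words_E M, words_F M, words_G M, words_H M, words_I M, words_J M, Mach.words, Base.Words.ww, Base.Words.T0]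
  rfl

end Meaning

/-! ### The term of the interface -/

namespace Family

variable {acc : ℕ → List (Fin nL) → Bool} (Φ : Family acc)

theorem kval_eq_toK (e : ℕ) (w : KW) : Φ.kval e w =
    ((Φ.M e).words (Φ.hA e) (Φ.hK e)).toK (delK (Φ.M e) (FreeGroup.mk w)) := by
  refine DFunLike.congr_fun (f := FreeGroup.lift (Φ.kg e))
    (g := ((Φ.M e).words (Φ.hA e) (Φ.hK e)).toK.comp (delK (Φ.M e)))
    (FreeGroup.ext_hom _ _ fun n => ?_) _
  simp only [FreeGroup.lift_apply_of, MonoidHom.comp_apply, delK, kg]
  cases decK (Φ.M e) n <;> simp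

theorem kval_eq_one_iff (e : ℕ) (w : KW) : Φ.kval e w = 1 ↔
    FreeGroup.mk w ∈ Subgroup.normalClosure
      (wordsOf (relList ((Φ.M e).rules.map tupOf) (Φ.M e).origin (Φ.M e).final) ∪
        {x | ∃ n, decK (Φ.M e) n = none ∧ FreeGroup.of n = x}) := by
  rw [kval_eq_toK, ← MonoidHom.mem_ker, (Φ.M e).toK_ker (Φ.hA e) (Φ.hK e),
    words_relList (Φ.M e) (Φ.hA e) (Φ.hK e)]
  set R := ((Φ.M e).words (Φ.hA e) (Φ.hK e)).krels
  set S := epsK (Φ.M e) '' R ∪ {x | ∃ n, decK (Φ.M e) n = none ∧ FreeGroup.of n = x}
  constructor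
  · intro h
    have h1 : epsK (Φ.M e) (delK (Φ.M e) (FreeGroup.mk w)) ∈ Subgroup.normalClosure S := by
      refine (Subgroup.normalClosure_le_normal
        (N := (Subgroup.normalClosure S).comap (epsK (Φ.M e))) fun x hx => ?_) h
      exact Subgroup.subset_normalClosure (Or.inl ⟨x, hx, rfl⟩)
    have h2 : ∀ x, (QuotientGroup.mk' (Subgroup.normalClosure S))
        (epsK (Φ.M e) (delK (Φ.M e) x)) = QuotientGroup.mk' (Subgroup.normalClosure S) x := by
      refine DFunLike.congr_fun (f := (QuotientGroup.mk' _).comp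
        ((epsK (Φ.M e)).comp (delK (Φ.M e)))) (g := QuotientGroup.mk' _)
        (FreeGroup.ext_hom _ _ fun n => ?_)
      simp only [MonoidHom.comp_apply, delK, FreeGroup.lift_apply_of]
      cases hn : decK (Φ.M e) n with
      | none =>
        rw [Option.elim_none, map_one, map_one]
        refine ((QuotientGroup.eq_one_iff (N := Subgroup.normalClosure S) (FreeGroup.of n)).2
          ?_).symm
        exact Subgroup.subset_normalClosure (Or.inr ⟨n, hn, rfl⟩)
      | some g => simp [epsK, encK_decK (Φ.M e) hn]
    have h3 := h2 (FreeGroup.mk w)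
    rw [QuotientGroup.mk'_apply, QuotientGroup.mk'_apply, (QuotientGroup.eq_one_iff _).2 h1] at h3
    exact (QuotientGroup.eq_one_iff _).1 h3.symm
  · intro h
    refine (Subgroup.normalClosure_le_normal
      (N := (Subgroup.normalClosure R).comap (delK (Φ.M e))) fun x hx => ?_) h
    rcases hx with ⟨y, hy, rfl⟩ | ⟨n, hn, rfl⟩
    · rw [SetLike.mem_coe, Subgroup.mem_comap, delK_epsK]
      exact Subgroup.subset_normalClosure hy
    · simp [delK, hn]

/-- The finite coded presentation of every `K`. -/
def krelsList : Φ.KRels where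
  list e := relList ((Φ.M e).rules.map tupOf) (Φ.M e).origin (Φ.M e).final
  computable := comp_relList Φ.rules_computable Φ.origin_computable Φ.final_computable
  spec e w := Φ.kval_eq_one_iff e w

theorem nonempty_kRels : Nonempty Φ.KRels := ⟨Φ.krelsList⟩

end Family

end Vale.Agent.P193.Dec
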