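import Vale.Agent.P193.Dec.Code
import Vale.Agent.P193.Dec.Base

/-!
# P193, part D: the word problem of `L₊` relative to an oracle for `L`

The letters are coded as in `K`: `0..23` are `y'`, `24..47` are `y` and `50` is `σ`. The functions
`lpOne` and `lpBack` use the program only through the oracle. On a word of length `n` the oracle is
asked about strings of length at most `2 n`: in a Britton reduced form the sum of
`max |a| |l|` over the segments `(a, l)` never exceeds `n`.
-/

namespace Vale.Agent.P193.Dec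

open C B

/-- Signed words of the free factor. -/
abbrev FW := Reduce.Raw (Fin nL)

/-- A segment: an element of `F × L`. -/
abbrev Seg := FW × GWord

/-- A reduced form: a head and syllables. -/
abbrev LSt := Seg × List (Bool × Seg)

/-- The signed letter of a number below `24`. -/
def undigit (i : Fin nL) : WordL.Gen × Bool :=
  ((decide (12 ≤ (i : ℕ)), decide ((i : ℕ) % 12 < 6),
    if (i : ℕ) % 6 < 2 then B.Letter.a else if (i : ℕ) % 6 < 4 then B.Letter.b else B.Letter.e),
    decide ((i : ℕ) % 2 = 0))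

theorem digit_undigit (i : Fin nL) : digit (undigit i) = i := by
  revert i
  decide

/-- The letter of a code. -/
def lidx (n : ℕ) : Fin nL := ⟨n % nL, Nat.mod_lt _ (by decide)⟩

/-- The string of the image in `L` of one signed letter of `F`. -/
def projLetter (x : Fin nL × Bool) : WordL.Gen × Bool :=
  ((undigit x.1).1, (undigit x.1).2 == x.2)

/-- The image in `L` of a signed word of `F`. -/
def projG (a : FW) : GWord := a.map projLetter

/-- The inverse string. -/
def invG (l : GWord) : GWord := FreeGroup.invRev l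

/-- The test for a domain of conjugation. -/
def dtest (O : GWord → Bool) (ε : Bool) (h : Seg) : Bool :=
  O (cond ε h.2 (h.2 ++ invG (projG h.1)))

/-- The conjugate of an element of a domain. -/
def dmove (ε : Bool) (h : Seg) : Seg := (h.1, cond ε (projG h.1) [])

/-- Product of segments. -/
def segMul (g h : Seg) : Seg := (g.1 ++ h.1, g.2 ++ h.2)

/-- Put `σ^ε` in front. -/
def pushS (O : GWord → Bool) (ε : Bool) (s : LSt) : LSt :=
  if s.2.head?.map Prod.fst = some (!ε) ∧ dtest O ε s.1 = true then
    (segMul (dmove ε s.1) ((s.2.head?.map Prod.snd).getD ([], [])), s.2.tail)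
  else (([], []), (ε, s.1) :: s.2)

/-- Put a coded letter in front. -/
def lpStep (O : GWord → Bool) (x : ℕ × Bool) (s : LSt) : LSt :=
  if x.1 < 24 then ((s.1.1, projLetter (lidx x.1, x.2) :: s.1.2), s.2)
  else if x.1 < 48 then (((lidx x.1, x.2) :: s.1.1, s.1.2), s.2)
  else if x.1 = 50 then pushS O x.2 s
  else s

/-- The reduced form of a word. -/
def lpRed (O : GWord → Bool) (w : Reduce.Raw ℕ) : LSt := w.foldr (lpStep O) (([], []), [])

/-- The reduced form lies in `1 × L`. -/
def flatSt (s : LSt) : Bool := s.2.isEmpty && (FreeGroup.reduce s.1.1).isEmpty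

/-- The word problem of `L₊`. -/
def lpOne (O : GWord → Bool) (w : Reduce.Raw ℕ) : Bool :=
  flatSt (lpRed O w) && O (lpRed O w).1.2

/-- The component in `1 × L`, if there is one. -/
def lpBack (O : GWord → Bool) (w : Reduce.Raw ℕ) : Option GWord :=
  bif flatSt (lpRed O w) then some (lpRed O w).1.2 else none

/-! ### Lengths -/

/-- The size of a segment. -/
def sz (h : Seg) : ℕ := max h.1.length h.2.length

/-- The size of a reduced form. -/
def total (s : LSt) : ℕ := sz s.1 + (s.2.map fun y => sz y.2).sum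

theorem total_lpStep (O : GWord → Bool) (x : ℕ × Bool) (s : LSt) :
    total (lpStep O x s) ≤ total s + 1 := by
  obtain ⟨⟨a, l⟩, ls⟩ := s
  unfold lpStep
  split_ifs with h1 h2 h3
  · simp [total, sz]; omega
  · simp [total, sz]; omega
  · unfold pushS
    split_ifs with hc
    · cases ls with
      | nil => simp at hc
      | cons y ls =>
        obtain ⟨b, a', l'⟩ := y
        cases x.2 <;> simp [total, sz, segMul, dmove, projG] <;> omega
    · simp [total, sz]
  · omega

theorem total_lpRed (O : GWord → Bool) (w : Reduce.Raw ℕ) : total (lpRed O w) ≤ w.length := by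
  induction w with
  | nil => simp [lpRed, total, sz]
  | cons x w ih =>
    have := total_lpStep O x (lpRed O w)
    simp only [lpRed, List.foldr_cons, List.length_cons] at this ih ⊢
    omega

namespace Family

variable {acc : ℕ → List (Fin nL) → Bool} (Φ : Family acc) (e : ℕ)

/-- Cancelling pairs are trivial in `L`. -/
def HInv : Prop := ∀ p : WordL.Gen × Bool, Φ.lval e [p, (p.1, !p.2)] = 1

/-- The element of a code in `L₊`. -/
noncomputable def lg (n : ℕ) : (Φ.base e).Lp :=
  if n < 24 then HNNExtension.of (1, ((FreeGroup.of (lidx n) : F nL) : Φ.L e))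
  else if n < 48 then HNNExtension.of (FreeGroup.of (lidx n), 1)
  else if n = 50 then HNNExtension.t
  else 1

/-- The value of a coded word in `L₊`. -/
noncomputable def lev (w : Reduce.Raw ℕ) : (Φ.base e).Lp := Reduce.gval (Φ.lg e) w

theorem lev_cons (x : ℕ × Bool) (w : Reduce.Raw ℕ) :
    Φ.lev e (x :: w) = cond x.2 (Φ.lg e x.1) (Φ.lg e x.1)⁻¹ * Φ.lev e w := by
  simp [lev, Reduce.gval, FreeGroup.lift_mk]

/-- `L₊ → K`. -/
noncomputable def inLp : (Φ.base e).Lp →* Φ.K e :=
  HNNExtension.of.comp (MonoidHom.inr _ _)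

theorem kg_eq_lg {n : ℕ} (hn : n < 48 ∨ n = 50) : Φ.kg e n = Φ.inLp e (Φ.lg e n) := by
  unfold kg lg decK
  obtain h | rfl := hn
  · by_cases h24 : n < 24
    · have hi : (⟨n, h24⟩ : Fin nL) = lidx n := Fin.ext (show n = n % 24 by omega)
      rw [dif_pos h24, if_pos h24, Option.elim_some, hi]
      simp [Base.Words.toK, inLp]
    · have hi : (⟨n - 24, show n - 24 < 24 by omega⟩ : Fin nL) = lidx n :=
        Fin.ext (show n - 24 = n % 24 by omega)
      rw [dif_neg h24, dif_pos (show n - 24 < 24 by omega), if_neg h24, if_pos h,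
        Option.elim_some, hi]
      simp [Base.Words.toK, Base.gF, inLp]
  · simp [Base.Words.toK, inLp]

/-- On the letters of `L₊` the value in `K` is that in `L₊`. -/
theorem kval_eq_lev {w : Reduce.Raw ℕ} (hw : ∀ p ∈ w, p.1 < 48 ∨ p.1 = 50) :
    Φ.kval e w = HNNExtension.of (1, Φ.lev e w) := by
  suffices h : Φ.kval e w = Φ.inLp e (Φ.lev e w) from h
  induction w with
  | nil => simp only [kval, lev, Reduce.gval, ← FreeGroup.one_eq_mk, map_one]
  | cons x w ih =>
    simp only [List.forall_mem_cons] at hw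
    have hkv : Φ.kval e (x :: w) = cond x.2 (Φ.kg e x.1) (Φ.kg e x.1)⁻¹ * Φ.kval e w := by
      simp [kval, Reduce.gval, FreeGroup.lift_mk]
    rw [hkv, lev_cons, map_mul, ih hw.2, kg_eq_lg Φ e hw.1]
    cases x.2
    · rw [cond_false, cond_false, map_inv]
    · rw [cond_true, cond_true]

theorem lval_append (u v : GWord) : Φ.lval e (u ++ v) = Φ.lval e u * Φ.lval e v := by
  simp [lval, digits, C.val]

theorem lval_nil : Φ.lval e [] = 1 := by simp [lval, digits, C.val]

theorem lval_cons (p : WordL.Gen × Bool) (v : GWord) :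
    Φ.lval e (p :: v) = ((FreeGroup.of (digit p) : F nL) : Φ.L e) * Φ.lval e v := by
  simp [lval, digits, C.val]

theorem lval_swap {Φ : Family acc} {e : ℕ} (hI : Φ.HInv e) (p : WordL.Gen × Bool) :
    ((FreeGroup.of (digit (p.1, !p.2)) : F nL) : Φ.L e) =
      ((FreeGroup.of (digit p) : F nL) : Φ.L e)⁻¹ := by
  refine eq_inv_of_mul_eq_one_right ?_
  have h := hI p
  rwa [lval_cons, lval_cons, lval_nil, mul_one] at h

variable {Φ} {e}

theorem lval_invG (hI : Φ.HInv e) (l : GWord) : Φ.lval e (invG l) = (Φ.lval e l)⁻¹ := by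
  induction l with
  | nil => simp [invG, lval_nil]
  | cons p l ih =>
    rw [show invG (p :: l) = invG l ++ [(p.1, !p.2)] by simp [invG, FreeGroup.invRev],
      lval_append, ih, lval_cons, lval_cons, lval_nil, lval_swap hI, mul_inv_rev, mul_one]

theorem lval_projLetter (hI : Φ.HInv e) (x : Fin nL × Bool) (l : GWord) :
    Φ.lval e (projLetter x :: l) =
      ((FreeGroup.mk [x] : F nL) : Φ.L e) * Φ.lval e l := by
  obtain ⟨i, b⟩ := x
  rw [lval_cons]
  congr 1
  have hd := digit_undigit i
  cases b
  · rw [show (FreeGroup.mk [(i, false)] : F nL) = (FreeGroup.of i)⁻¹ from rfl, QuotientGroup.mk_inv,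
      show projLetter (i, false) = ((undigit i).1, !(undigit i).2) by simp [projLetter],
      lval_swap hI, hd]
  · rw [show projLetter (i, true) = undigit i by simp [projLetter], hd]
    rfl

theorem lval_projG (hI : Φ.HInv e) (a : FW) :
    Φ.lval e (projG a) = ((FreeGroup.mk a : F nL) : Φ.L e) := by
  induction a with
  | nil => simp [projG, lval_nil, ← FreeGroup.one_eq_mk]
  | cons x a ih =>
    rw [show projG (x :: a) = projLetter x :: projG a from rfl, lval_projLetter hI, ih,
      ← QuotientGroup.mk_mul, FreeGroup.mul_mk]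
    rfl

variable (Φ) (e)

/-- The value of a segment. -/
noncomputable def sev (h : Seg) : F nL × Φ.L e := (FreeGroup.mk h.1, Φ.lval e h.2)

theorem sev_segMul (g h : Seg) : Φ.sev e (segMul g h) = Φ.sev e g * Φ.sev e h := by
  simp [sev, segMul, lval_append, FreeGroup.mul_mk]

theorem sev_nil : Φ.sev e ([], []) = 1 := by
  simp [sev, lval_nil, ← FreeGroup.one_eq_mk]

/-- The exponent of a sign. -/
def sgnU (b : Bool) : ℤˣ := cond b 1 (-1)

/-- A syllable of `L₊`. -/
noncomputable def lsyl (y : Bool × Seg) : ℤˣ × (F nL × Φ.L e) := (sgnU y.1, Φ.sev e y.2)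

/-- The domain of conjugation by a power of `σ`. -/
noncomputable abbrev ldom (u : ℤˣ) : Subgroup (F nL × Φ.L e) :=
  HNNExtension.toSubgroup
    ((MonoidHom.id (F nL)).prod (1 : F nL →* Φ.L e)).range
    ((MonoidHom.id (F nL)).prod (QuotientGroup.mk' (Φ.base e).N)).range u

variable {Φ} {e}

theorem dtest_iff (hI : Φ.HInv e) {O : GWord → Bool} {n : ℕ}
    (hO : ∀ l : GWord, l.length ≤ 2 * n → (O l = true ↔ Φ.lval e l = 1)) (ε : Bool) {h : Seg}
    (hn : sz h ≤ n) : dtest O ε h = true ↔ Φ.sev e h ∈ Φ.ldom e (sgnU ε) := by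
  have h1 : h.1.length ≤ n := le_trans (le_max_left _ _) hn
  have h2 : h.2.length ≤ n := le_trans (le_max_right _ _) hn
  cases ε
  · rw [dtest, cond_false, hO _ (by simp [invG, projG]; omega), lval_append, lval_invG hI,
      lval_projG hI, mul_inv_eq_one]
    simp [sgnU, ldom, sev, MonoidHom.mem_range, eq_comm]
  · rw [dtest, cond_true, hO _ (by omega)]
    simp [sgnU, ldom, sev, MonoidHom.mem_range, eq_comm]

theorem dmove_eq (hI : Φ.HInv e) (ε : Bool) {h : Seg} (hm : Φ.sev e h ∈ Φ.ldom e (sgnU ε)) :
    (HNNExtension.t : (Φ.base e).Lp) ^ (sgnU ε : ℤ) * HNNExtension.of (Φ.sev e h) =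
      HNNExtension.of (Φ.sev e (dmove ε h)) * HNNExtension.t ^ (sgnU ε : ℤ) := by
  have key : ∀ a : F nL, (HNNExtension.t : (Φ.base e).Lp) * HNNExtension.of (a, 1) =
      HNNExtension.of (a, ((a : F nL) : Φ.L e)) * HNNExtension.t := fun a => (Φ.base e).t_gF a
  cases ε
  · obtain ⟨a, ha⟩ := hm
    have hp : Φ.sev e (dmove false h) = (a, 1) := by
      refine Prod.ext ?_ ?_
      · exact (Prod.ext_iff.1 ha).1.symm
      · simp [sev, dmove, lval_nil]
    rw [hp, ← ha]
    simp only [sgnU, cond_false, Units.val_neg, Units.val_one, zpow_neg, zpow_one]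
    rw [inv_mul_eq_iff_eq_mul, ← mul_assoc, key, mul_inv_cancel_right]
    rfl
  · obtain ⟨a, ha⟩ := hm
    have ha1 : a = FreeGroup.mk h.1 := (Prod.ext_iff.1 ha).1
    have hp : Φ.sev e (dmove true h) = (a, (a : Φ.L e)) := by
      rw [ha1]
      exact Prod.ext rfl (lval_projG hI h.1)
    rw [hp, ← ha]
    simp only [sgnU, cond_true, Units.val_one, zpow_one]
    exact key a

variable (Φ) (e)

/-- A state is a reduced form of an element. -/
def LGood (s : LSt) (v : (Φ.base e).Lp) : Prop :=
  (s.2.map (Φ.lsyl e)).IsChain (fun a b => a.2 ∈ Φ.ldom e a.1 → a.1 = b.1) ∧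
    v = HNNExtension.of (Φ.sev e s.1) *
      ((s.2.map (Φ.lsyl e)).map fun y => HNNExtension.t ^ (y.1 : ℤ) * HNNExtension.of y.2).prod

variable {Φ} {e}

theorem good_pushS (hI : Φ.HInv e) {O : GWord → Bool} {n : ℕ}
    (hO : ∀ l : GWord, l.length ≤ 2 * n → (O l = true ↔ Φ.lval e l = 1)) (ε : Bool) {s : LSt}
    (hn : sz s.1 ≤ n) {v : (Φ.base e).Lp} (h : Φ.LGood e s v) :
    Φ.LGood e (pushS O ε s) (HNNExtension.t ^ (sgnU ε : ℤ) * v) := by
  obtain ⟨hd, ls⟩ := s
  obtain ⟨hch, rfl⟩ := h
  unfold pushS
  split_ifs with hc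
  · obtain ⟨hc1, hc2⟩ := hc
    rcases ls with _ | ⟨⟨b, g⟩, ls⟩
    · simp at hc1
    · simp only [List.head?_cons, Option.map_some, Option.some.injEq] at hc1
      subst hc1
      refine ⟨(List.isChain_cons.1 (by simpa using hch)).2, ?_⟩
      have hmv := dmove_eq hI ε ((dtest_iff hI hO ε hn).1 hc2)
      simp only [List.head?_cons, Option.map_some, Option.getD_some, List.tail_cons, sev_segMul,
        map_mul, List.map_cons, List.prod_cons, lsyl]
      rw [← mul_assoc, hmv]
      cases ε <;> simp [sgnU, mul_assoc]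
  · refine ⟨?_, by simp [lsyl, sev_nil, mul_assoc]⟩
    rw [List.map_cons]
    refine List.isChain_cons.2 ⟨?_, hch⟩
    intro y hy hin
    rcases ls with _ | ⟨⟨b, g⟩, ls⟩
    · simp at hy
    · simp only [List.map_cons, List.head?_cons, Option.mem_def, Option.some.injEq] at hy
      subst hy
      have hnot : ¬ b = !ε := fun hb => hc ⟨by simp [hb], (dtest_iff hI hO ε hn).2 hin⟩
      cases ε <;> cases b <;> simp_all [lsyl]

theorem good_lpStep (hI : Φ.HInv e) {O : GWord → Bool} {n : ℕ}
    (hO : ∀ l : GWord, l.length ≤ 2 * n → (O l = true ↔ Φ.lval e l = 1)) (x : ℕ × Bool) {s : LSt}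
    (hn : sz s.1 ≤ n) {v : (Φ.base e).Lp} (h : Φ.LGood e s v) :
    Φ.LGood e (lpStep O x s) (cond x.2 (Φ.lg e x.1) (Φ.lg e x.1)⁻¹ * v) := by
  obtain ⟨c, b⟩ := x
  unfold lpStep lg
  split_ifs with h1 h2 h3
  · obtain ⟨hch, rfl⟩ := h
    refine ⟨hch, ?_⟩
    have hs : Φ.sev e (s.1.1, projLetter (lidx c, b) :: s.1.2) =
        ((1 : F nL), ((FreeGroup.mk [(lidx c, b)] : F nL) : Φ.L e)) * Φ.sev e s.1 := by
      simp [sev, lval_projLetter hI]
    rw [hs, map_mul, mul_assoc]
    congr 1
    cases b
    · rw [cond_false, show (FreeGroup.mk [(lidx c, false)] : F nL) = (FreeGroup.of (lidx c))⁻¹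
        from rfl, ← map_inv, Prod.inv_mk, inv_one, QuotientGroup.mk_inv]
    · rfl
  · obtain ⟨hch, rfl⟩ := h
    refine ⟨hch, ?_⟩
    have hs : Φ.sev e ((lidx c, b) :: s.1.1, s.1.2) =
        ((FreeGroup.mk [(lidx c, b)] : F nL), (1 : Φ.L e)) * Φ.sev e s.1 := by
      simp [sev, FreeGroup.mul_mk]
    rw [hs, map_mul, mul_assoc]
    congr 1
    cases b
    · rw [cond_false, ← map_inv, Prod.inv_mk, inv_one]
      rfl
    · rfl
  · have hp := good_pushS hI hO b hn h
    cases b <;> simpa [sgnU] using hp
  · cases b <;> simpa using h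

theorem good_lpRed (hI : Φ.HInv e) {O : GWord → Bool} {n : ℕ}
    (hO : ∀ l : GWord, l.length ≤ 2 * n → (O l = true ↔ Φ.lval e l = 1)) :
    ∀ w : Reduce.Raw ℕ, w.length ≤ n → Φ.LGood e (lpRed O w) (Φ.lev e w)
  | [], _ => ⟨by simp [lpRed], by simp [lpRed, lev, Reduce.gval, sev_nil, ← FreeGroup.one_eq_mk]⟩
  | x :: w, hw => by
    simp only [List.length_cons] at hw
    have hn : sz (lpRed O w).1 ≤ n := by
      have := total_lpRed O w
      simp only [total] at this
      omega
    rw [lev_cons]
    exact good_lpStep hI hO x hn (good_lpRed hI hO w (by omega))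

theorem flatSt_iff {s : LSt} {v : (Φ.base e).Lp} (h : Φ.LGood e s v) :
    (flatSt s = true → v = HNNExtension.of (1, Φ.lval e s.1.2)) ∧
      (flatSt s = false → ∀ x : Φ.L e, v ≠ HNNExtension.of (1, x)) := by
  obtain ⟨⟨a, l⟩, ls⟩ := s
  obtain ⟨hch, hv⟩ := h
  have hred : (FreeGroup.reduce a).isEmpty = true ↔ (FreeGroup.mk a : F nL) = 1 := by
    rw [List.isEmpty_iff, ← FreeGroup.toWord_mk, FreeGroup.toWord_eq_nil_iff]
  constructor
  · intro hf
    simp only [flatSt, Bool.and_eq_true, List.isEmpty_iff] at hf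
    obtain ⟨hls, ha⟩ := hf
    rw [hv, hls, sev]
    simp [hred.1 (List.isEmpty_iff.2 ha)]
  · intro hf x hx
    let rw' : HNNExtension.NormalWord.ReducedWord (F nL × Φ.L e)
        ((MonoidHom.id (F nL)).prod (1 : F nL →* Φ.L e)).range
        ((MonoidHom.id (F nL)).prod (QuotientGroup.mk' (Φ.base e).N)).range :=
      { head := Φ.sev e (a, l)
        toList := ls.map (Φ.lsyl e)
        chain := hch }
    have hnil : rw'.toList = [] :=
      HNNExtension.ReducedWord.toList_eq_nil_of_mem_of_range
        (graphEquiv (MonoidHom.id (F nL)) Function.injective_id (QuotientGroup.mk' (Φ.base e).N))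
        rw' ⟨(1, x), hx.symm.trans hv⟩
    have hls : ls = [] := List.map_eq_nil_iff.1 hnil
    subst hls
    simp only [List.map_nil, List.prod_nil, mul_one] at hv
    have he := HNNExtension.of_injective _ (hv.symm.trans hx)
    simp only [flatSt, List.isEmpty_nil, Bool.true_and] at hf
    rw [hred.2 (Prod.ext_iff.1 he).1] at hf
    exact Bool.noConfusion hf

/-- The word problem of `L₊` and the intersection with `1 × L`, with the query bound. -/
theorem lp_spec (hI : Φ.HInv e) {O : GWord → Bool} {n : ℕ}
    (hO : ∀ l : GWord, l.length ≤ 2 * n → (O l = true ↔ Φ.lval e l = 1))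
    {w : Reduce.Raw ℕ} (hw : w.length ≤ n) :
    (lpOne O w = true ↔ Φ.lev e w = 1) ∧
      (∀ l, lpBack O w = some l →
        l.length ≤ w.length ∧ Φ.lev e w = HNNExtension.of (1, Φ.lval e l)) ∧
      (lpBack O w = none → ∀ x : Φ.L e, Φ.lev e w ≠ HNNExtension.of (1, x)) := by
  obtain ⟨hyes, hno⟩ := flatSt_iff (good_lpRed hI hO w hw)
  have hlen : (lpRed O w).1.2.length ≤ w.length := by
    have := total_lpRed O w
    simp only [total, sz] at this
    omega
  unfold lpOne lpBack
  cases hf : flatSt (lpRed O w)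
  · refine ⟨⟨fun h => by simp at h, fun h => ?_⟩, fun l h => by simp at h, fun _ => hno hf⟩
    exact absurd (h.trans (map_one HNNExtension.of).symm) (hno hf 1)
  · refine ⟨?_, fun l h => ?_, fun h => by simp at h⟩
    · rw [Bool.true_and, hO _ (by omega), hyes hf]
      constructor
      · intro h
        rw [h]
        exact map_one HNNExtension.of
      · intro h
        exact (Prod.ext_iff.1 (HNNExtension.of_injective _
          (h.trans (map_one HNNExtension.of).symm))).2
    · obtain rfl : (lpRed O w).1.2 = l := by simpa using h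
      exact ⟨hlen, hyes hf⟩

end Family

/-! ### Computability -/

theorem primrec_projLetter : Primrec projLetter := Primrec.dom_finite _

theorem primrec_lidx : Primrec lidx :=
  Primrec.fin_val_iff.1 (Primrec.nat_mod.comp Primrec.id (Primrec.const nL))

section

variable {σ : Type} [Primcodable σ] {fO : σ → GWord → Bool} (hO : Computable₂ fO)

include hO in
theorem computable_lpStep :
    Computable₂ fun (p : σ) (q : LSt × (ℕ × Bool)) => lpStep (fO p) q.2 q.1 := by
  let T := σ × LSt × (ℕ × Bool)
  have hs : Primrec fun t : T => t.2.1 := Primrec.fst.comp Primrec.snd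
  have hx : Primrec fun t : T => t.2.2 := Primrec.snd.comp Primrec.snd
  have hc : Primrec fun t : T => t.2.2.1 := Primrec.fst.comp hx
  have hb : Primrec fun t : T => t.2.2.2 := Primrec.snd.comp hx
  have hseg : Primrec fun t : T => t.2.1.1 := Primrec.fst.comp hs
  have hls : Primrec fun t : T => t.2.1.2 := Primrec.snd.comp hs
  have hhd := Primrec.list_head?.comp hls
  have hproj : Primrec fun t : T => projG t.2.1.1.1 :=
    Primrec.list_map (Primrec.fst.comp hseg) (primrec_projLetter.comp Primrec.snd).to₂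
  have harg : Primrec fun t : T =>
      cond t.2.2.2 t.2.1.1.2 (t.2.1.1.2 ++ invG (projG t.2.1.1.1)) :=
    Primrec.cond hb (Primrec.snd.comp hseg)
      (Primrec.list_append.comp (Primrec.snd.comp hseg) (primrec_invRev.comp hproj))
  have hd : Computable fun t : T => dtest (fO t.1) t.2.2.2 t.2.1.1 :=
    hO.comp Computable.fst harg.to_comp
  have hfst : Primrec fun t : T =>
      decide (t.2.1.2.head?.map Prod.fst = some (!t.2.2.2)) :=
    (Primrec.eq.comp (Primrec.option_map hhd (Primrec.fst.comp Primrec.snd).to₂)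
      (Primrec.option_some.comp (Primrec.not.comp hb))).decide
  have hyes : Primrec fun t : T =>
      (((t.2.1.1.1 ++ ((t.2.1.2.head?.map Prod.snd).getD ([], [])).1,
        cond t.2.2.2 (projG t.2.1.1.1) [] ++ ((t.2.1.2.head?.map Prod.snd).getD ([], [])).2),
        t.2.1.2.tail) : LSt) := by
    have hg : Primrec fun t : T => (t.2.1.2.head?.map Prod.snd).getD ([], []) :=
      Primrec.option_getD.comp (Primrec.option_map hhd (Primrec.snd.comp Primrec.snd).to₂)
        (Primrec.const ([], []))
    exact Primrec.pair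
      (Primrec.pair (Primrec.list_append.comp (Primrec.fst.comp hseg) (Primrec.fst.comp hg))
        (Primrec.list_append.comp (Primrec.cond hb hproj (Primrec.const []))
          (Primrec.snd.comp hg)))
      (Primrec.list_tail.comp hls)
  have hno : Primrec fun t : T =>
      (((([] : FW), ([] : GWord)), (t.2.2.2, t.2.1.1) :: t.2.1.2) : LSt) :=
    Primrec.pair (Primrec.const ([], [])) (Primrec.list_cons.comp (Primrec.pair hb hseg) hls)
  have hpush : Computable fun t : T => pushS (fO t.1) t.2.2.2 t.2.1 := by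
    refine (Computable.cond (Primrec.and.to_comp.comp hfst.to_comp hd) hyes.to_comp
      hno.to_comp).of_eq fun t => ?_
    unfold pushS
    by_cases h : t.2.1.2.head?.map Prod.fst = some (!t.2.2.2) ∧
        dtest (fO t.1) t.2.2.2 t.2.1.1 = true
    · rw [if_pos h]; simp [h.1, h.2, segMul, dmove]
    · rw [if_neg h]
      rcases not_and_or.1 h with h | h <;> simp [h]
  have h1 : Primrec fun t : T =>
      (((t.2.1.1.1, projLetter (lidx t.2.2.1, t.2.2.2) :: t.2.1.1.2), t.2.1.2) : LSt) :=
    Primrec.pair (Primrec.pair (Primrec.fst.comp hseg) (Primrec.list_cons.comp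
      (primrec_projLetter.comp (Primrec.pair (primrec_lidx.comp hc) hb))
      (Primrec.snd.comp hseg))) hls
  have h2 : Primrec fun t : T =>
      ((((lidx t.2.2.1, t.2.2.2) :: t.2.1.1.1, t.2.1.1.2), t.2.1.2) : LSt) :=
    Primrec.pair (Primrec.pair (Primrec.list_cons.comp
      (Primrec.pair (primrec_lidx.comp hc) hb) (Primrec.fst.comp hseg))
      (Primrec.snd.comp hseg)) hls
  refine (Computable.cond (Primrec.nat_lt.comp hc (Primrec.const 24)).decide.to_comp h1.to_comp
    (Computable.cond (Primrec.nat_lt.comp hc (Primrec.const 48)).decide.to_comp h2.to_comp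
      (Computable.cond (Primrec.eq.comp hc (Primrec.const 50)).decide.to_comp hpush
        hs.to_comp))).of_eq fun t => ?_
  unfold lpStep
  simp only [Bool.cond_decide]

variable {fw : σ → Reduce.Raw ℕ} (hw : Computable fw)

include hO hw in
theorem computable_lpRed : Computable fun p => lpRed (fO p) (fw p) := by
  refine (computable_foldl (h := fun p q => lpStep (fO p) q.2 q.1)
    (Computable.list_reverse.comp hw) (Computable.const ((([] : FW), ([] : GWord)),
      ([] : List (Bool × Seg)))) (computable_lpStep hO)).of_eq fun p => ?_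
  rw [lpRed, List.foldl_reverse]

theorem primrec_flatSt : Primrec flatSt := by
  refine ((Primrec.eq.comp (Primrec.list_length.comp Primrec.snd) (Primrec.const 0)).and
    (Primrec.eq.comp (Primrec.list_length.comp (primrec_reduce.comp
      (Primrec.fst.comp Primrec.fst))) (Primrec.const 0))).decide.of_eq fun s => ?_
  obtain ⟨⟨a, l⟩, ls⟩ := s
  cases ls <;> cases h : FreeGroup.reduce a <;> simp [flatSt, h]

include hO hw in
theorem computable_lpOne : Computable fun p => lpOne (fO p) (fw p) :=
  Primrec.and.to_comp.comp (primrec_flatSt.to_comp.comp (computable_lpRed hO hw))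
    (hO.comp Computable.id (Computable.snd.comp (Computable.fst.comp (computable_lpRed hO hw))))

include hO hw in
theorem computable_lpBack : Computable fun p => lpBack (fO p) (fw p) :=
  Computable.cond (primrec_flatSt.to_comp.comp (computable_lpRed hO hw))
    (Computable.option_some.comp
      (Computable.snd.comp (Computable.fst.comp (computable_lpRed hO hw))))
    (Computable.const none)

end

end Vale.Agent.P193.Dec
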