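import Vale.Agent.P193.Dec.Code
import Vale.Agent.P193.Dec.GraphComp
import Vale.Agent.P193.Dec.Lp
import Vale.Agent.P193.Dec.Phi

/-!
# P193, part D: the word problem of `K` relative to an oracle for `L`

The `v`-level: the stack of `Graph` with `Σ ≤ Γ₂` decided without oracle, `φ` given as a word of
linear length, and `L₊` decided by a given solver.
-/

namespace Vale.Agent.P193.Dec.Family

open C B.Reduce HNNExtension

variable {acc : ℕ → List (Fin nL) → Bool} (Φ : Family acc) (e : ℕ)

/-- The code is a letter of `L₊`. -/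
def isB (n : ℕ) : Bool := decide (n < 48 ∨ n = 50)

theorem computable_isB : Computable isB :=
  (PrimrecPred.or (Primrec.nat_lt.comp Primrec.id (Primrec.const 48))
    (Primrec.eq.comp Primrec.id (Primrec.const 50))).decide.to_comp

/-- The letters of `Γ₂`. -/
noncomputable def gamGen (n : ℕ) : (Φ.base e).Gam := Φ.gamPart e (Φ.kg e n)

theorem gamPart_of (x : (Φ.base e).Gam × (Φ.base e).Lp) :
    Φ.gamPart e (HNNExtension.of x) = x.1 := by
  rw [gamPart, HNNExtension.lift_of]
  rfl

theorem decK_gam (M : Mach nL) (n : ℕ) (h : isGam n = true) :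
    decK M n = some .cw ∨ decK M n = some .t ∨ decK M n = none ∨
      ∃ a, decK M n = some (.w a) := by
  simp only [isGam, decide_eq_true_eq] at h
  rcases h with rfl | rfl | h
  · exact Or.inl (by simp [decK])
  · exact Or.inr (Or.inl (by simp [decK]))
  refine Or.inr (Or.inr ?_)
  rw [decK, dif_neg (by omega), dif_neg (by omega), if_neg (by omega), if_neg (by omega),
    if_neg (by omega), if_neg (by omega)]
  by_cases h2 : n = 52
  · exact Or.inr ⟨_, if_pos h2⟩
  rw [if_neg h2]
  by_cases h3 : n = 53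
  · exact Or.inr ⟨_, if_pos h3⟩
  rw [if_neg h3]
  by_cases h4 : n - 54 < 24
  · exact Or.inr ⟨_, dif_pos h4⟩
  rw [dif_neg h4]
  by_cases h5 : n - 78 < 24
  · exact Or.inr ⟨_, dif_pos h5⟩
  rw [dif_neg h5]
  by_cases h6 : n - 102 < 24
  · exact Or.inr ⟨_, dif_pos h6⟩
  rw [dif_neg h6]
  by_cases h7 : n - 126 < M.rules.length
  · exact Or.inr ⟨_, dif_pos h7⟩
  · exact Or.inl (dif_neg h7)

theorem kg_gam (n : ℕ) (h : isGam n = true) :
    ∃ x, Φ.kg e n = HNNExtension.of (x, (1 : (Φ.base e).Lp)) := by
  rcases decK_gam (Φ.M e) n h with h' | h' | h' | ⟨a, h'⟩ <;>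
    simp only [kg, h', Option.elim_some, Option.elim_none, Base.Words.toK,
      FreeGroup.lift_apply_of]
  · exact ⟨_, rfl⟩
  · exact ⟨_, rfl⟩
  · exact ⟨1, (map_one _).symm⟩
  · exact ⟨_, rfl⟩

theorem kg_eq (n : ℕ) : Φ.kg e n =
    Graph.gen (Φ.base e).incl (Φ.base e).incl_injective (Φ.base e).phi (Φ.gamGen e) (Φ.lg e)
      51 isGam isB n := by
  rw [Graph.gen]
  by_cases h51 : n = 51
  · subst h51
    simp [kg, decK, Base.Words.toK]
  rw [if_neg h51]
  by_cases hB : n < 48 ∨ n = 50
  · have hA : isGam n = false := by simp [isGam]; omega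
    have hB' : isB n = true := by simp [isB]; omega
    simp only [hA, hB', if_true, Bool.false_eq_true, if_false]
    rw [Φ.kg_eq_lg e hB]
    rfl
  · have hA : isGam n = true := by simp [isGam]; omega
    have hB' : isB n = false := by simp [isB]; omega
    simp only [hA, hB', if_true, Bool.false_eq_true, if_false, gamGen]
    obtain ⟨x, hx⟩ := Φ.kg_gam e n hA
    rw [hx, gamPart_of]

theorem kval_eq (w : Raw ℕ) : Φ.kval e w =
    gval (Graph.gen (Φ.base e).incl (Φ.base e).incl_injective (Φ.base e).phi (Φ.gamGen e)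
      (Φ.lg e) 51 isGam isB) w := by
  rw [kval, show Φ.kg e = _ from funext (Φ.kg_eq e)]

theorem gval_comp {T G H : Type} [Group G] [Group H] (f : G →* H) (g : T → G) (w : Raw T) :
    gval (fun x => f (g x)) w = f (gval g w) :=
  DFunLike.congr_fun (f := FreeGroup.lift fun x => f (g x)) (g := f.comp (FreeGroup.lift g))
    (FreeGroup.ext_hom _ _ fun x => by simp) (FreeGroup.mk w)

theorem gval_gamGen (w : Raw ℕ) : gval (Φ.gamGen e) w = Φ.gamPart e (Φ.kval e w) :=
  gval_comp _ _ w

variable (S : Φ.SigmaSolver) {C : ℕ} (P : Φ.PhiSolver S C)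

/-- The words of `φ`, empty outside `Σ`. -/
def phw (a : Raw ℕ) : Raw ℕ := cond (S.mem e a) (P.f e a) []

/-- The stack of `K`. -/
def kflat (O : GWord → Bool) (w : Raw ℕ) : Option Graph.Seg :=
  Graph.flat 51 isGam isB (S.mem e) (lpOne O) (Φ.phw e S P) w

/-- The word problem of `K`. -/
def kone (O : GWord → Bool) (w : Raw ℕ) : Bool :=
  Option.casesOn (Φ.kflat e S P O w) false fun s => S.one e s.1 && lpOne O s.2

/-- The intersection with `L`. -/
def kback (O : GWord → Bool) (w : Raw ℕ) : Option GWord :=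
  Option.casesOn (Φ.kflat e S P O w) none fun s => cond (S.one e s.1) (lpBack O s.2) none

theorem computable_kflat {σ : Type} [Primcodable σ] {fe : σ → ℕ} {fO : σ → GWord → Bool}
    {fw : σ → List (ℕ × Bool)} (he : Computable fe) (hO : Computable₂ fO) (hw : Computable fw) :
    Computable fun x => Φ.kflat (fe x) S P (fO x) (fw x) := by
  have hm : Computable₂ fun x a => S.mem (fe x) a :=
    (S.mem_computable.comp (he.comp Computable.fst) Computable.snd).to₂
  have ho : Computable₂ fun x a => lpOne (fO x) a :=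
    (computable_lpOne (hO.comp (Computable.fst.comp Computable.fst) Computable.snd).to₂
      Computable.snd).to₂
  have hp : Computable₂ fun x a => Φ.phw (fe x) S P a :=
    (Computable.cond hm (P.f_computable.comp (he.comp Computable.fst) Computable.snd)
      (Computable.const [])).to₂
  exact Graph.computable_flat hm ho hp 51 primrec_isGam.to_comp computable_isB hw

theorem computable_kone {σ : Type} [Primcodable σ] {fe : σ → ℕ} {fO : σ → GWord → Bool}
    {fw : σ → List (ℕ × Bool)} (he : Computable fe) (hO : Computable₂ fO) (hw : Computable fw) :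
    Computable fun x => Φ.kone (fe x) S P (fO x) (fw x) :=
  Computable.option_casesOn (Φ.computable_kflat S P he hO hw) (Computable.const false)
    (Primrec.and.to_comp.comp
      (S.one_computable.comp (he.comp Computable.fst) (Computable.fst.comp Computable.snd))
      (computable_lpOne (hO.comp (Computable.fst.comp Computable.fst) Computable.snd).to₂
        (Computable.snd.comp Computable.snd))).to₂

theorem computable_kback {σ : Type} [Primcodable σ] {fe : σ → ℕ} {fO : σ → GWord → Bool}
    {fw : σ → List (ℕ × Bool)} (he : Computable fe) (hO : Computable₂ fO) (hw : Computable fw) :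
    Computable fun x => Φ.kback (fe x) S P (fO x) (fw x) :=
  Computable.option_casesOn (Φ.computable_kflat S P he hO hw) (Computable.const none)
    (Computable.cond
      (S.one_computable.comp (he.comp Computable.fst) (Computable.fst.comp Computable.snd))
      (computable_lpBack (hO.comp (Computable.fst.comp Computable.fst) Computable.snd).to₂
        (Computable.snd.comp Computable.snd)) (Computable.const none)).to₂

theorem toL_eq (l : Φ.L e) :
    Φ.toL e l = HNNExtension.of ((1 : (Φ.base e).Gam), HNNExtension.of ((1 : F nL), l)) := rfl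

theorem spec_kone (hI : Φ.HInv e) (O : GWord → Bool) (n : ℕ)
    (hO : ∀ l : GWord, l.length ≤ 2 * (2 * C + 1) * n → (O l = true ↔ Φ.lval e l = 1))
    (w : Raw ℕ) (hw : w.length ≤ n) :
    (Φ.kone e S P O w = true ↔ Φ.kval e w = 1) ∧
      (∀ l, Φ.kback e S P O w = some l →
        l.length ≤ 2 * (2 * C + 1) * n ∧ Φ.kval e w = Φ.toL e (Φ.lval e l)) ∧
      (Φ.kback e S P O w = none → Φ.kval e w ∉ (Φ.toL e).range) := by
  have hN : ∀ b : Raw ℕ, b.length ≤ (2 * C + 1) * n →
      (lpOne O b = true ↔ Φ.lev e b = 1) ∧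
      (∀ l, lpBack O b = some l → l.length ≤ b.length ∧
        Φ.lev e b = HNNExtension.of (1, Φ.lval e l)) ∧
      (lpBack O b = none → ∀ l : Φ.L e, Φ.lev e b ≠ HNNExtension.of (1, l)) :=
    fun b hb => Φ.lp_spec hI (n := b.length)
      (fun l hl => hO l (le_trans hl (by rw [mul_assoc]; exact Nat.mul_le_mul_left _ hb))) le_rfl
  have hp : Graph.Hyp (Φ.base e).incl (Φ.base e).phi (Φ.gamGen e) (Φ.lg e) (S.mem e)
      (lpOne O) (Φ.phw e S P) C ((2 * C + 1) * n) := by
    refine ⟨fun a => by rw [gval_gamGen]; exact S.mem_spec e a, fun a z hz => ?_, fun a => ?_,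
      fun b hb => (hN b hb).1⟩
    · rw [gval_gamGen] at hz
      rw [phw, (S.mem_spec e a).2 ⟨z, hz.symm⟩, cond_true]
      obtain ⟨-, hl, hv⟩ := PhiSolver.spec' Φ P e a z hz
      rw [Φ.kval_eq_lev e hl] at hv
      exact (Prod.ext_iff.1 (HNNExtension.of_injective _ hv)).2
    · cases hm : S.mem e a
      · simp [phw, hm]
      · obtain ⟨z, hz⟩ := (S.mem_spec e a).1 hm
        simpa [phw, hm] using (PhiSolver.spec' Φ P e a z hz.symm).1
  obtain ⟨hsome, hnone⟩ := Graph.flat_spec _ (Φ.base e).incl_injective _ (Φ.gamGen e) (Φ.lg e)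
    (tc := 51) (kA := isGam) (kB := isB) hp w (Nat.mul_le_mul_left _ hw)
  simp only [← kval_eq] at hsome hnone
  rw [kone, kback, kflat]
  cases hf : Graph.flat 51 isGam isB (S.mem e) (lpOne O) (Φ.phw e S P) w with
  | none =>
    have h := hnone hf
    refine ⟨⟨fun h' => by simp at h', fun h' => ?_⟩, fun l hl => by simp at hl, fun _ => ?_⟩
    · exact (h ⟨1, (map_one _).trans h'.symm⟩).elim
    · rintro ⟨l, hl⟩
      exact h ⟨_, ((Φ.toL_eq e l).symm.trans hl)⟩
  | some s =>
    obtain ⟨hv, -, hlen⟩ := hsome s hf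
    have hb : s.2.length ≤ (2 * C + 1) * n :=
      hlen.trans (Nat.mul_le_mul (by omega) hw)
    obtain ⟨h1, h2, h3⟩ := hN s.2 hb
    have hA : S.one e s.1 = true ↔ gval (Φ.gamGen e) s.1 = 1 := by
      rw [gval_gamGen]; exact S.one_spec e s.1
    refine ⟨?_, fun l hl => ?_, fun hn => ?_⟩
    · simp only [Bool.and_eq_true]
      rw [hA, h1, hv, ← map_one (HNNExtension.of :
        (Φ.base e).Gam × (Φ.base e).Lp →* Φ.K e), (HNNExtension.of_injective _).eq_iff]
      simp [Graph.sv, Prod.ext_iff, lev]
    · cases hc : S.one e s.1 <;> simp [hc] at hl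
      obtain ⟨hlen', hl'⟩ := h2 l hl
      refine ⟨hlen'.trans (hb.trans (Nat.mul_le_mul_right _ (by omega))), ?_⟩
      rw [hv, toL_eq, ← hl', ← hA.1 hc]
      rfl
    · rintro ⟨l, hl⟩
      rw [hv, toL_eq] at hl
      obtain ⟨ha, hb'⟩ := Prod.ext_iff.1 (HNNExtension.of_injective _ hl)
      have hc := hA.2 ha.symm
      simp only [hc, cond_true] at hn
      exact h3 hn l hb'.symm

/-- **The word problem of `K` relative to `L`**, from the oracle-free part, COR and the relators. -/
theorem kSolver (S : Φ.SigmaSolver) {C : ℕ} (hI : ∀ e, Φ.HInv e) (hC : Φ.PhiBound C) (R : Φ.KRels) :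
    Nonempty Φ.KSolver := by
  obtain ⟨P⟩ := Φ.nonempty_phiSolver S R hC
  exact ⟨{
    C := 2 * (2 * C + 1)
    one := fun e O w => Φ.kone e S P O w
    back := fun e O w => Φ.kback e S P O w
    spec := fun e O n hO w hw => Φ.spec_kone e S P (hI e) O n hO w hw
    one_computable := fun he hO hw => Φ.computable_kone S P he hO hw
    back_computable := fun he hO hw => Φ.computable_kback S P he hO hw }⟩

end Vale.Agent.P193.Dec.Family
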