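import Vale.Agent.P193.Dec.Lp
import Vale.Agent.P193.Dec.Acc

/-!
# P193, part D: the group of a program with known relators

A program can enumerate relators computed from its own number (the recursion theorem). The group `L`
of such a program is the group presented by these relators.
-/

namespace Vale.Agent.P193.Dec

open C B Nat.Partrec

theorem flipD_digit : ∀ p : WordL.Gen × Bool, flipD (digit p) = digit (p.1, !p.2) := by decide

theorem mem_pairs {l : List (Fin nL)} (h : l ∈ pairs) :
    ∃ p : WordL.Gen × Bool, l = digits [p, (p.1, !p.2)] := by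
  obtain ⟨i, -, rfl⟩ := List.mem_map.1 h
  obtain ⟨p, rfl⟩ := digit_bijective.2 i
  exact ⟨p, by simp [digits, flipD_digit]⟩

/-- For `accE` cancelling pairs are trivial in every `L`. -/
theorem Family.hInv (Φ : Family accE) (e : ℕ) : Φ.HInv e := by
  intro p
  refine (QuotientGroup.eq_one_iff _).2 (Subgroup.subset_normalClosure ⟨_, ?_, rfl⟩)
  show (Φ.M e).acc (digits [p, (p.1, !p.2)]) = true
  rw [Φ.acc_eq, show digits [p, (p.1, !p.2)] = [digit p, flipD (digit p)] by
    simp [digits, flipD_digit]]
  exact accE_pair e _

theorem primrec_digits : Primrec digits :=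
  Primrec.list_map Primrec.id ((Primrec.dom_finite digit).comp Primrec.snd).to₂

/-- A program which enumerates relators computed from its own number, and the cancelling pairs. -/
theorem exists_program (rel : ℕ → ℕ → GWord) (h : Computable₂ rel) :
    ∃ e, relators e = digits '' Set.range (rel e) ∪ {l | l ∈ pairs} := by
  let f : Code → ℕ → ℕ := fun c n =>
    Encodable.encode (bif n.bodd then (pairs[n.div2]?).getD (pairs.headD [])
      else digits (rel (Encodable.encode c) n.div2))
  have hf : Computable₂ f := by
    refine (Computable.encode.comp (Computable.cond (Computable.nat_bodd.comp Computable.snd)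
      (Computable.option_getD (Computable.list_getElem?.comp (Computable.const pairs)
        (Computable.nat_div2.comp Computable.snd)) (Computable.const _))
      (primrec_digits.to_comp.comp (h.comp (Computable.encode.comp Computable.fst)
        (Computable.nat_div2.comp Computable.snd))))).to₂
  obtain ⟨c, hc⟩ := Code.fixed_point₂ (f := fun c n => Part.some (f c n)) hf.partrec₂
  refine ⟨Encodable.encode c, Set.ext fun l => ?_⟩
  simp only [relators, Denumerable.ofNat_encode, hc, Part.mem_some_iff, exists_eq_left,
    Set.mem_ofPred_eq, f, Encodable.encodek, Option.some.injEq, Set.mem_union, Set.mem_image,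
    Set.mem_range, exists_exists_eq_and]
  constructor
  · rintro ⟨n, rfl⟩
    cases n.bodd
    · exact .inl ⟨n.div2, rfl⟩
    · right
      rw [cond_true]
      cases hp : pairs[n.div2]? with
      | none =>
        rw [Option.getD_none]
        decide
      | some p =>
        rw [Option.getD_some]
        exact List.mem_of_getElem? hp
  · rintro (⟨j, rfl⟩ | hl)
    · exact ⟨2 * j, by simp⟩
    · obtain ⟨j, hj⟩ := List.getElem?_of_mem hl
      exact ⟨2 * j + 1, by simp [Nat.div2_val, hj]⟩

/-- The group `L` of a program with the relators `rel` is the group presented by them. -/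
theorem exists_lIso (Φ : Family accE) (e : ℕ) (rel : ℕ → GWord)
    (he : relators e = digits '' Set.range rel ∪ {l | l ∈ pairs})
    {Gam : Type} [Group Gam] (g : WordL.Gen → Gam)
    (surj : Function.Surjective (FreeGroup.lift g))
    (ker : (FreeGroup.lift g).ker =
      Subgroup.normalClosure (Set.range fun j => FreeGroup.mk (rel j))) :
    ∃ ι : Φ.L e ≃* Gam, ∀ w : GWord, ι (Φ.lval e w) = Reduce.gval g w := by
  let un : Fin nL → WordL.Gen × Bool := (Equiv.ofBijective digit digit_bijective).symm
  have hun : ∀ p, un (digit p) = p := (Equiv.ofBijective digit digit_bijective).symm_apply_apply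
  let π : F nL →* Gam := FreeGroup.lift fun i =>
    FreeGroup.lift g (FreeGroup.mk [un i])
  have hπ : ∀ w : GWord, π (C.val (digits w)) = Reduce.gval g w := by
    intro w
    induction w with
    | nil => simp [digits, C.val, Reduce.gval, ← FreeGroup.one_eq_mk]
    | cons p w ih =>
      rw [show (p :: w) = [p] ++ w from rfl, Reduce.gval_append, ← ih]
      simp [digits, C.val, π, hun, Reduce.gval]
  have hrel : (Φ.M e).relN = Subgroup.normalClosure (C.val '' relators e) := by
    rw [← normalClosure_accE (fun p hp => by rw [he]; exact .inr hp)]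
    unfold Mach.relN Mach.accSet
    simp only [Φ.acc_eq]
  let ρ : FreeGroup WordL.Gen →* Φ.L e :=
    FreeGroup.lift fun a => ((FreeGroup.of (digit (a, true)) : F nL) : Φ.L e)
  have hρ : ∀ w : GWord, ρ (FreeGroup.mk w) = Φ.lval e w := by
    intro w
    induction w with
    | nil => simp [Φ.lval_nil, ← FreeGroup.one_eq_mk]
    | cons p w ih =>
      rw [show (p :: w) = [p] ++ w from rfl, ← FreeGroup.mul_mk, map_mul, ih, List.singleton_append,
        Φ.lval_cons]
      congr 1
      obtain ⟨a, _ | _⟩ := p
      · rw [show (a, false) = ((a, true).1, !(a, true).2) from rfl,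
          Family.lval_swap (Φ.hInv e)]
        exact (map_inv ρ (FreeGroup.of a)).trans (congrArg _ FreeGroup.lift_apply_of)
      · exact FreeGroup.lift_apply_of
  have hker : (Φ.M e).relN = π.ker := by
    refine le_antisymm ?_ fun x hx => ?_
    · rw [hrel]
      refine Subgroup.normalClosure_le_normal ?_
      rintro _ ⟨l, hl, rfl⟩
      rw [he] at hl
      rcases hl with ⟨_, ⟨j, rfl⟩, rfl⟩ | hl
      · rw [SetLike.mem_coe, MonoidHom.mem_ker, hπ]
        exact MonoidHom.mem_ker.1 (ker ▸ Subgroup.subset_normalClosure ⟨j, rfl⟩ :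
          FreeGroup.mk (rel j) ∈ (FreeGroup.lift g).ker)
      · obtain ⟨p, rfl⟩ := mem_pairs hl
        rw [SetLike.mem_coe, MonoidHom.mem_ker, hπ, show [p, (p.1, !p.2)] = [p] ++ [(p.1, !p.2)]
          from rfl, Reduce.gval_append, show [(p.1, !p.2)] = FreeGroup.invRev [p] from rfl,
          Reduce.gval_invRev, mul_inv_cancel]
    · let θ : F nL →* FreeGroup WordL.Gen := FreeGroup.lift fun i => FreeGroup.mk [un i]
      have hπθ : π = (FreeGroup.lift g).comp θ := FreeGroup.ext_hom _ _ fun i => by simp [π, θ]
      have hρθ : ρ.comp θ = QuotientGroup.mk' (Φ.base e).N := by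
        refine FreeGroup.ext_hom _ _ fun i => ?_
        obtain ⟨p, rfl⟩ := digit_bijective.2 i
        rw [MonoidHom.comp_apply, show θ (FreeGroup.of (digit p)) = FreeGroup.mk [p] by
          simp [θ, hun], hρ, Φ.lval_cons, Φ.lval_nil, mul_one]
        rfl
      have hθ : θ x ∈ Subgroup.normalClosure (Set.range fun j => FreeGroup.mk (rel j)) := by
        rw [← ker, MonoidHom.mem_ker, ← MonoidHom.comp_apply, ← hπθ]
        exact MonoidHom.mem_ker.1 hx
      have hle : Subgroup.normalClosure (Set.range fun j => FreeGroup.mk (rel j)) ≤ ρ.ker := by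
        refine Subgroup.normalClosure_le_normal ?_
        rintro _ ⟨j, rfl⟩
        rw [SetLike.mem_coe, MonoidHom.mem_ker, hρ]
        refine (QuotientGroup.eq_one_iff _).2 ?_
        show C.val (digits (rel j)) ∈ (Φ.M e).relN
        rw [hrel]
        exact Subgroup.subset_normalClosure ⟨_, by rw [he]; exact .inl ⟨_, ⟨j, rfl⟩, rfl⟩, rfl⟩
      have h1 : ((x : F nL) : Φ.L e) = 1 :=
        ((DFunLike.congr_fun hρθ x).symm.trans (MonoidHom.mem_ker.1 (hle hθ)))
      exact (QuotientGroup.eq_one_iff _).1 h1
  have hsurj : Function.Surjective π := by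
    intro y
    obtain ⟨z, rfl⟩ := surj y
    induction z using FreeGroup.induction_on with
    | C1 => exact ⟨1, by simp⟩
    | of a => exact ⟨FreeGroup.of (digit (a, true)), by simp [π, hun]⟩
    | inv_of a ih =>
      obtain ⟨v, hv⟩ := ih
      exact ⟨v⁻¹, by rw [map_inv, hv, map_inv]⟩
    | mul a b ha hb =>
      obtain ⟨u, hu⟩ := ha
      obtain ⟨v, hv⟩ := hb
      exact ⟨u * v, by rw [map_mul, hu, hv, map_mul]⟩
  exact ⟨(QuotientGroup.quotientMulEquivOfEq hker).trans
    (QuotientGroup.quotientKerEquivOfSurjective π hsurj), fun w => hπ w⟩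

end Vale.Agent.P193.Dec
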