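import Vale.Agent.P193.Dec.Code
import Vale.Agent.P193.C.GapEnd

/-!
# P193, part D: the linear bound for `φ`, on coded words

A letter of `K` costs at most one in `Γ₂`; a word of cost `n` in the letters of `L₊` is a coded word
of length at most `n` in the codes `24..47` and `50`.
-/

noncomputable section

namespace Vale.Agent.P193.Dec.Family

open C C.Align B B.Reduce

variable {acc : ℕ → List (Fin nL) → Bool} (Φ : Family acc) (e : ℕ)

/-- The costs of the machine of a program. -/
def costs : (Φ.base e).Costs := (Φ.M e).costs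

theorem gamPart_of_pair (x : (Φ.base e).Gam) (y : (Φ.base e).Lp) :
    Φ.gamPart e (HNNExtension.of (x, y)) = x := by
  simp [gamPart]

theorem cost_one {x : (Φ.base e).Gam} (h : x = 1) :
    Cost (Base.gen3 (Φ.costs e)) x 1 := h ▸ Cost.one.mono (Nat.zero_le 1)

theorem cost_W {g : (Φ.M e).W} (h : (Φ.M e).genM g 1) :
    Cost (Base.gen3 (Φ.costs e))
      (SemidirectProduct.inr (HNNExtension.of g) : (Φ.base e).Gam) 1 :=
  Cost.of_gen (Or.inl ⟨_, Or.inl ⟨g, h, rfl⟩, rfl⟩)

theorem cost_kg (n : ℕ) :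
    Cost (Base.gen3 (Φ.costs e)) (Φ.gamPart e (Φ.kg e n)) 1 := by
  unfold kg
  cases h : decK (Φ.M e) n with
  | none => exact Φ.cost_one e (map_one _)
  | some g =>
    simp only [Option.elim, Base.Words.toK, FreeGroup.lift_apply_of]
    cases g with
    | w a =>
      rw [gamPart_of_pair]
      refine Φ.cost_W e ?_
      rcases a with b | i | r
      · exact Or.inl ⟨Mach.unitPt b, by simp [Mach.words, Mach.piW], by simp [Mach.unitPt]⟩
      · exact Or.inl ⟨Mach.unitF i, by simp [Mach.words, Mach.piW], by simp [Mach.unitF]⟩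
      · exact Or.inr ⟨(r, true), by simp [Mach.words, Mach.piW, Mach.tL], le_rfl⟩
    | cw =>
      rw [gamPart_of_pair]
      exact Cost.of_gen (Or.inl ⟨_, Or.inr ⟨⟨1, by simp [tp]⟩, rfl⟩, rfl⟩)
    | t =>
      rw [gamPart_of_pair]
      exact Cost.of_gen (Or.inr ⟨Or.inl rfl, rfl⟩)
    | y k => exact Φ.cost_one e (gamPart_of_pair ..)
    | y' k => exact Φ.cost_one e (gamPart_of_pair ..)
    | s => exact Φ.cost_one e (gamPart_of_pair ..)
    | v => exact Φ.cost_one e (by simp [gamPart])

theorem gen3_inv {ι κ W : Type} [Group W] {B : Base ι κ W} [DecidableEq κ] (S : B.Costs)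
    (x : B.Gam) (n : ℕ) (h : Base.gen3 S x n) : Base.gen3 S x⁻¹ n := by
  rcases h with ⟨g, hg, rfl⟩ | ⟨hx, rfl⟩
  · exact Or.inl ⟨g⁻¹, gen2_inv S.inv _ _ hg, map_inv _ _⟩
  · refine Or.inr ⟨?_, rfl⟩
    rcases hx with rfl | rfl
    · exact Or.inr rfl
    · exact Or.inl (inv_inv _)

theorem cost_kval (w : Reduce.Raw ℕ) :
    Cost (Base.gen3 (Φ.costs e)) (Φ.gamPart e (Φ.kval e w)) w.length := by
  induction w with
  | nil => simpa [kval, gval, ← FreeGroup.one_eq_mk] using Cost.one
  | cons p w ih =>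
    have h1 : Cost (Base.gen3 (Φ.costs e)) (Φ.gamPart e (Φ.kval e [p])) 1 := by
      obtain ⟨n, _ | _⟩ := p
      · have := Cost.inv' (gen3_inv (Φ.costs e)) (Φ.cost_kg e n)
        simpa [kval, gval, FreeGroup.lift_mk] using this
      · simpa [kval, gval, FreeGroup.lift_mk] using Φ.cost_kg e n
    rw [show p :: w = [p] ++ w from rfl, kval, gval_append, map_mul, List.length_append,
      List.length_singleton]
    exact h1.mul ih

theorem exists_code {x : (Φ.base e).Lp} {n : ℕ} (h : Cost (Φ.base e).genP x n) :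
    ∃ u : Reduce.Raw ℕ, u.length ≤ n ∧ (∀ p ∈ u, p.1 < 48 ∨ p.1 = 50) ∧
      Φ.kval e u = HNNExtension.of (1, x) := by
  induction h with
  | of_gen h =>
    obtain ⟨rfl, h⟩ := h
    rcases h with ⟨k, b, rfl⟩ | rfl | rfl
    · have hk : decK (Φ.M e) (24 + k) = some (.y k) := by
        have h1 : ¬(24 + (k : ℕ)) < 24 := by omega
        have h2 : 24 + (k : ℕ) - 24 < 24 := by have h3 : (k : ℕ) < 24 := k.2; omega
        simp only [decK, dif_neg h1, dif_pos h2]
        congr 2
        exact Fin.ext (by simp)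
      refine ⟨[(24 + k, b)], le_rfl, fun p hp => ?_, ?_⟩
      · rw [List.mem_singleton.1 hp]; left; have h3 : (k : ℕ) < 24 := k.2; omega
      · cases b
        · simp [kval, gval, FreeGroup.lift_mk, kg, hk, Base.Words.toK]
          rw [← map_inv, Prod.inv_mk, inv_one, ← map_inv]
          rfl
        · simp [kval, gval, FreeGroup.lift_mk, kg, hk, Base.Words.toK]
          rfl
    · exact ⟨[(50, true)], le_rfl, by simp,
        by simp [kval, gval, FreeGroup.lift_mk, kg, decK, Base.Words.toK]⟩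
    · refine ⟨[(50, false)], le_rfl, by simp, ?_⟩
      simp [kval, gval, FreeGroup.lift_mk, kg, decK, Base.Words.toK]
      rw [← map_inv, Prod.inv_mk, inv_one]
  | one => exact ⟨[], le_rfl, by simp, by simp [kval, gval, ← FreeGroup.one_eq_mk]; exact (map_one _).symm⟩
  | mul _ _ ha hb =>
    obtain ⟨u, hu, hu', hu''⟩ := ha
    obtain ⟨v, hv, hv', hv''⟩ := hb
    refine ⟨u ++ v, by simp; omega, fun p hp => ?_, ?_⟩
    · exact (List.mem_append.1 hp).elim (hu' p) (hv' p)
    · rw [kval, gval_append]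
      show Φ.kval e u * Φ.kval e v = _
      rw [hu'', hv'', ← map_mul, Prod.mk_mul_mk, mul_one]
  | mono _ hle ha =>
    obtain ⟨u, hu, hu', hu''⟩ := ha
    exact ⟨u, hu.trans hle, hu', hu''⟩

/-- COR of C3: `φ` is linearly bounded, with the constant six for every program. -/
theorem phiBound : Φ.PhiBound 6 := by
  intro e w z hz
  have h := Φ.cost_kval e w
  rw [hz] at h
  exact Φ.exists_code e (Base.phi_bound (Φ.costs e) h)

end Vale.Agent.P193.Dec.Family
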