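import Vale.Agent.P193.Final.Embed

/-!
# P193, part D: the test, the slot predicate and the relators are computable
-/

namespace Vale.Agent.P193.Dec.Fix

open B B.Reduce

variable {Φ : Family accE} (S : Φ.KSolver) (R : Φ.KRels) {G : Type} [Group G] (Gd : GData G)
variable {τ : Type} [Primcodable τ] {fe : τ → ℕ} {fO : τ → GWord → Bool × Bool}

theorem computable_guardO {fn : τ → ℕ} (hn : Computable fn) (hO : Computable₂ fO) :
    Computable₂ fun x l => Table.guardLt (fn x) (fO x) l := by
  show Computable fun p : τ × GWord => Table.guardLt (fn p.1) (fO p.1) p.2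
  refine (Computable.cond ((Primrec.nat_lt.decide).to_comp.comp
    (Computable.list_length.comp Computable.snd) (hn.comp Computable.fst))
    (hO.comp Computable.fst Computable.snd) (Computable.const default)).of_eq fun p => ?_
  by_cases h : p.2.length < fn p.1 <;> simp [Table.guardLt, h]

theorem computable_oneKO (he : Computable fe) (hO : Computable₂ fO) {fw : τ → List (ℕ × Bool)}
    (hw : Computable fw) : Computable fun x => oneKO S (fe x) (fO x) (fw x) :=
  S.one_computable he (Computable.fst.comp hO).to₂ hw

theorem computable_testO (he : Computable fe) (hO : Computable₂ fO) {fw : τ → List (ℕ × Bool)}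
    (hw : Computable fw) : Computable fun x => testO S (fe x) (fO x) (fw x) := by
  have hn : Computable fun x => S.C * (fw x).length + 1 :=
    Computable.succ.comp (Primrec.nat_mul.to_comp.comp (Computable.const S.C)
      (Computable.list_length.comp hw))
  have hg := computable_guardO hn hO
  have hb : Computable fun x =>
      S.back (fe x) (fun l => (Table.guardLt (S.C * (fw x).length + 1) (fO x) l).1) (fw x) :=
    S.back_computable he (Computable.fst.comp hg).to₂ hw
  refine (Computable.option_casesOn hb (Computable.const false)
    ((Computable.snd.comp hg).to₂)).of_eq fun x => ?_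
  unfold testO
  cases S.back (fe x) (fun l => (Table.guardLt (S.C * (fw x).length + 1) (fO x) l).1) (fw x) <;> rfl

theorem computable_kw : Computable kw := by
  have h : Primrec fun j : ℕ =>
      ((Encodable.decode j : Option (List (ℕ × Bool))).getD []).take (j + 1) :=
    Primrec.list_take.comp Primrec.succ
      (Primrec.option_getD.comp Primrec.decode (Primrec.const []))
  exact h.to_comp

theorem computable_inJO (he : Computable fe) (hO : Computable₂ fO) {fj : τ → ℕ}
    (hj : Computable fj) : Computable fun x => inJO S (fe x) (fO x) (fj x) :=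
  Primrec.not.to_comp.comp (computable_testO S he hO (computable_kw.comp hj))

theorem computable_slotJ (he : Computable fe) (hO : Computable₂ fO) {fj fs : τ → ℕ}
    (hj : Computable fj) (hs : Computable fs) :
    Computable fun x => slotJ S (fe x) (fO x) (fj x) (fs x) :=
  Primrec.and.to_comp.comp
    ((Primrec.eq (α := ℕ)).decide.to_comp.comp hs (Computable.const 0))
    (computable_inJO S he hO hj)

theorem computable_ofLetter {f : ℕ × Bool → Slots.T × Bool} (hf : Computable f) :
    Computable fun w : List (ℕ × Bool) => w.map f :=
  computable_map Computable.id (hf.comp Computable.snd).to₂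

theorem computable_ofK : Computable Slots.ofK :=
  computable_ofLetter ((Primrec.sumInl.to_comp.comp Computable.fst).pair Computable.snd)

theorem computable_ofG : Computable Slots.ofG :=
  computable_ofLetter
    ((Primrec.sumInr.to_comp.comp (Primrec.sumInl.to_comp.comp Computable.fst)).pair Computable.snd)

/-- A free letter as a letter of `D`. -/
theorem primrec_freeLetter : Primrec fun x : DWord.FL => (Sum.inr (Sum.inr x) : Slots.T) :=
  Primrec.sumInr.comp Primrec.sumInr

theorem primrec_tOf : Primrec Slots.tOf := by
  have hq : Primrec fun n : ℕ => n / 4 := Primrec.nat_div.comp Primrec.id (Primrec.const 4)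
  have hm : ∀ k, PrimrecPred fun n : ℕ => n % 4 = k := fun k =>
    Primrec.eq.comp (Primrec.nat_mod.comp Primrec.id (Primrec.const 4)) (Primrec.const k)
  exact Primrec.ite (hm 0) (Primrec.sumInl.comp hq)
    (Primrec.ite (hm 1) (Primrec.sumInr.comp (Primrec.sumInl.comp hq))
      (Primrec.ite (hm 2) (primrec_freeLetter.comp (Primrec.sumInl.comp
          (Primrec.eq.comp hq (Primrec.const 1)).decide))
        (primrec_freeLetter.comp (Primrec.sumInr.comp hq))))

theorem computable_de₂ : Computable Slots.de₂ :=
  (Primrec.list_cons.comp (Primrec.pair primrec_tOf (Primrec.const true))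
    (Primrec.const [])).to_comp

theorem primrec_idx : Primrec Slots.idx := by
  refine (Primrec.sumCasesOn (α := Slots.T) Primrec.id
    ((Primrec.nat_mul.comp (Primrec.const 4) Primrec.snd).to₂)
    ((Primrec.sumCasesOn (α := Slots.T × (ℕ ⊕ DWord.FL)) Primrec.snd
      ((Primrec.nat_add.comp (Primrec.nat_mul.comp (Primrec.const 4) Primrec.snd)
        (Primrec.const 1)).to₂)
      ((Primrec.sumCasesOn (α := (Slots.T × (ℕ ⊕ DWord.FL)) × DWord.FL) Primrec.snd
        ((Primrec.nat_add.comp (Primrec.nat_mul.comp (Primrec.const 4)
          (Primrec.cond Primrec.snd (Primrec.const 1) (Primrec.const 0))) (Primrec.const 2)).to₂)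
        ((Primrec.nat_add.comp (Primrec.nat_mul.comp (Primrec.const 4) Primrec.snd)
          (Primrec.const 3)).to₂)).to₂)).to₂)).of_eq fun t => ?_
  rcases t with a | a | a | a <;> rfl

theorem computable_gWord {fj : τ → ℕ} (hj : Computable fj) :
    Computable fun x => Slots.gWord kw (fj x) :=
  Computable.list_cons.comp
    (Computable.const ((.inr (.inr (.inl false)), false) : Slots.T × Bool))
    (Computable.list_cons.comp
      ((primrec_freeLetter.to_comp.comp (Primrec.sumInr.to_comp.comp hj)).pair
        (Computable.const false))
      (computable_ofK.comp (computable_kw.comp hj)))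

theorem computable_de₁ {J : τ → ℕ → ℕ → Bool}
    (hJ : Computable fun p : τ × ℕ × ℕ => J p.1 p.2.1 p.2.2) :
    Computable₂ fun x i => Slots.de₁ (J x) kw i := by
  have hi : Primrec fun p : τ × ℕ => (p.2 - 12) / 2 :=
    Primrec.nat_div.comp (Primrec.nat_sub.comp Primrec.snd (Primrec.const 12)) (Primrec.const 2)
  have hu := (Primrec.unpair.comp hi).to_comp
  have hlt := (Primrec.nat_lt.comp (Primrec.snd (α := τ) (β := ℕ)) (Primrec.const 12)).decide
  have hev := (Primrec.eq.comp (Primrec.nat_mod.comp
    (Primrec.nat_sub.comp (Primrec.snd (α := τ) (β := ℕ)) (Primrec.const 12)) (Primrec.const 2))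
    (Primrec.const 0)).decide
  have hj := hJ.comp (Computable.fst.pair hu)
  show Computable fun p : τ × ℕ => Slots.de₁ (J p.1) kw p.2
  refine (Computable.cond hlt.to_comp
    (Computable.list_cons.comp ((Primrec.sumInl.to_comp.comp Computable.snd).pair
      (Computable.const true)) (Computable.const []))
    (Computable.cond hev.to_comp
      (Computable.list_cons.comp
        ((primrec_freeLetter.to_comp.comp (Primrec.sumInr.to_comp.comp hi.to_comp)).pair
          (Computable.const true)) (Computable.const []))
      (Computable.cond hj (computable_gWord (Computable.fst.comp hu))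
        (Computable.const [])))).of_eq fun p => ?_
  unfold Slots.de₁
  by_cases h1 : p.2 < 12 <;> by_cases h2 : (p.2 - 12) % 2 = 0 <;>
    cases h3 : J p.1 ((p.2 - 12) / 2).unpair.1 ((p.2 - 12) / 2).unpair.2 <;> simp [h1, h2, h3]

theorem computable_rD : Computable₂ fun e n => Slots.rD (Φ.rK R e) Gd.rG n := by
  show Computable fun p : ℕ × ℕ => Slots.rD (Φ.rK R p.1) Gd.rG p.2
  have hh : Computable fun p : ℕ × ℕ => p.2 / 2 :=
    (Primrec.nat_div.comp Primrec.snd (Primrec.const 2)).to_comp
  refine (Computable.cond
    ((Primrec.eq.comp (Primrec.nat_mod.comp (Primrec.snd (α := ℕ)) (Primrec.const 2))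
      (Primrec.const 0)).decide).to_comp
    (computable_ofK.comp ((Φ.computable_rK R).comp Computable.fst hh))
    (computable_ofG.comp (Gd.rG_computable.comp hh))).of_eq fun p => ?_
  unfold Slots.rD
  by_cases h : p.2 % 2 = 0 <;> simp [h]

/-- **The relators of `L(J)` are computable from the program.** -/
theorem computable_relFam (hS : StepComputable S Gd) :
    Computable₂ fun e n => relFam S R Gd e n := by
  have hd : Computable₂ (dec S Gd) := computable_dec S Gd hS
  have hJ : Computable fun p : ℕ × ℕ × ℕ => J₀ S Gd p.1 p.2.1 p.2.2 :=
    computable_slotJ S Computable.fst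
      ((hd.comp (Computable.fst.comp Computable.fst) Computable.snd).to₂)
      (Computable.fst.comp Computable.snd) (Computable.snd.comp Computable.snd)
  have hsw : Computable₂ fun (_ : ℕ) t => Slots.sw (mult S) t :=
    (((primrec_slot (mult S) true).comp primrec_idx).to_comp.comp Computable.snd).to₂
  exact computable_rel primrec_tOf.to_comp (computable_rD R Gd) (computable_de₁ hJ)
    ((computable_de₂.comp Computable.snd).to₂) hsw

end Vale.Agent.P193.Dec.Fix
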