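import Vale.Agent.P193.B.RelL
import Vale.Agent.P193.Dec.Base

/-!
# The relators of `L` are computable in the data (P193, part D)
-/

namespace Vale.Agent.P193.Dec

open B Reduce WordL

variable [Primcodable B.Letter]

theorem primrec_letterOf : Primrec RelL.letterOf := by
  refine (Primrec.ite (Primrec.eq.comp Primrec.id (Primrec.const 0)) (Primrec.const Letter.a)
    (Primrec.ite (Primrec.eq.comp Primrec.id (Primrec.const 1)) (Primrec.const Letter.b)
      (Primrec.const Letter.e))).of_eq fun n => ?_
  rcases n with _ | _ | n <;> simp [RelL.letterOf]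

theorem primrec_replicate {α : Type*} [Primcodable α] (x : α) :
    Primrec fun n : ℕ => List.replicate n x := by
  refine (Primrec.list_map Primrec.list_range (Primrec.const x).to₂).of_eq fun n => ?_
  induction n with
  | zero => rfl
  | succ n ih => rw [List.range_succ, List.map_append, ih, List.replicate_succ']; rfl

theorem primrec_wRaw (M : ℕ) : Primrec (RelL.wRaw M) :=
  Primrec.list_append.comp
    (Primrec.list_append.comp (primrec_replicate _)
      (Primrec.list_cons.comp (Primrec.const (Letter.e, true))
        ((primrec_replicate (Letter.b, true)).comp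
          (Primrec.nat_mul.comp (Primrec.const M) (Primrec.succ)))))
    (primrec_replicate _)

theorem primrec_inGen (pr b : Bool) : Primrec (RelL.inGen pr b) :=
  Primrec.list_map Primrec.id
    (Primrec.pair
      (Primrec.pair (Primrec.const pr)
        (Primrec.pair (Primrec.const b) (Primrec.fst.comp Primrec.snd)))
      (Primrec.snd.comp Primrec.snd)).to₂

theorem primrec_slot (M : ℕ) (pr : Bool) : Primrec (RelL.slot M pr) :=
  Primrec.list_append.comp ((primrec_inGen pr true).comp (primrec_wRaw M))
    (primrec_invRev.comp ((primrec_inGen pr false).comp (primrec_wRaw M)))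

theorem subst_eq {α β : Type} (s : α → Raw β) (r : Raw α) : RelL.subst s r = subst s r := by
  induction r with
  | nil => rfl
  | cons p r ih =>
    simp only [RelL.subst, subst, List.flatMap_cons] at ih ⊢
    rw [ih]
    obtain ⟨a, b⟩ := p
    cases b <;> rfl

/-- The relators of `L` are computable, uniformly in a parameter. -/
theorem computable_rel {σ TD : Type} [Primcodable σ] [Primcodable TD] {M : ℕ} {tOf : ℕ → TD}
    {rD de₁ de₂ : σ → ℕ → Raw TD} {sw : σ → TD → Raw Gen} (ht : Computable tOf)
    (hr : Computable₂ rD) (h1 : Computable₂ de₁) (h2 : Computable₂ de₂) (hs : Computable₂ sw) :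
    Computable₂ fun x n => RelL.rel M tOf (rD x) (de₁ x) (de₂ x) (sw x) n := by
  have hx : Computable fun p : σ × ℕ => p.1 := Computable.fst
  have hk : Computable fun p : σ × ℕ => p.2 % 6 :=
    (Primrec.nat_mod.comp Primrec.snd (Primrec.const 6)).to_comp
  have hm : Computable fun p : σ × ℕ => p.2 / 6 :=
    (Primrec.nat_div.comp Primrec.snd (Primrec.const 6)).to_comp
  have hsub : ∀ {r : σ → ℕ → Raw TD}, Computable₂ r →
      Computable fun p : σ × ℕ => subst (sw p.1) (r p.1 (p.2 / 6)) := fun hr' =>
    computable_subst (φ := fun p : σ × ℕ => sw p.1)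
      ((hs.comp (hx.comp Computable.fst) Computable.snd).to₂) (hr'.comp hx hm)
  have hsw : Computable fun p : σ × ℕ => sw p.1 (tOf (p.2 / 6 / 3)) :=
    hs.comp hx (ht.comp ((Primrec.nat_div.comp Primrec.id (Primrec.const 3)).to_comp.comp hm))
  have hcomm : ∀ {u v : σ × ℕ → Raw Gen}, Computable u → Computable v →
      Computable fun p => RelL.comm (u p) (v p) := fun hu hv =>
    Computable.list_append.comp
      (Computable.list_append.comp (Computable.list_append.comp hu hv)
        (primrec_invRev.to_comp.comp hu))
      (primrec_invRev.to_comp.comp hv)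
  have hlet : ∀ pr : Bool, Computable fun p : σ × ℕ =>
      [((pr, false, RelL.letterOf (p.2 / 6 % 3)), true)] := fun pr =>
    (Primrec.list_cons.comp
      (Primrec.pair (Primrec.pair (Primrec.const pr) (Primrec.pair (Primrec.const false)
        (primrec_letterOf.comp (Primrec.nat_mod.comp
          (Primrec.nat_div.comp Primrec.snd (Primrec.const 6)) (Primrec.const 3)))))
        (Primrec.const true))
      (Primrec.const [])).to_comp
  have hlet2 : Computable fun p : σ × ℕ =>
      [((true, decide (p.2 / 6 / 9 = 1), RelL.letterOf (p.2 / 6 / 3 % 3)), true)] :=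
    (Primrec.list_cons.comp
      (Primrec.pair (Primrec.pair (Primrec.const true) (Primrec.pair
        ((Primrec.eq.comp (Primrec.nat_div.comp
          (Primrec.nat_div.comp Primrec.snd (Primrec.const 6)) (Primrec.const 9))
          (Primrec.const 1)).decide)
        (primrec_letterOf.comp (Primrec.nat_mod.comp (Primrec.nat_div.comp
          (Primrec.nat_div.comp Primrec.snd (Primrec.const 6)) (Primrec.const 3))
          (Primrec.const 3)))))
        (Primrec.const true))
      (Primrec.const [])).to_comp
  have hd : ∀ j, Computable fun p : σ × ℕ => decide (p.2 % 6 = j) := fun j =>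
    ((Primrec.eq.comp (Primrec.nat_mod.comp Primrec.snd (Primrec.const 6))
      (Primrec.const j)).decide).to_comp
  have hslot : ∀ (pr : Bool) {r : σ → ℕ → Raw TD}, Computable₂ r →
      Computable fun p : σ × ℕ =>
        RelL.slot M pr (p.2 / 6) ++ FreeGroup.invRev (subst (sw p.1) (r p.1 (p.2 / 6))) :=
    fun pr _ hr' => Computable.list_append.comp ((primrec_slot M pr).to_comp.comp hm)
      (primrec_invRev.to_comp.comp (hsub hr'))
  refine Computable.of_eq (Computable.cond (hd 0) (hsub hr) (Computable.cond (hd 1) (hslot false h1)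
    (Computable.cond (hd 2) (hslot true h2) (Computable.cond (hd 3) (hcomm hsw (hlet true))
      (Computable.cond (hd 4) (hcomm hsw (hlet false)) (hcomm hlet2 (hlet false))))))) fun p => ?_
  simp only [RelL.rel, ← subst_eq]
  have h6 : p.2 % 6 < 6 := Nat.mod_lt _ (by omega)
  generalize p.2 % 6 = k at h6 ⊢
  match k, h6 with
  | 0, _ => rfl
  | 1, _ => rfl
  | 2, _ => rfl
  | 3, _ => rfl
  | 4, _ => rfl
  | 5, _ => rfl

end Vale.Agent.P193.Dec
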