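import Vale.Agent.P193.Dec.Step
import Vale.Agent.P193.Dec.LIso
import Vale.Agent.P193.Dec.KGen
import Vale.Agent.P193.B.Witness

/-!
# P193, part D: correctness of the decider at a self-referring program

`e` is a program whose relators are the relators of `L(J)` for the answers `J` of the decider of `e`.
The word problem of `L` is decided by induction on the length, soundness of membership in `E` by
induction on the length, completeness by induction on length plus witness length.
-/

namespace Vale.Agent.P193.Dec.Fix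

open B B.Reduce

attribute [local irreducible] slotJ

variable {Φ : Family accE} (S : Φ.KSolver) (R : Φ.KRels) {G : Type} [Group G] (Gd : GData G)
  (e : ℕ)

/-- The slot predicate of the program. -/
abbrev J₀ : ℕ → ℕ → Bool := slotJ S e (dec S Gd e)

/-- The relators of `L(J)`. -/
noncomputable def relFam : ℕ → GWord :=
  RelL.rel (mult S) Slots.tOf (Slots.rD (Φ.rK R e) Gd.rG) (Slots.de₁ (J₀ S Gd e) kw) Slots.de₂
    (Slots.sw (mult S))

/-- The group `L(J)`. -/
noncomputable abbrev LJ := B.L (Slots.XJ (J₀ S Gd e) kw (Φ.kg e) Gd.gg) (mult S)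
  (Slots.d₁ (J₀ S Gd e) kw (Φ.kg e) Gd.gg) (Slots.d₂ (Φ.kg e) Gd.gg)

/-- Its generators. -/
noncomputable abbrev gJ : WordL.Gen → LJ S Gd e :=
  WordL.gL (mult S) (Slots.XJ (J₀ S Gd e) kw (Φ.kg e) Gd.gg)
    (Slots.d₁ (J₀ S Gd e) kw (Φ.kg e) Gd.gg) (Slots.d₂ (Φ.kg e) Gd.gg)

/-- The subgroup `E`. -/
noncomputable abbrev EJ : Subgroup (LJ S Gd e) :=
  B.L.E (Slots.XJ (J₀ S Gd e) kw (Φ.kg e) Gd.gg) (mult S)
    (Slots.d₁ (J₀ S Gd e) kw (Φ.kg e) Gd.gg) (Slots.d₂ (Φ.kg e) Gd.gg)

theorem exists_iso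
    (he : relators e = digits '' Set.range (relFam S R Gd e) ∪ {l | l ∈ pairs}) :
    ∃ ι : Φ.L e ≃* LJ S Gd e, ∀ w : GWord, ι (Φ.lval e w) = gval (gJ S Gd e) w :=
  have P := Slots.relData (J := J₀ S Gd e) (kw := kw) (Φ.kg e) Gd.gg (mult S)
    (rK := Φ.rK R e) (rG := Gd.rG) (Φ.kg_surjective e) Gd.surj (Φ.kg_ker e R) Gd.ker
  exists_lIso Φ e _ he (gJ S Gd e)
    (RelL.lift_gL_surjective (Slots.closure_d (Φ.kg e) Gd.gg (Φ.kg_surjective e) Gd.surj))
    (RelL.ker_lift_gL P)

variable (ι : Φ.L e ≃* LJ S Gd e) (hι : ∀ w : GWord, ι (Φ.lval e w) = gval (gJ S Gd e) w)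

theorem mem_of_eq {Γ : Type} [Group Γ] {H : Subgroup Γ} {a b : Γ} (h : a = b) (hb : b ∈ H) :
    a ∈ H := h.symm ▸ hb

/-! ### Strings -/

theorem lval_append (a b : GWord) : Φ.lval e (a ++ b) = Φ.lval e a * Φ.lval e b := by
  induction a with
  | nil => rw [List.nil_append, Φ.lval_nil, one_mul]
  | cons p a ih => rw [List.cons_append, Φ.lval_cons, Φ.lval_cons, ih, mul_assoc]

/-- The signed letter of a coded generator of `X₀` with a sign. -/
def eLet (p : Fin 12 × Bool) : Let :=
  ((undigit (p.1.castLE (by decide))).1,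
    if p.2 then (undigit (p.1.castLE (by decide))).2 else !(undigit (p.1.castLE (by decide))).2)

/-- The string of a word in the generators of `X₀`. -/
def eWord (u : Raw (Fin 12)) : GWord := u.map eLet

/-- The same as a word of `E`. -/
def eWit (u : Raw (Fin 12)) : Raw (Bool × B.Letter) := u.map fun p => ((eLet p).1.2, (eLet p).2)

theorem eLet_false : ∀ p : Fin 12 × Bool, (eLet p).1.1 = false := by decide

theorem digit_eLet_true : ∀ i : Fin 12, (digit (eLet (i, true)) : ℕ) = i := by decide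

theorem eLet_swap : ∀ i : Fin 12,
    eLet (i, false) = ((eLet (i, true)).1, !(eLet (i, true)).2) := by decide

theorem gval_map_eWit {Γ : Type} [Group Γ] (g : WordL.Gen → Γ) (g' : Bool × B.Letter → Γ)
    (hg : ∀ b l, g' (b, l) = g (false, b, l)) (u : Raw (Fin 12)) :
    gval g' (eWit u) = gval g (eWord u) := by
  induction u with
  | nil => rfl
  | cons p u ih =>
    have hw : eWord (p :: u) = eLet p :: eWord u := rfl
    have hv : eWit (p :: u) = ((eLet p).1.2, (eLet p).2) :: eWit u := rfl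
    rw [hw, hv, WordL.gval_cons, WordL.gval_cons g (eLet p), ih]
    congr 1
    have hp := eLet_false p
    generalize eLet p = q at hp
    obtain ⟨⟨pr, b, l⟩, s⟩ := q
    subst hp
    rw [WordL.gval_letter, WordL.gval_letter, hg]

theorem gval_gE_eWit (u : Raw (Fin 12)) :
    gval (Reduce.gE (M := mult S)
      (d := fun i => Ext.base (mult S) (Slots.d₂ (Φ.kg e) Gd.gg)
        (Slots.d₁ (J₀ S Gd e) kw (Φ.kg e) Gd.gg i : B.D (Φ.K e) G))) (eWit u) =
      gval (gJ S Gd e) (eWord u) :=
  gval_map_eWit _ _ (fun b l => by cases b <;> rfl) u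

theorem kval_ei (u : Raw (Fin 12)) :
    gval (Slots.ei (Φ.kg e)) u = Φ.toL e (Φ.lval e (eWord u)) := by
  induction u with
  | nil => exact (RelL.gval_nil _).trans ((_root_.map_one (Φ.toL e)).symm.trans
      (congrArg (Φ.toL e) (Φ.lval_nil e).symm))
  | cons p u ih =>
    rw [WordL.gval_cons, ih, show eWord (p :: u) = [eLet p] ++ eWord u from rfl, lval_append,
      _root_.map_mul]
    congr 1
    obtain ⟨i, t⟩ := p
    have h1 : Φ.kg e i = Φ.toL e (Φ.lval e [eLet (i, true)]) := by
      rw [← Φ.kg_letter, digit_eLet_true]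
    rw [WordL.gval_letter, show Slots.ei (Φ.kg e) i = Φ.kg e i from rfl, h1]
    cases t
    · have h := Φ.hInv e (eLet (i, true))
      rw [show [eLet (i, true), ((eLet (i, true)).1, !(eLet (i, true)).2)] =
        [eLet (i, true)] ++ [eLet (i, false)] by rw [eLet_swap]; rfl, lval_append] at h
      rw [if_neg Bool.false_ne_true, ← _root_.map_inv, eq_inv_of_mul_eq_one_right h]
    · rfl

include hι in
/-- An element of `X₀` has a witness. -/
theorem exists_witness {x : Φ.K e} (hx : x ∈ Φ.X₀ e) :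
    ∃ u : Raw (Fin 12), x = gval (Slots.ei (Φ.kg e)) u := by
  have h : Φ.X₀ e = (FreeGroup.lift (Slots.ei (Φ.kg e))).range := by
    rw [FreeGroup.range_lift_eq_closure, Family.X₀]
    congr 1
    ext y
    constructor
    · rintro ⟨i, hi, rfl⟩
      exact ⟨⟨i, hi⟩, rfl⟩
    · rintro ⟨i, rfl⟩
      exact ⟨i, i.2, rfl⟩
  rw [h] at hx
  obtain ⟨z, rfl⟩ := hx
  exact ⟨z.toWord, by rw [gval, FreeGroup.mk_toWord]⟩

theorem mem_X0_of_mem_closure {Γ : Type} [Group Γ] (f : Φ.L e ≃* Γ) (g : WordL.Gen → Γ)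
    (hf : ∀ w : GWord, f (Φ.lval e w) = gval g w) {y : Φ.L e}
    (hy : f y ∈ Subgroup.closure (Set.range fun x : Bool × B.Letter => g (false, x))) :
    Φ.toL e y ∈ Φ.X₀ e := by
  rw [Φ.X0_eq]
  refine Subgroup.mem_map_of_mem _ ?_
  have hle : Subgroup.closure (Set.range fun x : Bool × B.Letter => g (false, x)) ≤
      (Subgroup.closure {x | ∃ p : WordL.Gen × Bool, p.1.1 = false ∧ Φ.lval e [p] = x}).comap
        (f.symm : Γ →* Φ.L e) := by
    rw [Subgroup.closure_le]
    rintro _ ⟨x, rfl⟩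
    refine Subgroup.subset_closure ⟨((false, x), true), rfl, f.injective ?_⟩
    rw [hf, WordL.gval_letter]
    simp
  simpa using hle hy

theorem E_eq_closure {D : Type} [Group D] {X : Subgroup D} (M : ℕ) (d₁ : ℕ → X) (d₂ : ℕ → D) :
    B.L.E X M d₁ d₂ =
      Subgroup.closure (Set.range fun x : Bool × B.Letter => WordL.gL M X d₁ d₂ (false, x)) := by
  apply le_antisymm
  · refine sup_le ?_ ?_
    · rintro _ ⟨u, rfl⟩
      induction u using FreeGroup.induction_on with
      | C1 => rw [_root_.map_one]; exact one_mem _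
      | of l => exact Subgroup.subset_closure ⟨(false, l), rfl⟩
      | inv_of l hl => rw [_root_.map_inv]; exact inv_mem hl
      | mul a b ha hb => rw [_root_.map_mul]; exact mul_mem ha hb
    · rintro _ ⟨u, rfl⟩
      induction u using FreeGroup.induction_on with
      | C1 => rw [_root_.map_one]; exact one_mem _
      | of l => exact Subgroup.subset_closure ⟨(true, l), rfl⟩
      | inv_of l hl => rw [_root_.map_inv]; exact inv_mem hl
      | mul a b ha hb => rw [_root_.map_mul]; exact mul_mem ha hb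
  · rw [Subgroup.closure_le]
    rintro _ ⟨⟨b, l⟩, rfl⟩
    cases b
    · exact Subgroup.mem_sup_left ⟨FreeGroup.of l, rfl⟩
    · exact Subgroup.mem_sup_right ⟨FreeGroup.of l, rfl⟩

include hι in
/-- `E` lands in `X₀`. -/
theorem toL_mem_X0 {y : Φ.L e} (hy : ι y ∈ EJ S Gd e) : Φ.toL e y ∈ Φ.X₀ e :=
  mem_X0_of_mem_closure e ι (gJ S Gd e) hι ((E_eq_closure _ _ _).le hy)

/-! ### Agreement and bounds -/

theorem mult_pos : 0 < mult S := by unfold mult; omega

/-- A bound in the weight is a bound below `n`. -/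
theorem lt_of_small {n d x l : ℕ} (hn : 0 < n) (hd : mult S * d ≤ 2 * (3 * n)) (hx : x ≤ 3 * d)
    (hl : l ≤ S.C * x) : l < n := by
  have h1 : l ≤ S.C * (3 * d) := hl.trans (Nat.mul_le_mul_left _ hx)
  unfold mult at hd
  by_contra hcon
  nlinarith [Nat.zero_le (S.C * d)]

/-- A bound in the weight and the witness is a bound below `N`. -/
theorem add_lt_of_small {n m d x l s : ℕ} (hn : 0 < n) (hd : mult S * d ≤ 2 * (3 * n))
    (hs : mult S * s ≤ 3 * (n + m)) (hx : x ≤ 3 * d + s) (hl : l ≤ S.C * x) : l + s < n + m := by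
  have h1 : l ≤ S.C * (3 * d + s) := hl.trans (Nat.mul_le_mul_left _ hx)
  unfold mult at hd hs
  by_contra hcon
  nlinarith [Nat.zero_le (S.C * d), Nat.zero_le (S.C * s), Nat.zero_le (S.C * n),
    Nat.zero_le (S.C * m)]

theorem inJO_guard {n j : ℕ} (h : mult S * (j + 1) ≤ 6 * n) (hn : 0 < n) :
    inJO S e (Table.guardLt n (dec S Gd e)) j = inJO S e (dec S Gd e) j := by
  unfold inJO
  rw [testO_guard]
  exact lt_of_small S hn (d := j + 1) (by omega) ((length_kw_le j).trans (by omega)) le_rfl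

theorem setup_at {n : ℕ} (hn : 0 < n) :
    WordL.Setup Slots.dw (Slots.XJ (J₀ S Gd e) kw (Φ.kg e) Gd.gg) (DWord.gD (Φ.kg e) Gd.gg)
      (Slots.d₁ (J₀ S Gd e) kw (Φ.kg e) Gd.gg) (Slots.d₂ (Φ.kg e) Gd.gg)
      (Slots.de₁ (slotJ S e (Table.guardLt n (dec S Gd e))) kw) Slots.de₂ 3 (mult S) n := by
  refine Slots.setup (Φ.kg e) Gd.gg length_kw_le fun j s h => ?_
  by_cases hs : s = 0
  · subst hs
    have hp := Nat.mul_le_mul_left (mult S) (Nat.succ_le_succ (Nat.left_le_pair j 0))
    simp only [Nat.succ_eq_add_one] at hp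
    have hj := inJO_guard S Gd e (n := n) (j := j) (by omega) hn
    simp only [slotJ, hj]
  · simp [slotJ, hs]

/-- The word problem is right below `n`. -/
def OneBelow (n : ℕ) : Prop :=
  ∀ l : GWord, l.length < n → ((dec S Gd e l).1 = true ↔ Φ.lval e l = 1)

theorem right_at {n : ℕ} (hn : 0 < n) (ih : OneBelow S Gd e n) {v : Raw Slots.T}
    (hv : WordL.Askable Slots.dw (mult S) 3 n v) :
    DWord.Right (Φ.kg e) Gd.gg (oneKO S e (Table.guardLt n (dec S Gd e))) Gd.oneG
      (WordL.dlen Slots.dw v) where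
  k_iff u hu := by
    refine (S.spec e _ u.length (fun l hl => ?_) u le_rfl).1
    have hlt : l.length < n := lt_of_small S hn hv (show u.length ≤ 3 * _ by omega) hl
    simp only [guardLt_eq hlt]
    exact ih l hlt
  g_iff u _ := Gd.one_iff u

theorem oneD_at {n : ℕ} (hn : 0 < n) (ih : OneBelow S Gd e n) (v : Raw Slots.T)
    (hv : WordL.Askable Slots.dw (mult S) 3 n v) :
    oneDO S Gd e (Table.guardLt n (dec S Gd e)) v = true ↔
      gval (DWord.gD (Φ.kg e) Gd.gg) v = 1 :=
  DWord.oneD_iff (right_at S Gd e hn ih hv) (Slots.length_le_dlen v)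

include hι in
/-- **The decider decides the word problem of `L`.** -/
theorem one_correct (w : GWord) : (dec S Gd e w).1 = true ↔ Φ.lval e w = 1 := by
  induction hn : w.length using Nat.strong_induction_on generalizing w with
  | _ n ih =>
    subst hn
    rcases Nat.eq_zero_or_pos w.length with h0 | h0
    · rw [List.length_eq_zero_iff] at h0
      subst h0
      simp [dec_nil, Φ.lval_nil]
    · have hb : OneBelow S Gd e w.length := fun l hl => ih _ hl l rfl
      rw [dec_eq, ← ι.map_eq_one_iff, hι]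
      exact WordL.oneL_iff (setup_at S Gd e h0) (oneD_at S Gd e h0 hb) (mult_pos S) le_rfl

include hι in
theorem one_below (n : ℕ) : OneBelow S Gd e n := fun l _ => one_correct S Gd e ι hι l

include hι in
/-- The test on an element of the image of `L`. -/
theorem testO_eq {x : Raw ℕ} {y : Φ.L e} (h : Φ.kval e x = Φ.toL e y) :
    ∃ l : GWord, l.length ≤ S.C * x.length ∧ Φ.lval e l = y ∧
      testO S e (dec S Gd e) x = (dec S Gd e l).2 := by
  have hO : ∀ l : GWord, l.length ≤ S.C * x.length →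
      ((Table.guardLt (S.C * x.length + 1) (dec S Gd e) l).1 = true ↔ Φ.lval e l = 1) :=
    fun l hl => by rw [guardLt_eq (by omega)]; exact one_correct S Gd e ι hι l
  obtain ⟨-, hsome, hnone⟩ := S.spec e _ x.length hO x le_rfl
  cases hb : S.back e (fun l => (Table.guardLt (S.C * x.length + 1) (dec S Gd e) l).1) x with
  | none => exact absurd ⟨y, h.symm⟩ (hnone hb)
  | some l =>
    obtain ⟨hl, hv⟩ := hsome l hb
    refine ⟨l, hl, C.Base.toL_injective _ (hv.symm.trans h), ?_⟩
    simp [testO, hb, guardLt_eq (Nat.lt_succ_of_le hl)]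

include hι in
/-- A yes of the test. -/
theorem testO_true {x : Raw ℕ} (h : testO S e (dec S Gd e) x = true) :
    ∃ l : GWord, l.length ≤ S.C * x.length ∧ Φ.kval e x = Φ.toL e (Φ.lval e l) ∧
      (dec S Gd e l).2 = true := by
  have hO : ∀ l : GWord, l.length ≤ S.C * x.length →
      ((Table.guardLt (S.C * x.length + 1) (dec S Gd e) l).1 = true ↔ Φ.lval e l = 1) :=
    fun l hl => by rw [guardLt_eq (by omega)]; exact one_correct S Gd e ι hι l
  obtain ⟨-, hsome, -⟩ := S.spec e _ x.length hO x le_rfl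
  cases hb : S.back e (fun l => (Table.guardLt (S.C * x.length + 1) (dec S Gd e) l).1) x with
  | none => simp [testO, hb] at h
  | some l =>
    obtain ⟨hl, hv⟩ := hsome l hb
    refine ⟨l, hl, hv, ?_⟩
    simpa [testO, hb, guardLt_eq (Nat.lt_succ_of_le hl)] using h

theorem memDO_guard {n : ℕ} (hn : 0 < n) {v : Raw Slots.T}
    (hv : WordL.Askable Slots.dw (mult S) 3 n v) :
    memDO S Gd e (Table.guardLt n (dec S Gd e)) v =
      DWord.memD (testO S e (Table.guardLt n (dec S Gd e))) (inJO S e (dec S Gd e)) kw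
        (oneKO S e (Table.guardLt n (dec S Gd e))) Gd.oneG v :=
  DWord.memD_congr fun j s hj => inJO_guard S Gd e (by
    have h := Nat.mul_le_mul_left (mult S) (Slots.succ_le_dlen hj)
    unfold WordL.Askable at hv
    omega) hn

theorem testO_small {n : ℕ} (hn : 0 < n) {v : Raw Slots.T}
    (hv : WordL.Askable Slots.dw (mult S) 3 n v) {x : Raw ℕ}
    (hx : x.length ≤ 3 * WordL.dlen Slots.dw v) :
    testO S e (Table.guardLt n (dec S Gd e)) x = testO S e (dec S Gd e) x :=
  testO_guard S _ (lt_of_small S hn hv hx le_rfl)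

theorem inK_X0_le {x : Φ.K e} (hx : x ∈ Φ.X₀ e) :
    (B.inK x : B.D (Φ.K e) G) ∈ Slots.XJ (J₀ S Gd e) kw (Φ.kg e) Gd.gg := by
  have hle : Φ.X₀ e ≤ (Slots.XJ (J₀ S Gd e) kw (Φ.kg e) Gd.gg).comap B.inK := by
    rw [Family.X₀, Subgroup.closure_le]
    rintro _ ⟨i, hi, rfl⟩
    refine Subgroup.subset_closure ⟨i, ?_⟩
    have hi : i < 12 := hi
    simp [Slots.de₁, hi, WordL.gval_letter, DWord.gD]
  exact hle hx

theorem hD_mem_XJ (j : ℕ) :
    (B.hD j : B.D (Φ.K e) G) ∈ Slots.XJ (J₀ S Gd e) kw (Φ.kg e) Gd.gg := by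
  refine Subgroup.subset_closure ⟨12 + 2 * j, ?_⟩
  simp [Slots.de₁, WordL.gval_letter, DWord.gD, hD]

theorem gD_mem_XJ {j : ℕ} (hj : inJO S e (dec S Gd e) j = true) :
    (B.gD (fun j => gval (Φ.kg e) (kw j)) j : B.D (Φ.K e) G) ∈
      Slots.XJ (J₀ S Gd e) kw (Φ.kg e) Gd.gg := by
  refine Subgroup.subset_closure ⟨13 + 2 * Nat.pair j 0, ?_⟩
  rw [← Slots.dval_gWord kw (Φ.kg e) Gd.gg j]
  show Slots.dval (Φ.kg e) Gd.gg _ = _
  congr 1
  rw [Slots.de₁, if_neg (by omega),
    show 13 + 2 * Nat.pair j 0 - 12 = 2 * Nat.pair j 0 + 1 by omega, if_neg (by omega),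
    show (2 * Nat.pair j 0 + 1) / 2 = Nat.pair j 0 by omega, Nat.unpair_pair,
    if_pos (by simp [slotJ, hj])]

/-- The string lies in `E`. -/
def InE (l : GWord) : Prop := ι (Φ.lval e l) ∈ EJ S Gd e

theorem inE_nil : InE S Gd e ι [] :=
  mem_of_eq ((congrArg ι (Φ.lval_nil e)).trans ι.map_one) (one_mem _)

include hι in
theorem memD_sound_at {n : ℕ} (hn : 0 < n)
    (ih : ∀ l : GWord, l.length < n → (dec S Gd e l).2 = true → InE S Gd e ι l)
    {v : Raw Slots.T} (hv : WordL.Askable Slots.dw (mult S) 3 n v)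
    (hm : memDO S Gd e (Table.guardLt n (dec S Gd e)) v = true) :
    gval (DWord.gD (Φ.kg e) Gd.gg) v ∈ Slots.XJ (J₀ S Gd e) kw (Φ.kg e) Gd.gg := by
  rw [memDO_guard S Gd e hn hv] at hm
  refine DWord.memD_sound (X₀ := Φ.X₀ e) (BK := 3 * WordL.dlen Slots.dw v)
    (H := WordL.dlen Slots.dw v) (fun x hx ht => ?_) (fun x hx => inK_X0_le S Gd e hx)
    (fun j => hD_mem_XJ S Gd e j) (fun j hj => gD_mem_XJ S Gd e hj)
    (right_at S Gd e hn (one_below S Gd e ι hι _) hv) (Slots.length_le_dlen v)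
    (fun j s hj => (length_kw_le j).trans (Slots.succ_le_dlen hj))
    (by have := Slots.length_le_dlen v; omega) hm
  rw [testO_small S Gd e hn hv hx] at ht
  obtain ⟨l, hl, hk, hd⟩ := testO_true S Gd e ι hι ht
  show Φ.kval e x ∈ Φ.X₀ e
  rw [hk]
  exact toL_mem_X0 S Gd e ι hι (ih l (lt_of_small S hn hv hx hl) hd)

include hι in
theorem sound_step (w : GWord) (h0 : 0 < w.length)
    (ih : ∀ l : GWord, l.length < w.length → (dec S Gd e l).2 = true →
      InE S Gd e ι l)
    (h : (dec S Gd e w).2 = true) : InE S Gd e ι w := by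
  rw [dec_eq] at h
  exact mem_of_eq (hι w) (WordL.inE_sound (setup_at S Gd e h0) (oneD_at S Gd e h0 (one_below S Gd e ι hι _))
    (mult_pos S) (fun v hv hm => memD_sound_at S Gd e ι hι h0 ih hv hm)
    (Slots.closure_d₁ _ _ _ _) le_rfl h)

include hι in
/-- **A yes is right.** -/
theorem mem_sound : ∀ (n : ℕ) (w : GWord), w.length = n → (dec S Gd e w).2 = true →
    InE S Gd e ι w := by
  intro n
  induction n using Nat.strong_induction_on with
  | _ n ih =>
    intro w hw h
    rcases Nat.eq_zero_or_pos n with h0 | h0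
    · have hw0 : w = [] := List.length_eq_zero_iff.1 (hw.trans h0)
      subst hw0
      exact inE_nil S Gd e ι
    · exact sound_step S Gd e ι hι w (hw ▸ h0)
        (fun l hl hd => ih l.length (hw ▸ hl) l rfl hd) h

include hι in
/-- **A witness gives a yes.** -/
theorem mem_complete : ∀ (N : ℕ) (w : GWord) (u : Raw (Fin 12)), w.length + u.length ≤ N →
    Φ.lval e w = Φ.lval e (eWord u) → (dec S Gd e w).2 = true := by
  intro N
  induction N using Nat.strong_induction_on with
  | _ N ih =>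
    intro w u hN hwu
    rcases Nat.eq_zero_or_pos w.length with h0 | h0
    · rw [List.length_eq_zero_iff] at h0
      subst h0
      rw [dec_nil]
    · rw [dec_eq]
      refine WordL.inE_of_witness (setup_at S Gd e h0)
        (oneD_at S Gd e h0 (one_below S Gd e ι hι _)) (mult_pos S) le_rfl (eWit u) ?_ ?_
      · rw [gval_gE_eWit]
        exact (hι w).symm.trans ((congrArg ι hwu).trans (hι _))
      · rintro v hv ⟨q, hq, hqlen⟩
        have hulen : (eWit u).length = u.length := List.length_map ..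
        rw [hulen] at hqlen
        have key : ∀ (x : Raw ℕ) (u' : Raw (Fin 12)),
            x.length ≤ 3 * WordL.dlen Slots.dw v + (q.map fun p => p.1 + 1).sum →
            u'.length ≤ (q.map fun p => p.1 + 1).sum →
            gval (Φ.kg e) x = gval (Slots.ei (Φ.kg e)) u' →
            testO S e (dec S Gd e) x = true := by
          intro x u' hx hu' hxu
          obtain ⟨l, hl, hlv, ht⟩ := testO_eq S Gd e ι hι (x := x)
            (show Φ.kval e x = _ from hxu.trans (kval_ei e u'))
          rw [ht]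
          exact ih (l.length + u'.length) (lt_of_lt_of_le (lt_of_le_of_lt
            (Nat.add_le_add_left hu' _) (add_lt_of_small S h0 hv hqlen hx hl)) hN) l u' le_rfl hlv
        rw [memDO_guard S Gd e h0 hv]
        refine Slots.memD_of_slots (J := J₀ S Gd e) (BK := 3 * WordL.dlen Slots.dw v)
          (H := WordL.dlen Slots.dw v) (Φ.kg e) Gd.gg
          (right_at S Gd e h0 (one_below S Gd e ι hι _) hv) (fun x hx u' hu' hxu => ?_)
          (fun j s hj => by unfold J₀ slotJ at hj; exact (Bool.and_eq_true_iff.1 hj).2) (Slots.length_le_dlen v)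
          (fun j s hj => (length_kw_le j).trans (Slots.succ_le_dlen hj))
          (by have := Slots.length_le_dlen v; omega) q le_rfl (fun j hj hJ u' hu' hk => ?_) hq
        · rw [testO_small S Gd e h0 hv hx]
          exact key x u' (by omega) hu' hxu
        · have ht := key (kw j) u' (le_trans (length_kw_le j) (by omega)) hu' hk
          simp [inJO, ht] at hJ

include hι in
/-- **The slots are valid.** -/
theorem valid (j : ℕ) :
    (∃ s, J₀ S Gd e j s = true) ↔ gval (Φ.kg e) (kw j) ∉ Φ.X₀ e := by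
  constructor
  · rintro ⟨s, hs⟩ hmem
    obtain ⟨u, hu⟩ := exists_witness S Gd e ι hι hmem
    obtain ⟨l, -, hlv, ht⟩ := testO_eq S Gd e ι hι (x := kw j)
      (show Φ.kval e (kw j) = _ from hu.trans (kval_ei e u))
    have := mem_complete S Gd e ι hι (l.length + u.length) l u le_rfl hlv
    simp [slotJ, inJO, ht, this] at hs
  · intro hmem
    refine ⟨0, ?_⟩
    by_contra hno
    have ht : testO S e (dec S Gd e) (kw j) = true := by simpa [slotJ, inJO] using hno
    obtain ⟨l, -, hk, hd⟩ := testO_true S Gd e ι hι ht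
    exact hmem ((show gval (Φ.kg e) (kw j) = _ from hk) ▸
      toL_mem_X0 S Gd e ι hι (mem_sound S Gd e ι hι _ l rfl hd))

theorem map_eq_of_sandwich {A B' C' : Type} [Group A] [Group B'] [Group C'] (f : A ≃* B')
    (t : A →* C') (H : Subgroup B') (X : Subgroup C') (h1 : ∀ y, f y ∈ H → t y ∈ X)
    (h2 : ∀ x ∈ X, ∃ a, f a ∈ H ∧ t a = x) :
    H.map (t.comp (f.symm : B' →* A)) = X := by
  refine le_antisymm ?_ fun x hx => ?_
  · rintro _ ⟨y, hy, rfl⟩
    show t (f.symm y) ∈ X
    exact h1 _ (by simpa using hy)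
  · obtain ⟨a, ha, rfl⟩ := h2 x hx
    exact ⟨f a, ha, by simp⟩

include hι in
theorem exists_mem_E {x : Φ.K e} (hx : x ∈ Φ.X₀ e) :
    ∃ l : GWord, InE S Gd e ι l ∧ Φ.toL e (Φ.lval e l) = x := by
  obtain ⟨u, rfl⟩ := exists_witness S Gd e ι hι hx
  exact ⟨eWord u, mem_sound S Gd e ι hι _ _ rfl
    (mem_complete S Gd e ι hι _ (eWord u) u le_rfl rfl), (kval_ei e u).symm⟩

end Vale.Agent.P193.Dec.Fix
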