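import Vale.Agent.P193.C.Defs
import Vale.Agent.P193.Dec.Base
import Vale.Agent.P193.Machine.IntPrim

/-!
# P193, module Dec/W, first half: codes for the positions and the letters of `W`

A position is `((x, y), word)`; a letter is described by the moduli of its two subgroups and the
word by which it conjugates the free part. Membership in a domain and the conjugation are then
primitive recursive in this data.
-/

namespace Vale.Agent.P193.Dec

open Multiplicative
open Vale.Agent.P193.C

/-! ### Integers -/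

theorem primrec_int_neg : Primrec fun z : ℤ => -z :=
  Machine.int_cases (f := fun (_ : ℤ) (n : ℕ) => if n = 0 then (0 : ℤ) else Int.negSucc (n - 1))
    (g := fun (_ : ℤ) (n : ℕ) => ((n + 1 : ℕ) : ℤ)) Primrec.id
    (Primrec.ite (Primrec.eq.comp Primrec.snd (Primrec.const 0)) (Primrec.const 0)
      (Machine.int_negSucc.comp (Primrec.nat_sub.comp Primrec.snd (Primrec.const 1)))).to₂
    (Machine.int_ofNat.comp (Primrec.succ.comp Primrec.snd)).to₂
    (fun a n h => by
      subst h
      rcases n with _ | n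
      · rfl
      · simp [Int.negSucc_eq])
    (fun a n h => by subst h; rfl)

theorem primrec_int_add : Primrec₂ fun a b : ℤ => a + b :=
  Machine.int_cases (f := fun (p : ℤ × ℤ) (n : ℕ) => p.1 + (n : ℤ))
    (g := fun (p : ℤ × ℤ) (n : ℕ) => -(-p.1 + ((n + 1 : ℕ) : ℤ))) Primrec.snd
    (Machine.int_add_nat.comp (Primrec.fst.comp Primrec.fst) Primrec.snd).to₂
    (primrec_int_neg.comp (Machine.int_add_nat.comp
      (primrec_int_neg.comp (Primrec.fst.comp Primrec.fst)) (Primrec.succ.comp Primrec.snd))).to₂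
    (fun a n h => by simp [h])
    (fun a n h => by simp only [h, Int.negSucc_eq]; push_cast; ring)

/-! ### Positions -/

variable {k : ℕ}

/-- Codes of positions. -/
abbrev GC (k : ℕ) := (ℤ × ℤ) × Word (Fin k)

/-- The position of a code. -/
def gev (g : GC k) : G0 k := (ofAdd g.1, FreeGroup.mk g.2)

/-- The code of the origin. -/
def gone : GC k := ((0, 0), [])

/-- Product of codes. -/
def gmul (g h : GC k) : GC k := ((g.1.1 + h.1.1, g.1.2 + h.1.2), g.2 ++ h.2)

/-- The test for the origin. -/
def gisOne (g : GC k) : Bool := decide (g.1 = (0, 0) ∧ FreeGroup.reduce g.2 = [])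

theorem gev_gone : gev (gone : GC k) = 1 := by
  simp [gev, gone, ← FreeGroup.one_eq_mk]

theorem gev_gmul (g h : GC k) : gev (gmul g h) = gev g * gev h := by
  simp [gev, gmul, FreeGroup.mul_mk, ← ofAdd_add]
  rfl

theorem gisOne_iff (g : GC k) : gisOne g = true ↔ gev g = 1 := by
  have h : FreeGroup.reduce g.2 = [] ↔ FreeGroup.mk g.2 = 1 := by
    rw [← FreeGroup.toWord_eq_nil_iff, FreeGroup.toWord_mk]
  simp [gisOne, gev, h, Prod.ext_iff, ← toAdd_eq_zero]

theorem primrec_gmul : Primrec₂ (gmul (k := k)) :=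
  (Primrec.pair
    (Primrec.pair
      (primrec_int_add.comp (Primrec.fst.comp (Primrec.fst.comp Primrec.fst))
        (Primrec.fst.comp (Primrec.fst.comp Primrec.snd)))
      (primrec_int_add.comp (Primrec.snd.comp (Primrec.fst.comp Primrec.fst))
        (Primrec.snd.comp (Primrec.fst.comp Primrec.snd))))
    (Primrec.list_append.comp (Primrec.snd.comp Primrec.fst)
      (Primrec.snd.comp Primrec.snd))).to₂

theorem primrec_gisOne : Primrec (gisOne (k := k)) :=
  ((Primrec.eq.comp Primrec.fst (Primrec.const ((0 : ℤ), (0 : ℤ)))).and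
    (Primrec.eq.comp (primrec_reduce.comp Primrec.snd) (Primrec.const []))).decide

/-- The generators of the positions, each with its inverse. -/
def gens (k : ℕ) : List (GC k × GC k) :=
  [(((1, 0), []), ((-1, 0), [])), (((0, 1), []), ((0, -1), []))] ++
    (List.finRange k).map fun i => (((0, 0), [(i, true)]), ((0, 0), [(i, false)]))

theorem length_gens : (gens k).length = 2 + k := by
  simp [gens]
  omega

theorem gev_gens {x : GC k × GC k} (hx : x ∈ gens k) : gev x.2 = (gev x.1)⁻¹ := by
  simp only [gens, List.cons_append, List.nil_append, List.mem_cons, List.mem_map] at hx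
  rcases hx with rfl | rfl | ⟨i, -, rfl⟩
  · simp [gev, ← FreeGroup.one_eq_mk, ← ofAdd_neg]
  · simp [gev, ← FreeGroup.one_eq_mk, ← ofAdd_neg]
  · have h0 : ofAdd ((0 : ℤ), (0 : ℤ)) = 1 := rfl
    simp [gev, h0, FreeGroup.inv_mk, FreeGroup.invRev]

/-! ### Descriptions of letters -/

/-- Moduli of the source and target subgroups and the conjugating word. -/
abbrev Desc (k : ℕ) := (ℕ × ℕ) × (ℕ × ℕ) × Word (Fin k)

/-- The description of the inverse letter. -/
def dswap (D : Desc k) : Desc k := (D.2.1, D.1, FreeGroup.invRev D.2.2)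

/-- The description of a signed letter. -/
def orient (b : Bool) (D : Desc k) : Desc k := cond b D (dswap D)

/-- The domain test. -/
def memD (D : Desc k) (g : GC k) : Bool :=
  decide (g.1.1 / (D.1.1 : ℤ) * (D.1.1 : ℤ) = g.1.1 ∧ g.1.2 / (D.1.2 : ℤ) * (D.1.2 : ℤ) = g.1.2)

/-- The conjugation. -/
def isoD (D : Desc k) (g : GC k) : GC k :=
  ((g.1.1 / (D.1.1 : ℤ) * (D.2.1.1 : ℤ), g.1.2 / (D.1.2 : ℤ) * (D.2.1.2 : ℤ)),
    D.2.2 ++ (g.2 ++ FreeGroup.invRev D.2.2))

theorem primrec_orient : Primrec₂ (orient (k := k)) :=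
  (Primrec.cond Primrec.fst Primrec.snd
    (Primrec.pair (Primrec.fst.comp (Primrec.snd.comp Primrec.snd))
      (Primrec.pair (Primrec.fst.comp Primrec.snd)
        (primrec_invRev.comp (Primrec.snd.comp (Primrec.snd.comp Primrec.snd)))))).to₂

theorem primrec_memD : Primrec₂ (memD (k := k)) := by
  have hx : Primrec fun p : Desc k × GC k => p.2.1.1 := Primrec.fst.comp (Primrec.fst.comp Primrec.snd)
  have hy : Primrec fun p : Desc k × GC k => p.2.1.2 := Primrec.snd.comp (Primrec.fst.comp Primrec.snd)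
  have hm : Primrec fun p : Desc k × GC k => p.1.1.1 := Primrec.fst.comp (Primrec.fst.comp Primrec.fst)
  have hn : Primrec fun p : Desc k × GC k => p.1.1.2 := Primrec.snd.comp (Primrec.fst.comp Primrec.fst)
  exact ((Primrec.eq.comp (Machine.int_mul_nat.comp (Machine.int_ediv_nat.comp hx hm) hm) hx).and
    (Primrec.eq.comp (Machine.int_mul_nat.comp (Machine.int_ediv_nat.comp hy hn) hn) hy)).decide.to₂

theorem primrec_isoD : Primrec₂ (isoD (k := k)) := by
  have hx : Primrec fun p : Desc k × GC k => p.2.1.1 := Primrec.fst.comp (Primrec.fst.comp Primrec.snd)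
  have hy : Primrec fun p : Desc k × GC k => p.2.1.2 := Primrec.snd.comp (Primrec.fst.comp Primrec.snd)
  have hm : Primrec fun p : Desc k × GC k => p.1.1.1 := Primrec.fst.comp (Primrec.fst.comp Primrec.fst)
  have hn : Primrec fun p : Desc k × GC k => p.1.1.2 := Primrec.snd.comp (Primrec.fst.comp Primrec.fst)
  have hc : Primrec fun p : Desc k × GC k => p.1.2.2 := Primrec.snd.comp (Primrec.snd.comp Primrec.fst)
  have hm' : Primrec fun p : Desc k × GC k => p.1.2.1.1 :=
    Primrec.fst.comp (Primrec.fst.comp (Primrec.snd.comp Primrec.fst))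
  have hn' : Primrec fun p : Desc k × GC k => p.1.2.1.2 :=
    Primrec.snd.comp (Primrec.fst.comp (Primrec.snd.comp Primrec.fst))
  exact (Primrec.pair
    (Primrec.pair (Machine.int_mul_nat.comp (Machine.int_ediv_nat.comp hx hm) hm')
      (Machine.int_mul_nat.comp (Machine.int_ediv_nat.comp hy hn) hn'))
    (Primrec.list_append.comp hc
      (Primrec.list_append.comp (Primrec.snd.comp Primrec.snd) (primrec_invRev.comp hc)))).to₂

/-- `D` describes the isomorphism `f p ↦ f' p` of the ranges. -/
structure DSpec {P : Type} [Group P] (D : Desc k) (f f' : P →* G0 k) : Prop where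
  mem : ∀ p g, f p = gev g → memD D g = true
  iso : ∀ g, memD D g = true → ∃ p, f p = gev g ∧ f' p = gev (isoD D g)

theorem memD_iff (D : Desc k) (g : GC k) :
    memD D g = true ↔ (D.1.1 : ℤ) ∣ g.1.1 ∧ (D.1.2 : ℤ) ∣ g.1.2 := by
  rw [memD, decide_eq_true_iff]
  exact ⟨fun h => ⟨⟨_, by rw [mul_comm]; exact h.1.symm⟩, ⟨_, by rw [mul_comm]; exact h.2.symm⟩⟩,
    fun h => ⟨Int.ediv_mul_cancel h.1, Int.ediv_mul_cancel h.2⟩⟩

theorem dspec_scale {D : Desc k} {f f' : G0 k →* G0 k} (u u' : F k)
    (hc : FreeGroup.mk D.2.2 = u' * u⁻¹)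
    (hf : ∀ p : G0 k, f p = (ofAdd ((D.1.1 : ℤ) * (toAdd p.1).1, (D.1.2 : ℤ) * (toAdd p.1).2),
      u * p.2 * u⁻¹))
    (hf' : ∀ p : G0 k, f' p =
      (ofAdd ((D.2.1.1 : ℤ) * (toAdd p.1).1, (D.2.1.2 : ℤ) * (toAdd p.1).2),
      u' * p.2 * u'⁻¹)) : DSpec D f f' := by
  constructor
  · intro p g h
    rw [hf, gev, Prod.mk.injEq, ofAdd.injective.eq_iff] at h
    rw [memD_iff, ← h.1]
    exact ⟨Dvd.intro _ rfl, Dvd.intro _ rfl⟩
  · intro g hg
    rw [memD_iff] at hg
    refine ⟨(ofAdd (g.1.1 / (D.1.1 : ℤ), g.1.2 / (D.1.2 : ℤ)), u⁻¹ * FreeGroup.mk g.2 * u),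
      ?_, ?_⟩
    · rw [hf, gev]
      refine Prod.ext (congrArg ofAdd (Prod.ext ?_ ?_)) ?_
      · exact Int.mul_ediv_cancel' hg.1
      · exact Int.mul_ediv_cancel' hg.2
      · group
    · rw [hf', gev]
      refine Prod.ext (congrArg ofAdd (Prod.ext (mul_comm _ _) (mul_comm _ _))) ?_
      simp only [isoD, ← FreeGroup.mul_mk, ← FreeGroup.inv_mk, hc]
      group

theorem dspec_vert {D : Desc k} {f f' : F k →* G0 k} (u u' : F k)
    (hD : D.1 = (0, 0)) (hD' : D.2.1 = (0, 0)) (hc : FreeGroup.mk D.2.2 = u' * u⁻¹)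
    (hf : ∀ p, f p = (1, u * p * u⁻¹)) (hf' : ∀ p, f' p = (1, u' * p * u'⁻¹)) :
    DSpec D f f' := by
  constructor
  · intro p g h
    rw [hf, gev, Prod.mk.injEq] at h
    have h1 : g.1 = (0, 0) := ofAdd.injective h.1.symm
    simp [memD_iff, h1]
  · intro g hg
    rw [memD_iff, hD] at hg
    have h1 : g.1 = (0, 0) := by
      obtain ⟨⟨a, ha⟩, ⟨b, hb⟩⟩ := hg
      exact Prod.ext (by simpa using ha) (by simpa using hb)
    refine ⟨u⁻¹ * FreeGroup.mk g.2 * u, ?_, ?_⟩
    · rw [hf, gev, h1]
      refine Prod.ext rfl ?_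
      group
    · rw [hf', gev]
      refine Prod.ext ?_ ?_
      · simp [isoD, hD']
        rfl
      · simp only [isoD, ← FreeGroup.mul_mk, ← FreeGroup.inv_mk, hc]
        group

variable (M : Mach k)

/-- The description of a letter. -/
def descOf : M.Letter → Desc k
  | .rule i => (((M.rules[i]).M + 1, (M.rules[i]).N + 1), ((M.rules[i]).M' + 1, (M.rules[i]).N' + 1), [])
  | .q i => ((1, 1), (base k, 1), [(i, true)])
  | .e i => ((0, 0), (0, 0), [(i, true)])

theorem dspec_dom : ∀ r, DSpec (descOf M r) (M.dom r) (M.cod r)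
  | .rule i => dspec_scale 1 1 (by simp [descOf, ← FreeGroup.one_eq_mk])
      (fun p => by simp [descOf, Mach.dom, scale]; rfl)
      (fun p => by simp [descOf, Mach.cod, scale]; rfl)
  | .q i => dspec_scale 1 (FreeGroup.of i) (by simp [descOf]; rfl)
      (fun p => by simp [descOf, Mach.dom])
      (fun p => by
        simp [descOf, Mach.cod, scale]
        exact Prod.ext (congrArg ofAdd (Prod.ext rfl (one_mul _))) rfl)
  | .e i => dspec_vert 1 (FreeGroup.of i) rfl rfl (by simp [descOf]; rfl)
      (fun p => by simp [Mach.dom]) (fun p => by simp [Mach.cod])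

theorem dspec_cod : ∀ r, DSpec (dswap (descOf M r)) (M.cod r) (M.dom r)
  | .rule i => dspec_scale 1 1 (by simp [descOf, dswap, ← FreeGroup.one_eq_mk])
      (fun p => by simp [descOf, dswap, Mach.cod, scale]; rfl)
      (fun p => by simp [descOf, dswap, Mach.dom, scale]; rfl)
  | .q i => dspec_scale (FreeGroup.of i) 1 (by simp [descOf, dswap, ← FreeGroup.inv_mk]; rfl)
      (fun p => by
        simp [descOf, dswap, Mach.cod, scale]
        exact Prod.ext (congrArg ofAdd (Prod.ext rfl (one_mul _))) rfl)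
      (fun p => by simp [descOf, dswap, Mach.dom])
  | .e i => dspec_vert (FreeGroup.of i) 1 rfl rfl (by simp [descOf, dswap, ← FreeGroup.inv_mk]; rfl)
      (fun p => by simp [Mach.cod]) (fun p => by simp [Mach.dom])

theorem iso_apply (r : M.Letter) (p : M.Par r) :
    ((M.iso r ⟨M.dom r p, p, rfl⟩ : (M.cod r).range) : G0 k) = M.cod r p := by
  have e : (MonoidHom.ofInjective (M.dom_injective r)).symm ⟨M.dom r p, p, rfl⟩ = p :=
    (MulEquiv.symm_apply_eq _).2 (Subtype.ext rfl)
  simp only [Mach.iso, MulEquiv.trans_apply, e]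
  rfl

theorem iso_symm_apply (r : M.Letter) (p : M.Par r) :
    (((M.iso r).symm ⟨M.cod r p, p, rfl⟩ : (M.dom r).range) : G0 k) = M.dom r p := by
  have e : (⟨M.cod r p, p, rfl⟩ : (M.cod r).range) = M.iso r ⟨M.dom r p, p, rfl⟩ :=
    Subtype.ext (iso_apply M r p).symm
  rw [e, MulEquiv.symm_apply_apply]

/-- The domain test and the conjugation of a signed letter are right. -/
theorem orient_spec (r : M.Letter) (b : Bool) (g : GC k) :
    (memD (orient b (descOf M r)) g = true ↔
      gev g ∈ MHNN.toSub (fun r => (M.dom r).range) (fun r => (M.cod r).range) (r, b)) ∧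
    ∀ h : gev g ∈ MHNN.toSub (fun r => (M.dom r).range) (fun r => (M.cod r).range) (r, b),
      (MHNN.toSubEquiv M.iso (r, b) ⟨gev g, h⟩ : G0 k) = gev (isoD (orient b (descOf M r)) g) := by
  cases b
  · have hs := dspec_cod M r
    refine ⟨⟨fun h => ?_, fun ⟨p, hp⟩ => hs.mem p g hp⟩, fun h => ?_⟩
    · obtain ⟨p, hp, -⟩ := hs.iso g h
      exact ⟨p, hp⟩
    · obtain ⟨p, hp, hp'⟩ := hs.iso g (hs.mem _ g h.choose_spec)
      refine Eq.trans ?_ hp'
      rw [← iso_symm_apply M r p]
      show (((M.iso r).symm _ : (M.dom r).range) : G0 k) = _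
      congr 2
      exact Subtype.ext hp.symm
  · have hs := dspec_dom M r
    refine ⟨⟨fun h => ?_, fun ⟨p, hp⟩ => hs.mem p g hp⟩, fun h => ?_⟩
    · obtain ⟨p, hp, -⟩ := hs.iso g h
      exact ⟨p, hp⟩
    · obtain ⟨p, hp, hp'⟩ := hs.iso g (hs.mem _ g h.choose_spec)
      refine Eq.trans ?_ hp'
      rw [← iso_apply M r p]
      show ((M.iso r _ : (M.cod r).range) : G0 k) = _
      congr 2
      exact Subtype.ext hp.symm

/-! ### The table of letters -/

/-- The moduli of a rule. -/
def mods (r : Move) : (ℕ × ℕ) × (ℕ × ℕ) := ((r.M, r.N), (r.M', r.N'))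

/-- The letters in the order of the codes: `q`, then `e`, then the rules. -/
def lets : List M.Letter :=
  (List.finRange k).map .q ++ ((List.finRange k).map .e ++
    (List.finRange M.rules.length).map .rule)

/-- The table of descriptions, from the moduli of the rules. -/
def descs (rs : List ((ℕ × ℕ) × (ℕ × ℕ))) : List (Desc k) :=
  (List.finRange k).map (fun i => ((1, 1), (base k, 1), [(i, true)])) ++
    ((List.finRange k).map (fun i => ((0, 0), (0, 0), [(i, true)])) ++
      rs.map fun x => ((x.1.1 + 1, x.1.2 + 1), (x.2.1 + 1, x.2.2 + 1), []))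

theorem primrec_descs : Primrec (descs (k := k)) :=
  Primrec.list_append.comp (Primrec.const _) (Primrec.list_append.comp (Primrec.const _)
    (Primrec.list_map Primrec.id
      (Primrec.pair
        (Primrec.pair (Primrec.succ.comp (Primrec.fst.comp (Primrec.fst.comp Primrec.snd)))
          (Primrec.succ.comp (Primrec.snd.comp (Primrec.fst.comp Primrec.snd))))
        (Primrec.pair
          (Primrec.pair (Primrec.succ.comp (Primrec.fst.comp (Primrec.snd.comp Primrec.snd)))
            (Primrec.succ.comp (Primrec.snd.comp (Primrec.snd.comp Primrec.snd))))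
          (Primrec.const []))).to₂))

theorem descs_eq : descs (M.rules.map mods) = (lets M).map (descOf M) := by
  have h : M.rules = (List.finRange M.rules.length).map fun i => M.rules[i] :=
    List.ext_getElem (by simp) fun i h1 h2 => by simp
  have hd : ∀ f : Move → Desc k, M.rules.map f =
      (List.finRange M.rules.length).map fun i => f M.rules[i] := fun f => by
    conv_lhs => rw [h, List.map_map]
    rfl
  simp only [descs, lets, List.map_append, List.map_map, Function.comp_def, descOf, mods]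
  rw [hd]

theorem nodup_lets : (lets M).Nodup := by
  simp only [lets, List.nodup_append, List.mem_append, List.mem_map, List.mem_finRange, true_and]
  refine ⟨(List.nodup_finRange _).map fun a b h => by simpa using h,
    ⟨(List.nodup_finRange _).map fun a b h => by simpa using h,
      (List.nodup_finRange _).map fun a b h => by simpa using h, ?_⟩, ?_⟩
  · rintro _ ⟨i, rfl⟩ _ ⟨j, rfl⟩
    simp
  · rintro _ ⟨i, rfl⟩ _ (⟨j, rfl⟩ | ⟨j, rfl⟩) <;> simp

theorem isR_iff {p : ℕ} {r : M.Letter} (h : (lets M)[p]? = some r) : M.isR r ↔ k ≤ p := by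
  rcases lt_or_ge p k with hp | hp
  · rw [lets, List.getElem?_append_left (by simpa using hp)] at h
    simp only [List.getElem?_map, Option.map_eq_some_iff] at h
    obtain ⟨i, -, rfl⟩ := h
    simp [Mach.isR, hp]
  · rw [lets, List.getElem?_append_right (by simpa using hp)] at h
    have hr : r ∈ (List.finRange k).map Mach.Letter.e ++
        (List.finRange M.rules.length).map Mach.Letter.rule := List.mem_of_getElem? h
    simp only [List.mem_append, List.mem_map] at hr
    rcases hr with ⟨i, -, rfl⟩ | ⟨i, -, rfl⟩ <;> simp [Mach.isR, hp]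

end Vale.Agent.P193.Dec
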