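import Mathlib.GroupTheory.HNNExtension
import Vale.Agent.P193.Dec.WCode

/-!
# P193, module Dec/W: the word problems of `W` and `W₂`

Words are lists of signed natural numbers. For `W`: `0`, `1` are the translations, `2 + i` the
free generators, then the letters in the order of `lets`; other numbers stand for `1`. For `W₂`:
`0` is the new letter and `n + 1` the generator `n` of `W`.

Both decisions are Britton reductions by a stack, primitive recursive in the moduli of the rules
and the word. Membership in `R` is the word problem: `x ∈ R` iff deleting all generators outside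
`R` does not change `x`.
-/

namespace Vale.Agent.P193.Dec

open Vale.Agent.P193.C

variable {k : ℕ}

/-- The moduli of all rules. -/
abbrev Rules := List ((ℕ × ℕ) × (ℕ × ℕ))

/-! ### The evaluation -/

variable (M : Mach k)

/-- The generators of `W`. -/
noncomputable def sym (n : ℕ) : M.W :=
  match (gens k)[n]? with
  | some x => M.ofG (gev x.1)
  | none => ((lets M)[n - (2 + k)]?).elim 1 M.tL

/-- The value of a word. -/
noncomputable def evalW (w : Word ℕ) : M.W := FreeGroup.lift (sym M) (FreeGroup.mk w)

theorem evalW_nil : evalW M [] = 1 := by simp [evalW, ← FreeGroup.one_eq_mk]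

theorem evalW_append (v w : Word ℕ) : evalW M (v ++ w) = evalW M v * evalW M w := by
  simp [evalW, ← FreeGroup.mul_mk]

theorem evalW_invRev (w : Word ℕ) : evalW M (FreeGroup.invRev w) = (evalW M w)⁻¹ := by
  simp [evalW, ← FreeGroup.inv_mk]

theorem evalW_cons (x : ℕ × Bool) (w : Word ℕ) :
    evalW M (x :: w) = cond x.2 (sym M x.1) (sym M x.1)⁻¹ * evalW M w := by
  simp [evalW, FreeGroup.lift_mk]

/-! ### Reduction in `W` -/

/-- A reduced form: a head and syllables (coded letter, sign, position). -/
abbrev St (k : ℕ) := GC k × List ((ℕ × Bool) × GC k)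

/-- Put a signed letter in front. -/
def pushW (D : Desc k) (a : ℕ × Bool) (s : St k) : St k :=
  if s.2.head?.map Prod.fst = some (a.1, !a.2) ∧ memD D s.1 = true then
    (gmul (isoD D s.1) ((s.2.head?.map Prod.snd).getD gone), s.2.tail)
  else (gone, (a, s.1) :: s.2)

/-- Put a signed generator in front. -/
def stepW (rs : Rules) (x : ℕ × Bool) (s : St k) : St k :=
  ((gens k)[x.1]?).elim
    (((descs rs)[x.1 - (2 + k)]?).elim s fun D =>
      pushW (orient x.2 D) (x.1 - (2 + k), x.2) s)
    fun g => (gmul (cond x.2 g.1 g.2) s.1, s.2)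

/-- The reduced form of a word. -/
def redW (rs : Rules) (w : Word ℕ) : St k := w.foldr (stepW rs) (gone, [])

/-- The test for the identity of `W`. -/
def isOneW (k : ℕ) (rs : Rules) (w : Word ℕ) : Bool :=
  let s : St k := redW rs w
  s.2.isEmpty && gisOne s.1

/-- A coded syllable stands for a syllable. -/
def Corr (x : (ℕ × Bool) × GC k) (y : (M.Letter × Bool) × G0 k) : Prop :=
  (lets M)[x.1.1]? = some y.1.1 ∧ x.1.2 = y.1.2 ∧ gev x.2 = y.2

/-- A state is a reduced form of an element. -/
def Good (s : St k) (v : M.W) : Prop :=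
  ∃ l, List.Forall₂ (Corr M) s.2 l ∧
    MHNN.Red (fun r => (M.dom r).range) (fun r => (M.cod r).range) l ∧
    v = M.ofG (gev s.1) * MHNN.wprod M.iso l

theorem good_pushW {p : ℕ} {r : M.Letter} (hp : (lets M)[p]? = some r) (b : Bool) {s : St k}
    {v : M.W} (h : Good M s v) :
    Good M (pushW (orient b (descOf M r)) (p, b) s) (MHNN.tw (r, b) * v) := by
  obtain ⟨l, hl, hred, rfl⟩ := h
  obtain ⟨hd, ls⟩ := s
  have key : ∀ y : (ℕ × Bool) × GC k, ∀ z, Corr M y z →
      (y.1 = (p, !b) ↔ z.1 = MHNN.op (r, b)) := by
    rintro ⟨⟨p', b'⟩, g⟩ ⟨⟨r', c'⟩, g'⟩ ⟨h1, h2, -⟩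
    simp only at h1 h2
    subst h2
    simp only [Prod.mk.injEq, MHNN.op_mk]
    constructor
    · rintro ⟨rfl, hb⟩
      exact ⟨Option.some.inj (h1.symm.trans hp), hb⟩
    · rintro ⟨rfl, hb⟩
      obtain ⟨hi, -⟩ := List.getElem?_eq_some_iff.1 h1
      exact ⟨(List.getElem?_inj hi (nodup_lets M)).1 (h1.trans hp.symm), hb⟩
  obtain ⟨hmem, hiso⟩ := orient_spec M r b hd
  unfold pushW
  split_ifs with hc
  · obtain ⟨hc1, hc2⟩ := hc
    cases hl with
    | nil => simp at hc1
    | @cons y z ls l hyz hrest =>
      simp only [List.head?_cons, Option.map_some, Option.some.injEq] at hc1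
      obtain ⟨za, zg⟩ := z
      have hz : za = MHNN.op (r, b) := (key y (za, zg) hyz).1 hc1
      subst hz
      refine ⟨l, hrest, hred.tail, ?_⟩
      have hin := hmem.1 hc2
      simp only [List.head?_cons, Option.map_some, Option.getD_some, gev_gmul, map_mul]
      rw [← hiso hin, hyz.2.2, ← MHNN.tw_mul_of_mul_tw_op (r, b) ⟨gev hd, hin⟩]
      simp only [MHNN.wprod_cons, mul_assoc]
  · refine ⟨((r, b), gev hd) :: l, List.Forall₂.cons ⟨hp, rfl, rfl⟩ hl,
      MHNN.red_cons.2 ⟨?_, hred⟩, ?_⟩
    · intro z hz hin hop
      cases hl with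
      | nil => simp at hz
      | @cons y z' ls l hyz _ =>
        simp only [List.head?_cons, Option.mem_def, Option.some.injEq] at hz
        subst hz
        exact hc ⟨by simp [(key y z' hyz).2 hop], hmem.2 hin⟩
    · simp [gev_gone, mul_assoc]

theorem good_stepW (x : ℕ × Bool) {s : St k} {v : M.W} (h : Good M s v) :
    Good M (stepW (M.rules.map mods) x s) (cond x.2 (sym M x.1) (sym M x.1)⁻¹ * v) := by
  unfold stepW sym
  cases hg : (gens k)[x.1]? with
  | some g =>
    obtain ⟨l, hl, hred, rfl⟩ := h
    refine ⟨l, hl, hred, ?_⟩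
    have hinv := gev_gens (List.mem_of_getElem? hg)
    cases x.2 <;> simp [gev_gmul, hinv, mul_assoc]
  | none =>
    simp only [Option.elim_none, descs_eq, List.getElem?_map]
    cases hr : (lets M)[x.1 - (2 + k)]? with
    | none => cases x.2 <;> simpa using h
    | some r =>
      simp only [Option.map_some, Option.elim_some]
      have h2 := good_pushW M hr x.2 h
      cases hb : x.2 <;> simpa [hb] using h2

theorem good_redW (w : Word ℕ) : Good M (redW (M.rules.map mods) w) (evalW M w) := by
  induction w with
  | nil => exact ⟨[], List.Forall₂.nil, MHNN.red_nil, by simp [redW, gev_gone, evalW_nil]⟩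
  | cons x w ih =>
    rw [evalW_cons]
    exact good_stepW M x ih

theorem isOneW_iff (w : Word ℕ) : isOneW k (M.rules.map mods) w = true ↔ evalW M w = 1 := by
  obtain ⟨l, hl, hred, hv⟩ := good_redW M w
  simp only [isOneW, Bool.and_eq_true, List.isEmpty_iff, gisOne_iff]
  constructor
  · rintro ⟨h1, h2⟩
    rw [h1, List.forall₂_nil_left_iff] at hl
    simp [hv, hl, h2]
  · intro h
    obtain ⟨hnil, hg⟩ := MHNN.eq_nil_of_prod_eq_one hred (hv.symm.trans h)
    subst hnil
    exact ⟨List.forall₂_nil_right_iff.1 hl, hg⟩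

/-! ### Membership in `R` -/

/-- Keep the generators of `R`. -/
def keepR (k : ℕ) (w : Word ℕ) : Word ℕ := w.filter fun x => decide (2 + k + k ≤ x.1)

/-- The test for membership in `R`. -/
def inR (k : ℕ) (rs : Rules) (w : Word ℕ) : Bool :=
  isOneW k rs (keepR k w ++ FreeGroup.invRev w)

/-- The map keeping the generators of `R`. -/
noncomputable def projR : M.W →* M.W :=
  MHNN.lift 1 (fun r => match r with
    | .q _ => 1
    | r => M.tL r) fun i a => by simp

theorem projR_sym (n : ℕ) : projR M (sym M n) = if 2 + k + k ≤ n then sym M n else 1 := by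
  unfold sym
  cases hg : (gens k)[n]? with
  | some g =>
    have hn := (List.getElem?_eq_some_iff.1 hg).1
    rw [length_gens] at hn
    rw [if_neg (by omega)]
    simp [projR, Mach.ofG]
  | none =>
    have hn := List.getElem?_eq_none_iff.1 hg
    rw [length_gens] at hn
    cases hr : (lets M)[n - (2 + k)]? with
    | none => simp
    | some r =>
      have hR := isR_iff M hr
      simp only [Option.elim_some]
      cases r with
      | q i =>
        rw [if_neg fun h => hR.2 (by omega)]
        simp [projR, Mach.tL]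
      | e i =>
        rw [if_pos (by have := hR.1 trivial; omega)]
        simp [projR, Mach.tL]
      | rule i =>
        rw [if_pos (by have := hR.1 trivial; omega)]
        simp [projR, Mach.tL]

theorem evalW_keepR (w : Word ℕ) : evalW M (keepR k w) = projR M (evalW M w) := by
  induction w with
  | nil => simp [keepR, evalW_nil]
  | cons x w ih =>
    simp only [keepR, List.filter_cons, decide_eq_true_eq] at ih ⊢
    rw [evalW_cons, map_mul, ← ih]
    obtain ⟨n, b⟩ := x
    by_cases h : 2 + k + k ≤ n
    · rw [if_pos h, evalW_cons]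
      cases b <;> simp [projR_sym, h]
    · rw [if_neg h]
      cases b <;> simp [projR_sym, h]

theorem projR_eq_self_iff (x : M.W) : projR M x = x ↔ x ∈ M.R := by
  constructor
  · intro h
    rw [← h]
    clear h
    induction x using MHNN.induction_on with
    | of g => simp [projR, one_mem]
    | t r =>
      cases r with
      | q i => simp [projR, one_mem]
      | e i =>
        simp only [projR, MHNN.lift_t]
        exact Subgroup.subset_closure ⟨.e i, trivial, rfl⟩
      | rule i =>
        simp only [projR, MHNN.lift_t]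
        exact Subgroup.subset_closure ⟨.rule i, trivial, rfl⟩
    | mul x y hx hy => rw [map_mul]; exact mul_mem hx hy
    | inv x hx => rw [map_inv]; exact inv_mem hx
  · intro h
    have hs : ∀ y ∈ M.tL '' {r | M.isR r}, projR M y = MonoidHom.id M.W y := by
      rintro _ ⟨r, hr, rfl⟩
      cases r with
      | q i => exact absurd hr id
      | e i => simp [projR, Mach.tL]
      | rule i => simp [projR, Mach.tL]
    exact MonoidHom.eqOn_closure hs h

theorem inR_iff (w : Word ℕ) : inR k (M.rules.map mods) w = true ↔ evalW M w ∈ M.R := by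
  rw [inR, isOneW_iff, evalW_append, evalW_invRev, evalW_keepR, mul_inv_eq_one,
    projR_eq_self_iff]

/-! ### Reduction in `W₂` -/

/-- The group `W₂`. -/
abbrev W2 := HNNExtension M.W M.R M.R (MulEquiv.refl _)

/-- The generators of `W₂`. -/
noncomputable def sym2 : ℕ → W2 M
  | 0 => HNNExtension.t
  | n + 1 => HNNExtension.of (sym M n)

/-- The value of a word in `W₂`. -/
noncomputable def evalW2 (w : Word ℕ) : W2 M := FreeGroup.lift (sym2 M) (FreeGroup.mk w)

theorem evalW2_nil : evalW2 M [] = 1 := by simp [evalW2, ← FreeGroup.one_eq_mk]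

theorem evalW2_append (v w : Word ℕ) : evalW2 M (v ++ w) = evalW2 M v * evalW2 M w := by
  simp [evalW2, ← FreeGroup.mul_mk]

theorem evalW2_invRev (w : Word ℕ) : evalW2 M (FreeGroup.invRev w) = (evalW2 M w)⁻¹ := by
  simp [evalW2, ← FreeGroup.inv_mk]

theorem evalW2_cons (x : ℕ × Bool) (w : Word ℕ) :
    evalW2 M (x :: w) = cond x.2 (sym2 M x.1) (sym2 M x.1)⁻¹ * evalW2 M w := by
  simp [evalW2, FreeGroup.lift_mk]

/-- A reduced form in `W₂`: a head and syllables (sign, word). -/
abbrev St2 := Word ℕ × List (Bool × Word ℕ)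

/-- Put a signed generator in front. -/
def step2 (k : ℕ) (rs : Rules) (x : ℕ × Bool) (s : St2) : St2 :=
  if x.1 = 0 then
    if s.2.head?.map Prod.fst = some (!x.2) ∧ inR k rs s.1 = true then
      (s.1 ++ (s.2.head?.map Prod.snd).getD [], s.2.tail)
    else ([], (x.2, s.1) :: s.2)
  else ((x.1 - 1, x.2) :: s.1, s.2)

/-- The reduced form of a word. -/
def red2 (k : ℕ) (rs : Rules) (w : Word ℕ) : St2 := w.foldr (step2 k rs) ([], [])

/-- The test for the identity of `W₂`. -/
def isOne2 (k : ℕ) (rs : Rules) (w : Word ℕ) : Bool :=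
  let s := red2 k rs w
  s.2.isEmpty && isOneW k rs s.1

/-- The sign as a unit. -/
def sgn (b : Bool) : ℤˣ := cond b 1 (-1)

/-- A syllable of `W₂`. -/
noncomputable def syl (y : Bool × Word ℕ) : ℤˣ × M.W := (sgn y.1, evalW M y.2)

theorem mem_toSubgroup_R (u : ℤˣ) (x : M.W) :
    x ∈ HNNExtension.toSubgroup M.R M.R u ↔ x ∈ M.R := by
  rcases Int.units_eq_one_or u with rfl | rfl <;> simp

/-- A state is a reduced form in `W₂`. -/
def Good2 (s : St2) (v : W2 M) : Prop :=
  (s.2.map (syl M)).IsChain (fun a b => a.2 ∈ HNNExtension.toSubgroup M.R M.R a.1 → a.1 = b.1) ∧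
    v = HNNExtension.of (evalW M s.1) *
      ((s.2.map (syl M)).map fun y => HNNExtension.t ^ (y.1 : ℤ) * HNNExtension.of y.2).prod

theorem t_comm {x : M.W} (hx : x ∈ M.R) :
    (HNNExtension.t : W2 M) * HNNExtension.of x = HNNExtension.of x * HNNExtension.t :=
  HNNExtension.t_mul_of (⟨x, hx⟩ : M.R)

theorem good_step2 (x : ℕ × Bool) {s : St2} {v : W2 M} (h : Good2 M s v) :
    Good2 M (step2 k (M.rules.map mods) x s) (cond x.2 (sym2 M x.1) (sym2 M x.1)⁻¹ * v) := by
  obtain ⟨hd, l⟩ := s
  obtain ⟨n, b⟩ := x
  obtain ⟨hch, rfl⟩ := h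
  rcases n with _ | n
  · simp only [step2, if_true]
    have hw : (cond b (sym2 M 0) (sym2 M 0)⁻¹ : W2 M) = HNNExtension.t ^ (sgn b : ℤ) := by
      cases b <;> simp [sym2, sgn]
    rw [hw]
    split_ifs with hc
    · obtain ⟨hc1, hc2⟩ := hc
      rcases l with _ | ⟨⟨b', g⟩, l⟩
      · simp at hc1
      · simp only [List.head?_cons, Option.map_some, Option.some.injEq] at hc1
        subst hc1
        refine ⟨(List.isChain_cons.1 (by simpa using hch)).2, ?_⟩
        have hcm : Commute (HNNExtension.t : W2 M) (HNNExtension.of (evalW M hd)) :=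
          t_comm M ((inR_iff M hd).1 hc2)
        simp only [List.head?_cons, Option.map_some, Option.getD_some, List.tail_cons,
          evalW_append, map_mul, List.map_cons, List.prod_cons, syl]
        rw [← mul_assoc _ (HNNExtension.of (evalW M hd)), (hcm.zpow_left _).eq]
        cases b <;> simp [sgn, mul_assoc]
    · refine ⟨?_, by simp [syl, evalW_nil, mul_assoc]⟩
      rw [List.map_cons]
      refine List.isChain_cons.2 ⟨?_, hch⟩
      intro y hy hin
      rcases l with _ | ⟨⟨b', g⟩, l⟩
      · simp at hy
      · simp only [List.map_cons, List.head?_cons, Option.mem_def, Option.some.injEq] at hy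
        subst hy
        have hnot : ¬ (b' = !b) := fun hb => hc ⟨by simp [hb],
          (inR_iff M hd).2 ((mem_toSubgroup_R M _ _).1 hin)⟩
        cases b <;> cases b' <;> simp_all [syl]
  · simp only [step2, Nat.succ_ne_zero, if_false, Nat.add_sub_cancel]
    refine ⟨hch, ?_⟩
    rw [evalW_cons]
    cases b <;> simp [sym2, mul_assoc]

theorem good_red2 (w : Word ℕ) : Good2 M (red2 k (M.rules.map mods) w) (evalW2 M w) := by
  induction w with
  | nil => exact ⟨by simp [red2], by simp [red2, evalW_nil, evalW2_nil]⟩
  | cons x w ih =>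
    rw [evalW2_cons]
    exact good_step2 M x ih

theorem isOne2_iff (w : Word ℕ) : isOne2 k (M.rules.map mods) w = true ↔ evalW2 M w = 1 := by
  obtain ⟨hch, hv⟩ := good_red2 M w
  simp only [isOne2, Bool.and_eq_true, List.isEmpty_iff, isOneW_iff]
  constructor
  · rintro ⟨h1, h2⟩
    simp [hv, h1, h2]
  · intro h
    let rw' : HNNExtension.NormalWord.ReducedWord M.W M.R M.R :=
      { head := evalW M (red2 k (M.rules.map mods) w).1
        toList := (red2 k (M.rules.map mods) w).2.map (syl M)
        chain := hch }
    have hp : rw'.prod (MulEquiv.refl M.R) = 1 := hv.symm.trans h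
    have hnil : rw'.toList = [] :=
      HNNExtension.ReducedWord.toList_eq_nil_of_mem_of_range (MulEquiv.refl M.R) rw'
        (by rw [hp]; exact one_mem _)
    have hl : (red2 k (M.rules.map mods) w).2 = [] := List.map_eq_nil_iff.1 hnil
    refine ⟨hl, ?_⟩
    rw [h, hl] at hv
    simp only [List.map_nil, List.prod_nil, mul_one] at hv
    exact HNNExtension.of_injective _ (hv.symm.trans (map_one HNNExtension.of).symm)

/-! ### Computability -/

theorem primrec_pushW :
    Primrec fun p : Desc k × (ℕ × Bool) × St k => pushW p.1 p.2.1 p.2.2 := by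
  have hD : Primrec fun p : Desc k × (ℕ × Bool) × St k => p.1 := Primrec.fst
  have ha : Primrec fun p : Desc k × (ℕ × Bool) × St k => p.2.1 :=
    Primrec.fst.comp Primrec.snd
  have hh : Primrec fun p : Desc k × (ℕ × Bool) × St k => p.2.2.1 :=
    Primrec.fst.comp (Primrec.snd.comp Primrec.snd)
  have hl : Primrec fun p : Desc k × (ℕ × Bool) × St k => p.2.2.2 :=
    Primrec.snd.comp (Primrec.snd.comp Primrec.snd)
  have hhd := Primrec.list_head?.comp hl
  exact Primrec.ite
    ((Primrec.eq.comp (Primrec.option_map hhd (Primrec.fst.comp Primrec.snd).to₂)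
      (Primrec.option_some.comp (Primrec.pair (Primrec.fst.comp ha)
        (Primrec.not.comp (Primrec.snd.comp ha))))).and
      (Primrec.eq.comp (primrec_memD.comp hD hh) (Primrec.const true)))
    (Primrec.pair
      (primrec_gmul.comp (primrec_isoD.comp hD hh)
        (Primrec.option_getD.comp (Primrec.option_map hhd (Primrec.snd.comp Primrec.snd).to₂)
          (Primrec.const gone)))
      (Primrec.list_tail.comp hl))
    (Primrec.pair (Primrec.const gone) (Primrec.list_cons.comp (Primrec.pair ha hh) hl))

theorem primrec_stepW :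
    Primrec fun p : Rules × (ℕ × Bool) × St k => stepW p.1 p.2.1 p.2.2 := by
  have hx : Primrec fun p : Rules × (ℕ × Bool) × St k => p.2.1 := Primrec.fst.comp Primrec.snd
  have hs : Primrec fun p : Rules × (ℕ × Bool) × St k => p.2.2 := Primrec.snd.comp Primrec.snd
  have hp : Primrec fun p : Rules × (ℕ × Bool) × St k => p.2.1.1 - (2 + k) :=
    Primrec.nat_sub.comp (Primrec.fst.comp hx) (Primrec.const (2 + k))
  refine (Primrec.option_casesOn
    (Primrec.list_getElem?.comp (Primrec.const (gens k)) (Primrec.fst.comp hx))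
    (Primrec.option_casesOn
      (Primrec.list_getElem?.comp (primrec_descs.comp Primrec.fst) hp) hs
      (primrec_pushW.comp (Primrec.pair
        (primrec_orient.comp (Primrec.snd.comp (hx.comp Primrec.fst)) Primrec.snd)
        (Primrec.pair (Primrec.pair (hp.comp Primrec.fst) (Primrec.snd.comp (hx.comp Primrec.fst)))
          (hs.comp Primrec.fst)))).to₂)
    (Primrec.pair
      (primrec_gmul.comp
        (Primrec.cond (Primrec.snd.comp (hx.comp Primrec.fst)) (Primrec.fst.comp Primrec.snd)
          (Primrec.snd.comp Primrec.snd))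
        (Primrec.fst.comp (hs.comp Primrec.fst)))
      (Primrec.snd.comp (hs.comp Primrec.fst))).to₂).of_eq fun p => ?_
  unfold stepW
  cases (gens k)[p.2.1.1]? <;> simp
  cases (descs p.1)[p.2.1.1 - (2 + k)]? <;> simp

theorem primrec_redW : Primrec₂ (redW (k := k)) :=
  (Primrec.list_foldr Primrec.snd (Primrec.const (gone, []))
    (primrec_stepW.comp (Primrec.pair (Primrec.fst.comp Primrec.fst) Primrec.snd)).to₂).to₂

theorem primrec_isOneW : Primrec₂ (isOneW k) := by
  refine Primrec.and.comp ?_ (primrec_gisOne.comp (Primrec.fst.comp primrec_redW))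
  refine (Primrec.eq.comp (Primrec.list_length.comp (Primrec.snd.comp (primrec_redW (k := k))))
    (Primrec.const 0)).decide.of_eq fun p => ?_
  cases (redW (k := k) p.1 p.2).2 <;> simp

theorem primrec_inR : Primrec₂ (inR k) :=
  primrec_isOneW.comp Primrec.fst (Primrec.list_append.comp
    ((Primrec.listFilter
      (Primrec.nat_le.comp (Primrec.const (2 + k + k)) Primrec.fst)).comp Primrec.snd)
    (primrec_invRev.comp Primrec.snd))

theorem primrec_step2 :
    Primrec fun p : Rules × (ℕ × Bool) × St2 => step2 k p.1 p.2.1 p.2.2 := by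
  have hn : Primrec fun p : Rules × (ℕ × Bool) × St2 => p.2.1.1 :=
    Primrec.fst.comp (Primrec.fst.comp Primrec.snd)
  have hb : Primrec fun p : Rules × (ℕ × Bool) × St2 => p.2.1.2 :=
    Primrec.snd.comp (Primrec.fst.comp Primrec.snd)
  have hh : Primrec fun p : Rules × (ℕ × Bool) × St2 => p.2.2.1 :=
    Primrec.fst.comp (Primrec.snd.comp Primrec.snd)
  have hl : Primrec fun p : Rules × (ℕ × Bool) × St2 => p.2.2.2 :=
    Primrec.snd.comp (Primrec.snd.comp Primrec.snd)
  have hhd := Primrec.list_head?.comp hl
  exact Primrec.ite (Primrec.eq.comp hn (Primrec.const 0))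
    (Primrec.ite
      ((Primrec.eq.comp (Primrec.option_map hhd (Primrec.fst.comp Primrec.snd).to₂)
          (Primrec.option_some.comp (Primrec.not.comp hb))).and
        (Primrec.eq.comp ((primrec_inR (k := k)).comp Primrec.fst hh) (Primrec.const true)))
      (Primrec.pair
        (Primrec.list_append.comp hh (Primrec.option_getD.comp
          (Primrec.option_map hhd (Primrec.snd.comp Primrec.snd).to₂) (Primrec.const [])))
        (Primrec.list_tail.comp hl))
      (Primrec.pair (Primrec.const []) (Primrec.list_cons.comp (Primrec.pair hb hh) hl)))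
    (Primrec.pair
      (Primrec.list_cons.comp
        (Primrec.pair (Primrec.nat_sub.comp hn (Primrec.const 1)) hb) hh) hl)

theorem primrec_red2 : Primrec₂ (red2 k) :=
  (Primrec.list_foldr Primrec.snd (Primrec.const ([], []))
    (primrec_step2.comp (Primrec.pair (Primrec.fst.comp Primrec.fst) Primrec.snd)).to₂).to₂

theorem primrec_isOne2 : Primrec₂ (isOne2 k) := by
  refine Primrec.and.comp ?_
    (primrec_isOneW.comp Primrec.fst (Primrec.fst.comp primrec_red2))
  refine (Primrec.eq.comp (Primrec.list_length.comp (Primrec.snd.comp (primrec_red2 (k := k))))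
    (Primrec.const 0)).decide.of_eq fun p => ?_
  cases (red2 k p.1 p.2).2 <;> simp

variable {σ : Type*} [Primcodable σ] {Mf : σ → Mach k}

/-- The word problem of `W`, uniformly in the machine. -/
theorem computablePred_evalW_eq_one (hr : Computable fun e => (Mf e).rules.map mods) :
    ComputablePred fun p : σ × Word ℕ => evalW (Mf p.1) p.2 = 1 :=
  (computablePred_eq
    (primrec_isOneW.to_comp.comp (hr.comp Computable.fst) Computable.snd)
    (Computable.const true)).of_eq fun p => isOneW_iff (Mf p.1) p.2

/-- Membership in `R`, uniformly in the machine. -/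
theorem computablePred_evalW_mem_R (hr : Computable fun e => (Mf e).rules.map mods) :
    ComputablePred fun p : σ × Word ℕ => evalW (Mf p.1) p.2 ∈ (Mf p.1).R :=
  (computablePred_eq
    (primrec_inR.to_comp.comp (hr.comp Computable.fst) Computable.snd)
    (Computable.const true)).of_eq fun p => inR_iff (Mf p.1) p.2

/-- The word problem of `W₂`, uniformly in the machine. -/
theorem computablePred_evalW2_eq_one (hr : Computable fun e => (Mf e).rules.map mods) :
    ComputablePred fun p : σ × Word ℕ => evalW2 (Mf p.1) p.2 = 1 :=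
  (computablePred_eq
    (primrec_isOne2.to_comp.comp (hr.comp Computable.fst) Computable.snd)
    (Computable.const true)).of_eq fun p => isOne2_iff (Mf p.1) p.2

end Vale.Agent.P193.Dec
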