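import Vale.Agent.P193.Dec.Code
import Vale.Agent.P193.Dec.W

/-!
# P193, module Dec/W: the codes of `K` against the codes of `W` and `W₂`

The code `n ≥ 52` of `decK` is the generator `n - 52` of `evalW`, hence `n - 51` of `evalW2`;
the code `48` is the generator `0` of `evalW2`.
-/

namespace Vale.Agent.P193.Dec

open C B

variable (M : Mach nL)

/-- The generator of `W₂` of a code of `K`. -/
def toW2 (n : ℕ) : Option ℕ := if n = 48 then some 0 else if 52 ≤ n then some (n - 51) else none

theorem primrec_toW2 : Primrec toW2 :=
  Primrec.ite (Primrec.eq.comp Primrec.id (Primrec.const 48)) (Primrec.const (some 0))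
    (Primrec.ite (Primrec.nat_le.comp (Primrec.const 52) Primrec.id)
      (Primrec.option_some.comp (Primrec.nat_sub.comp Primrec.id (Primrec.const 51)))
      (Primrec.const none))

/-- A code from `52` on is a generator of `W` or void, as in `sym`. -/
theorem decK_sym (m : ℕ) :
    (decK M (m + 52) = none ∧ sym M m = 1) ∨
      ∃ g, decK M (m + 52) = some (.w g) ∧ M.piW (FreeGroup.of g) = sym M m := by
  have hL : nL = 24 := rfl
  rcases lt_or_ge m 2 with hm | hm
  · refine Or.inr ?_
    interval_cases m
    · exact ⟨.inl true, rfl, by simp [Mach.piW, sym, gens, gev, Mach.unitPt, Mach.ofG,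
        ← FreeGroup.one_eq_mk]⟩
    · exact ⟨.inl false, rfl, by simp [Mach.piW, sym, gens, gev, Mach.unitPt, Mach.ofG,
        ← FreeGroup.one_eq_mk]⟩
  obtain ⟨p, rfl⟩ : ∃ p, m = 2 + p := ⟨m - 2, by omega⟩
  rcases lt_or_ge p 24 with hp | hp
  · refine Or.inr ⟨.inr (.inl ⟨p, hp⟩), ?_, ?_⟩
    · simp only [decK]
      rw [dif_neg (by omega), dif_neg (by omega), if_neg (by omega), if_neg (by omega),
        if_neg (by omega), if_neg (by omega), if_neg (by omega), if_neg (by omega),
        dif_pos (by omega)]
      simp [show 2 + p + 52 - 54 = p by omega]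
    · have hg : (gens nL)[2 + p]? =
          some (((0, 0), [((⟨p, hp⟩ : Fin nL), true)]), ((0, 0), [(⟨p, hp⟩, false)])) := by
        rw [gens, List.getElem?_append_right (by simp),
          List.getElem?_map]
        simp [List.getElem?_eq_getElem, show p < nL from hp]
      simp [sym, hg, Mach.piW, gev, Mach.unitF, Mach.ofG]
      rfl
  · have hg : (gens nL)[2 + p]? = none := by
      rw [List.getElem?_eq_none_iff, length_gens]
      omega
    have hsym : sym M (2 + p) = ((lets M)[p - 24]?).elim 1 M.tL := by
      simp only [sym, hg]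
      rw [show 2 + p - (2 + nL) = p - 24 by omega]
    rw [hsym]
    simp only [decK]
    rw [dif_neg (by omega), dif_neg (by omega), if_neg (by omega), if_neg (by omega),
      if_neg (by omega), if_neg (by omega), if_neg (by omega), if_neg (by omega),
      dif_neg (by omega)]
    rcases lt_or_ge p 48 with h2 | h2
    · refine Or.inr ⟨.inr (.inr (.q ⟨p - 24, by omega⟩)), ?_, ?_⟩
      · rw [dif_pos (by omega)]
        simp [show 2 + p + 52 - 78 = p - 24 by omega]
      · simp [lets, List.getElem?_append_left, show p - 24 < nL by omega, Mach.piW]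
    rw [dif_neg (by omega)]
    rcases lt_or_ge p 72 with h3 | h3
    · refine Or.inr ⟨.inr (.inr (.e ⟨p - 48, by omega⟩)), ?_, ?_⟩
      · rw [dif_pos (by omega)]
        simp [show 2 + p + 52 - 102 = p - 48 by omega]
      · rw [lets, List.getElem?_append_right (by simp; omega),
          List.getElem?_append_left (by simp; omega)]
        simp [Mach.piW, show p - 24 - nL = p - 48 by omega,
          show p - 48 < nL by omega]
    rw [dif_neg (by omega)]
    rw [lets, List.getElem?_append_right (by simp; omega),
      List.getElem?_append_right (by simp; omega)]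
    simp only [List.length_map, List.length_finRange,
      show p - 24 - nL - nL = p - 72 by omega]
    rcases lt_or_ge (p - 72) M.rules.length with h4 | h4
    · refine Or.inr ⟨.inr (.inr (.rule ⟨p - 72, h4⟩)), ?_, ?_⟩
      · rw [dif_pos (by omega)]
        simp [show 2 + p + 52 - 126 = p - 72 by omega]
      · simp [h4, Mach.piW]
    · refine Or.inl ⟨by rw [dif_neg (by omega)], ?_⟩
      simp [List.getElem?_eq_none_iff, not_lt.2 h4]

end Vale.Agent.P193.Dec
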