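import Vale.Agent.P193.Dec.SigmaW
import Vale.Agent.P193.Dec.WK
import Vale.Agent.P193.C.Orbit

/-!
# P193, module Dec/Sigma: the word problem of `Γ₂` and membership in `Σ`

A word of `K` gives in `Γ₂` a list of signed points and an element of `W₂`; a word of `W₂` gives a
list of signed cosets of `R` and an element of `W`. The free parts are reduced with the decided
equalities of points and cosets, and the criteria of `C/Orbit` are read off. Nothing uses an oracle.
-/

noncomputable section

namespace Vale.Agent.P193.Dec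

open Vale.Agent.P193.C
open SemidirectProduct

/-! ### Reduction up to a decided equality -/

section Reduce

variable {α X : Type} [DecidableEq X]

/-- One step of reduction from the left. -/
def gPush (eqv : α → α → Bool) (x : α × Bool) (s : List (α × Bool)) : List (α × Bool) :=
  List.casesOn s [x] fun hd tl => bif eqv x.1 hd.1 && (x.2 == !hd.2) then tl else x :: hd :: tl

/-- Reduction up to a decided equality. -/
def gRed (eqv : α → α → Bool) (w : List (α × Bool)) : List (α × Bool) := w.foldr (gPush eqv) []

/-- Push a word along a map of letters. -/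
def lmap (f : α → X) (w : List (α × Bool)) : List (X × Bool) := w.map fun p => (f p.1, p.2)

theorem lmap_gRed {eqv : α → α → Bool} {f : α → X} (h : ∀ a b, eqv a b = true ↔ f a = f b)
    (w : List (α × Bool)) : lmap f (gRed eqv w) = FreeGroup.reduce (lmap f w) := by
  induction w with
  | nil => rfl
  | cons x w ih =>
    simp only [lmap, List.map_cons, gRed, List.foldr_cons] at ih ⊢
    rw [FreeGroup.reduce.cons, ← ih]
    generalize w.foldr (gPush eqv) [] = s
    cases s with
    | nil => rfl
    | cons hd tl =>
      simp only [gPush, List.map_cons]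
      by_cases hc : f x.1 = f hd.1 ∧ x.2 = !hd.2
      · have he : eqv x.1 hd.1 = true := (h _ _).2 hc.1
        simp [he, hc]
      · cases he : eqv x.1 hd.1 with
        | false => simp [hc]
        | true =>
          have hb : (x.2 == !hd.2) = false := by
            simpa using fun hb => hc ⟨(h _ _).1 he, hb⟩
          simp [hb, hc]

theorem toWord_lmap {eqv : α → α → Bool} {f : α → X} (h : ∀ a b, eqv a b = true ↔ f a = f b)
    (w : List (α × Bool)) : (FreeGroup.mk (lmap f w)).toWord = lmap f (gRed eqv w) := by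
  rw [lmap_gRed h, FreeGroup.toWord_mk]

end Reduce

theorem computable_gRed {σ α : Type} [Primcodable σ] [Primcodable α] {e : σ → α → α → Bool}
    {fl : σ → List (α × Bool)} (he : Computable₂ fun a (p : α × α) => e a p.1 p.2)
    (hl : Computable fl) : Computable fun a => gRed (e a) (fl a) := by
  have hpush : Computable fun q : σ × List (α × Bool) × (α × Bool) =>
      gPush (e q.1) q.2.2 q.2.1 := by
    have hx : Computable fun q : σ × List (α × Bool) × (α × Bool) => q.2.2 :=
      Computable.snd.comp Computable.snd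
    have hs : Computable fun q : σ × List (α × Bool) × (α × Bool) => q.2.1 :=
      Computable.fst.comp Computable.snd
    have hb : Computable fun q : σ × List (α × Bool) × (α × Bool) =>
        (q.2.1.head?.map fun hd => e q.1 q.2.2.1 hd.1 && (q.2.2.2 == !hd.2)).getD false := by
      have hbeq : Computable₂ fun a b : Bool => (a == b) :=
        ((Primrec.eq (α := Bool)).decide.to_comp).of_eq fun p => by
          rcases p with ⟨a, b⟩
          cases a <;> cases b <;> rfl
      refine (Computable.option_getD (Computable.option_map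
        (Primrec.list_head?.to_comp.comp hs) ?_) (Computable.const false))
      exact (Primrec.and.to_comp.comp
        (he.comp (Computable.fst.comp Computable.fst)
          (Computable.pair (Computable.fst.comp (hx.comp Computable.fst))
            (Computable.fst.comp Computable.snd)))
        (hbeq.comp (Computable.snd.comp (hx.comp Computable.fst))
          (Primrec.not.to_comp.comp (Computable.snd.comp Computable.snd)))).to₂
    refine (Computable.cond hb (Primrec.list_tail.to_comp.comp hs)
      (Computable.list_cons.comp hx hs)).of_eq fun q => ?_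
    obtain ⟨a, s, x⟩ := q
    cases s <;> simp [gPush]
  refine (computable_foldl (g := fun _ => ([] : List (α × Bool)))
    (h := fun a p => gPush (e a) p.2 p.1) (Computable.list_reverse.comp hl) (Computable.const [])
    (hpush).to₂).of_eq fun a => ?_
  simp [gRed]

/-! ### Splitting a word -/

/-- One letter of splitting: `tc` is the letter at the base point, `c` sends the others to the
generators of the acting group. -/
def spStep (tc : ℕ) (c : ℕ → Option ℕ) (x : ℕ × Bool) (s : List (Word ℕ × Bool) × Word ℕ) :
    List (Word ℕ × Bool) × Word ℕ :=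
  bif decide (x.1 = tc) then (([], x.2) :: s.1, s.2)
  else (c x.1).elim s fun m => (s.1.map fun p => ((m, x.2) :: p.1, p.2), (m, x.2) :: s.2)

/-- The letters and the acting word of a word. -/
def split (tc : ℕ) (c : ℕ → Option ℕ) (w : Word ℕ) : List (Word ℕ × Bool) × Word ℕ :=
  w.foldr (spStep tc c) ([], [])

theorem split_spec {G X : Type} [Group G] [MulAction G X] (x₁ : X) (g : ℕ → G)
    (ev : Word ℕ → G) (hev : ∀ v, ev v = FreeGroup.lift g (FreeGroup.mk v)) (tc : ℕ)
    (c : ℕ → Option ℕ) (γ : ℕ → FreeGroup X ⋊[freeAut (MulAction.toPermHom G X)] G)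
    (h₁ : γ tc = inl (FreeGroup.of x₁)) (h₂ : ∀ n, n ≠ tc → γ n = inr ((c n).elim 1 g))
    (w : Word ℕ) : FreeGroup.lift γ (FreeGroup.mk w) =
      inl (FreeGroup.mk (lmap (fun p => ev p • x₁) (split tc c w).1)) * inr (ev (split tc c w).2) := by
  have hnil : ev [] = 1 := by rw [hev, ← FreeGroup.one_eq_mk, map_one]
  have hcons : ∀ m b v, ev ((m, b) :: v) = cond b (g m) (g m)⁻¹ * ev v := fun m b v => by
    simp [hev, FreeGroup.lift_mk]
  induction w with
  | nil => simp [split, lmap, hnil, ← FreeGroup.one_eq_mk]
  | cons x w ih =>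
    obtain ⟨n, b⟩ := x
    have hl : FreeGroup.lift γ (FreeGroup.mk ((n, b) :: w)) =
        cond b (γ n) (γ n)⁻¹ * FreeGroup.lift γ (FreeGroup.mk w) := by
      simp [FreeGroup.lift_mk]
    rw [hl, ih]
    simp only [split, List.foldr_cons]
    generalize w.foldr (spStep tc c) ([], []) = s
    obtain ⟨ls, v⟩ := s
    unfold spStep
    rcases eq_or_ne n tc with rfl | hn
    · rw [decide_eq_true rfl, cond_true, h₁, ← mul_assoc]
      congr 1
      have hb : cond b (inl (FreeGroup.of x₁)) (inl (FreeGroup.of x₁))⁻¹ =
          (inl (FreeGroup.mk [(x₁, b)]) : FreeGroup X ⋊[freeAut (MulAction.toPermHom G X)] G) := by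
        cases b
        · rw [cond_false, ← map_inv]; rfl
        · rfl
      rw [hb, ← map_mul, FreeGroup.mul_mk]
      simp [lmap, hnil]
    · rw [decide_eq_false hn, cond_false, h₂ n hn]
      cases hc : c n with
      | none => cases b <;> simp
      | some m =>
        simp only [Option.elim_some]
        have hb : cond b (inr (g m)) (inr (g m))⁻¹ =
            (inr (cond b (g m) (g m)⁻¹) : FreeGroup X ⋊[freeAut (MulAction.toPermHom G X)] G) := by
          cases b <;> simp
        rw [hb, hcons]
        generalize hh : cond b (g m) (g m)⁻¹ = h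
        refine SemidirectProduct.ext ?_ (by simp)
        simp only [mul_left, left_inl, left_inr, right_inl, right_inr, map_one, mul_one, one_mul]
        simp only [freeAut, MonoidHom.coe_mk, OneHom.coe_mk, FreeGroup.freeGroupCongr_apply,
          FreeGroup.map.mk, lmap, List.map_map]
        refine congrArg FreeGroup.mk (List.map_congr_left fun p _ => ?_)
        simp [hcons, hh, mul_smul]

theorem computable_split {σ : Type} [Primcodable σ] (tc : ℕ) {c : ℕ → Option ℕ} (hc : Primrec c)
    {fw : σ → Word ℕ} (hw : Computable fw) : Computable fun a => split tc c (fw a) := by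
  have hstep : Primrec fun q : (ℕ × Bool) × (List (Word ℕ × Bool) × Word ℕ) =>
      spStep tc c q.1 q.2 := by
    have hs : Primrec fun q : (ℕ × Bool) × (List (Word ℕ × Bool) × Word ℕ) => q.2 := Primrec.snd
    have hb : Primrec fun q : (ℕ × Bool) × (List (Word ℕ × Bool) × Word ℕ) => q.1.2 :=
      Primrec.snd.comp Primrec.fst
    have hn : Primrec fun q : (ℕ × Bool) × (List (Word ℕ × Bool) × Word ℕ) => q.1.1 :=
      Primrec.fst.comp Primrec.fst
    refine (Primrec.cond (Primrec.eq.comp hn (Primrec.const tc)).decide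
      (Primrec.pair (Primrec.list_cons.comp (Primrec.pair (Primrec.const []) hb)
        (Primrec.fst.comp hs)) (Primrec.snd.comp hs))
      (Primrec.option_casesOn (hc.comp hn) hs
        (Primrec.pair
          (Primrec.list_map (Primrec.fst.comp (hs.comp Primrec.fst))
            (Primrec.pair
              (Primrec.list_cons.comp
                (Primrec.pair (Primrec.snd.comp Primrec.fst)
                  (hb.comp (Primrec.fst.comp Primrec.fst)))
                (Primrec.fst.comp Primrec.snd))
              (Primrec.snd.comp Primrec.snd)).to₂)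
          (Primrec.list_cons.comp (Primrec.pair Primrec.snd (hb.comp Primrec.fst))
            (Primrec.snd.comp (hs.comp Primrec.fst)))).to₂)).of_eq fun q => ?_
    unfold spStep
    cases c q.1.1 <;> simp
  exact ((Primrec.list_foldr Primrec.id (Primrec.const ([], []))
    (hstep.comp Primrec.snd).to₂).to_comp).comp hw

/-! ### The tests in `W₂` -/

variable {k : ℕ}

/-- Equality of cosets of `R`. -/
def cosEq (k : ℕ) (D : Par) (a b : Word ℕ) : Bool := inR k (modsP D) (FreeGroup.invRev a ++ b)

/-- The letters and the part in `W` of a word of `W₂`. -/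
def sp2 (w : Word ℕ) : List (Word ℕ × Bool) × Word ℕ := split 0 (fun n => some (n - 1)) w

/-- The reduced free part. -/
def redL (k : ℕ) (D : Par) (w : Word ℕ) : List (Word ℕ × Bool) := gRed (cosEq k D) (sp2 w).1

/-- The test for the cosets `g e pf⁻¹ R`. -/
def inXs (k : ℕ) (D : Par) (lv : ℤ × ℤ → Bool) (g x : Word ℕ) : Bool :=
  inRPf k D lv (FreeGroup.invRev x ++ g)

/-- The test for the cosets of the loading words. -/
def inQCos (k : ℕ) (D : Par) (x : Word ℕ) : Bool :=
  inR k (modsP D) (FreeGroup.invRev (qW k x) ++ x)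

/-- The test for alternating words. -/
def altQ (k : ℕ) (D : Par) (L : List (Word ℕ × Bool)) : Bool :=
  decide (L.map Prod.snd = altSigns L.length) && L.all fun p => inQCos k D p.1

/-- The test for the edge group of `W₂`. -/
def inEE2 (k : ℕ) (D : Par) (lv : ℤ × ℤ → Bool) (w : Word ℕ) : Bool :=
  inEE k D (sp2 w).2 && (redL k D w).all fun p => inXs k D lv [] p.1

/-- The test for `⟨q, w q w⁻¹⟩`. -/
def inOm (k : ℕ) (D : Par) (w : Word ℕ) : Bool :=
  isOneW k (modsP D) (FreeGroup.invRev (qW k (sp2 w).2) ++ (sp2 w).2) &&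
    (altQ k D (redL k D w) && decide ((redL k D w).length % 2 = 0))

/-- The test for the orbit of the start point. -/
def inOrb (k : ℕ) (D : Par) (lv : ℤ × ℤ → Bool) (w : Word ℕ) : Bool :=
  inQP0 k D (sp2 w).2 && (List.range ((redL k D w).length + 1)).any fun j =>
    altQ k D ((redL k D w).take j) &&
      ((redL k D w).drop j).all fun p => inXs k D lv (sp2 w).2 p.1

section Mach

variable (M : Mach k) (hA : M.AccStmt) (hK : M.KeyStmt)

/-- The value of a word in `W₂`, in the group of the tower. -/
def ev2 (w : Word ℕ) : (M.toBase hA hK).W2 := evalW2 M w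

/-- The generators of `W₂`, in the group of the tower. -/
def g2 (n : ℕ) : (M.toBase hA hK).W2 := sym2 M n

theorem ev2_lift (w : Word ℕ) : ev2 M hA hK w = FreeGroup.lift (g2 M hA hK) (FreeGroup.mk w) := rfl

theorem ev2_append (v w : Word ℕ) : ev2 M hA hK (v ++ w) = ev2 M hA hK v * ev2 M hA hK w :=
  evalW2_append M v w

theorem ev2_invRev (w : Word ℕ) : ev2 M hA hK (FreeGroup.invRev w) = (ev2 M hA hK w)⁻¹ :=
  evalW2_invRev M w

theorem ev2_eq_one_iff (w : Word ℕ) :
    isOne2 k (M.rules.map mods) w = true ↔ ev2 M hA hK w = 1 :=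
  isOne2_iff M w

theorem toSD_evalW2 (w : Word ℕ) : (M.toBase hA hK).toSD (ev2 M hA hK w) =
    inl (FreeGroup.mk (lmap (fun p => ((evalW M p : M.W) : (M.toBase hA hK).Cos)) (sp2 w).1)) *
      inr (evalW M (sp2 w).2) := by
  have h := split_spec (X := (M.toBase hA hK).Cos) ((1 : M.W) : (M.toBase hA hK).Cos) (sym M) (evalW M) (fun _ => rfl) 0
    (fun n => some (n - 1)) (fun n => (M.toBase hA hK).toSD (g2 M hA hK n)) ((M.toBase hA hK).toSD_t) (fun n hn => ?_) w
  · have he : (M.toBase hA hK).toSD (ev2 M hA hK w) =
        FreeGroup.lift (fun n => (M.toBase hA hK).toSD (g2 M hA hK n)) (FreeGroup.mk w) :=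
      DFunLike.congr_fun (f := ((M.toBase hA hK).toSD).comp (FreeGroup.lift (g2 M hA hK)))
        (g := FreeGroup.lift fun n => (M.toBase hA hK).toSD (g2 M hA hK n))
        (FreeGroup.ext_hom _ _ fun n => by simp only [MonoidHom.comp_apply, FreeGroup.lift_apply_of]) (FreeGroup.mk w)
    rw [he]
    refine h.trans ?_
    simp [sp2]
    rfl
  · obtain ⟨m, rfl⟩ : ∃ m, n = m + 1 := ⟨n - 1, by omega⟩
    exact (M.toBase hA hK).toSD_of (sym M m)

theorem lpart_evalW2 (w : Word ℕ) : (M.toBase hA hK).lpart (ev2 M hA hK w) =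
    FreeGroup.mk (lmap (fun p => ((evalW M p : M.W) : (M.toBase hA hK).Cos)) (sp2 w).1) := by
  have h := congrArg SemidirectProduct.left (toSD_evalW2 M hA hK w)
  simpa [Base.lpart] using h

theorem ret_evalW2 (w : Word ℕ) : (M.toBase hA hK).ret (ev2 M hA hK w) = evalW M (sp2 w).2 := by
  have h := congrArg SemidirectProduct.right (toSD_evalW2 M hA hK w)
  simpa [Base.ret] using h

theorem cosEq_iff (a b : Word ℕ) : cosEq k (parOf M) a b = true ↔
    ((evalW M a : M.W) : (M.toBase hA hK).Cos) = evalW M b := by
  rw [cosEq, modsP_parOf, inR_iff, evalW_append, evalW_invRev]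
  exact (QuotientGroup.eq (s := (M.toBase hA hK).R)).symm

theorem toWord_lpart [DecidableEq (M.toBase hA hK).Cos] (w : Word ℕ) : ((M.toBase hA hK).lpart (ev2 M hA hK w)).toWord =
    lmap (fun p => ((evalW M p : M.W) : (M.toBase hA hK).Cos)) (redL k (parOf M) w) := by
  rw [lpart_evalW2, redL, toWord_lmap (cosEq_iff M hA hK)]

theorem inXs_iff (g x : Word ℕ) : inXs k (parOf M) M.live g x = true ↔
    ((evalW M x : M.W) : (M.toBase hA hK).Cos) ∈ (M.toBase hA hK).Xs (evalW M g) := by
  rw [inXs, inRPf_iff, evalW_append, evalW_invRev]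
  exact ((M.toBase hA hK).mem_Xs_iff).symm

theorem inQCos_iff (x : Word ℕ) : inQCos k (parOf M) x = true ↔
    ((evalW M x : M.W) : (M.toBase hA hK).Cos) ∈ (M.toBase hA hK).qCos := by
  rw [inQCos, modsP_parOf, inR_iff, evalW_append, evalW_invRev, evalW_qW]
  exact ((M.toBase hA hK).mem_qCos_iff _).symm

theorem altQ_iff (L : List (Word ℕ × Bool)) : altQ k (parOf M) L = true ↔
    Alt (M.toBase hA hK).qCos (lmap (fun p => ((evalW M p : M.W) : (M.toBase hA hK).Cos)) L) := by
  simp only [altQ, Alt, lmap, Bool.and_eq_true, decide_eq_true_iff, List.all_eq_true, List.map_map,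
    List.length_map, List.forall_mem_map, inQCos_iff M hA hK]
  exact Iff.rfl

theorem inEE2_iff (w : Word ℕ) :
    inEE2 k (parOf M) M.live w = true ↔ ev2 M hA hK w ∈ (M.toBase hA hK).EE2 := by
  classical
  rw [(M.toBase hA hK).mem_EE2_iff, freeGroup_mem_closure_iff, toWord_lpart M hA hK, ret_evalW2,
    inEE2, Bool.and_eq_true, inEE_iff, List.all_eq_true]
  refine and_congr Iff.rfl ?_
  simp only [lmap, List.forall_mem_map, inXs_iff M hA hK, evalW_nil]

theorem inOm_iff (w : Word ℕ) :
    inOm k (parOf M) w = true ↔ ev2 M hA hK w ∈ (M.toBase hA hK).om.range := by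
  classical
  rw [(M.toBase hA hK).mem_range_om_iff, toWord_lpart M hA hK, ret_evalW2, inOm, Bool.and_eq_true,
    Bool.and_eq_true, modsP_parOf, isOneW_iff, evalW_append, evalW_invRev, evalW_qW,
    inv_mul_eq_one, altQ_iff M hA hK, decide_eq_true_iff]
  simp only [lmap, List.length_map]
  exact and_congr Iff.rfl Iff.rfl

theorem inOrb_iff (w : Word ℕ) : inOrb k (parOf M) M.live w = true ↔
    ∃ ω, (M.toBase hA hK).om ω • (M.toBase hA hK).x0 = (ev2 M hA hK w : (M.toBase hA hK).Pts) := by
  classical
  rw [(M.toBase hA hK).orbit_iff, toWord_lpart M hA hK, ret_evalW2, inOrb, Bool.and_eq_true, inQP0_iff]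
  refine and_congr Iff.rfl ?_
  generalize redL k (parOf M) w = L
  simp only [List.any_eq_true, List.mem_range, Bool.and_eq_true, List.all_eq_true,
    altQ_iff M hA hK, inXs_iff M hA hK]
  constructor
  · rintro ⟨j, -, h1, h2⟩
    refine ⟨_, lmap (fun p => ((evalW M p : M.W) : (M.toBase hA hK).Cos)) (L.drop j), ?_, h1, ?_⟩
    · simp only [lmap]
      rw [← List.map_append, List.take_append_drop]
    · intro p hp
      obtain ⟨q, hq, rfl⟩ := List.mem_map.1 hp
      exact h2 q hq
  · rintro ⟨u, v, he, hu, hv⟩
    have hlen : u.length ≤ L.length := by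
      have := congrArg List.length he
      simp [lmap] at this
      omega
    refine ⟨u.length, Nat.lt_succ_of_le hlen, ?_, ?_⟩
    · have : lmap (fun p => ((evalW M p : M.W) : (M.toBase hA hK).Cos)) (L.take u.length) = u := by
        rw [lmap, List.map_take]
        exact (congrArg (List.take u.length) he).trans List.take_left
      rwa [this]
    · intro q hq
      refine hv (((evalW M q.1 : M.W) : (M.toBase hA hK).Cos), q.2) ?_
      have hd : (lmap (fun p => ((evalW M p : M.W) : (M.toBase hA hK).Cos)) L).drop u.length = v := by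
        rw [he, List.drop_left]
      rw [← hd, lmap, ← List.map_drop]
      exact List.mem_map.2 ⟨q, hq, rfl⟩

end Mach

/-! ### Computability of the tests -/

section Comp

variable {σ : Type} [Primcodable σ] {fD : σ → Par} {fl : σ → ℤ × ℤ → Bool} {fw : σ → Word ℕ}

theorem computable_sp2 (hw : Computable fw) : Computable fun a => sp2 (fw a) :=
  computable_split 0
    (Primrec.option_some.comp (Primrec.nat_sub.comp Primrec.id (Primrec.const 1))) hw

theorem computable_redL (hD : Computable fD) (hw : Computable fw) :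
    Computable fun a => redL k (fD a) (fw a) := by
  refine computable_gRed (e := fun a => cosEq k (fD a)) ?_ (Computable.fst.comp (computable_sp2 hw))
  exact (primrec_inR.to_comp.comp (computable_modsP.comp (hD.comp Computable.fst))
    (Computable.list_append.comp
      (primrec_invRev.to_comp.comp (Computable.fst.comp Computable.snd))
      (Computable.snd.comp Computable.snd))).to₂

theorem computable_inQCos (hD : Computable fD) (hw : Computable fw) :
    Computable fun a => inQCos k (fD a) (fw a) :=
  primrec_inR.to_comp.comp (computable_modsP.comp hD)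
    (Computable.list_append.comp (primrec_invRev.to_comp.comp (computable_qW hw)) hw)

theorem computable_inXs {fg : σ → Word ℕ} (hD : Computable fD) (hl : Computable₂ fl)
    (hg : Computable fg) (hw : Computable fw) :
    Computable fun a => inXs k (fD a) (fl a) (fg a) (fw a) :=
  computable_inRPf hD hl (Computable.list_append.comp (primrec_invRev.to_comp.comp hw) hg)

theorem computable_altQ {fL : σ → List (Word ℕ × Bool)} (hD : Computable fD)
    (hL : Computable fL) : Computable fun a => altQ k (fD a) (fL a) := by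
  have halt : Primrec altSigns :=
    Primrec.list_map Primrec.list_range
      (Primrec.eq.comp (Primrec.nat_mod.comp Primrec.snd (Primrec.const 2))
        (Primrec.const 0)).decide.to₂
  have hm : Computable fun a => (fL a).map Prod.snd :=
    computable_map (g := fun (_ : σ) (p : Word ℕ × Bool) => p.2) hL
      (Computable.snd.comp Computable.snd).to₂
  obtain ⟨f, hf, hspec⟩ := exists_bool_of_computablePred
    (computablePred_eq hm (halt.to_comp.comp (Computable.list_length.comp hL)))
  have hq : Computable₂ fun (a : σ) (p : Word ℕ × Bool) => inQCos k (fD a) p.1 :=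
    (computable_inQCos (hD.comp Computable.fst) (Computable.fst.comp Computable.snd)).to₂
  have hc : Computable fun a => f a && (fL a).all fun p => inQCos k (fD a) p.1 :=
    Primrec.and.to_comp.comp hf
      (computable_all (g := fun (a : σ) (p : Word ℕ × Bool) => inQCos k (fD a) p.1) hL hq)
  refine Computable.of_eq hc fun a => ?_
  have h : f a = decide ((fL a).map Prod.snd = altSigns (fL a).length) := by
    rw [Bool.eq_iff_iff, decide_eq_true_iff, hspec a]
  rw [h]
  rfl

theorem computable_inEE2 (hD : Computable fD) (hl : Computable₂ fl) (hw : Computable fw) :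
    Computable fun a => inEE2 k (fD a) (fl a) (fw a) := by
  have hx : Computable₂ fun (a : σ) (p : Word ℕ × Bool) => inXs k (fD a) (fl a) [] p.1 :=
    (computable_inXs (fl := fun q : σ × (Word ℕ × Bool) => fl q.1) (hD.comp Computable.fst)
      (hl.comp (Computable.fst.comp Computable.fst) Computable.snd).to₂ (Computable.const [])
      (Computable.fst.comp Computable.snd)).to₂
  exact Primrec.and.to_comp.comp
    (computable_inEE hD (Computable.snd.comp (computable_sp2 hw)))
    (computable_all (g := fun (a : σ) (p : Word ℕ × Bool) => inXs k (fD a) (fl a) [] p.1)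
      (computable_redL hD hw) hx)

theorem computable_inOm (hD : Computable fD) (hw : Computable fw) :
    Computable fun a => inOm k (fD a) (fw a) := by
  have hr : Computable fun a => (sp2 (fw a)).2 := Computable.snd.comp (computable_sp2 hw)
  have heven : Computable fun a => decide ((redL k (fD a) (fw a)).length % 2 = 0) :=
    (Primrec.eq.comp (Primrec.nat_mod.comp Primrec.id (Primrec.const 2))
      (Primrec.const 0)).decide.to_comp.comp (Computable.list_length.comp (computable_redL hD hw))
  exact Primrec.and.to_comp.comp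
    (primrec_isOneW.to_comp.comp (computable_modsP.comp hD)
      (Computable.list_append.comp (primrec_invRev.to_comp.comp (computable_qW hr)) hr))
    (Primrec.and.to_comp.comp (computable_altQ hD (computable_redL hD hw)) heven)

theorem computable_inOrb (hD : Computable fD) (hl : Computable₂ fl) (hw : Computable fw) :
    Computable fun a => inOrb k (fD a) (fl a) (fw a) := by
  have hr : Computable fun a => (sp2 (fw a)).2 := Computable.snd.comp (computable_sp2 hw)
  have hL : Computable fun a => redL k (fD a) (fw a) := computable_redL hD hw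
  have hA : Computable fun q : σ × ℕ =>
      altQ k (fD q.1) ((redL k (fD q.1) (fw q.1)).take q.2) :=
    computable_altQ (hD.comp Computable.fst)
      (Primrec.list_take.to_comp.comp Computable.snd (hL.comp Computable.fst))
  have hd : Computable fun q : σ × ℕ => (redL k (fD q.1) (fw q.1)).drop q.2 :=
    Primrec.list_drop.to_comp.comp Computable.snd (hL.comp Computable.fst)
  have hx : Computable₂ fun (q : σ × ℕ) (p : Word ℕ × Bool) =>
      inXs k (fD q.1) (fl q.1) (sp2 (fw q.1)).2 p.1 :=
    (computable_inXs (fl := fun r : (σ × ℕ) × (Word ℕ × Bool) => fl r.1.1)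
      (hD.comp (Computable.fst.comp Computable.fst))
      (hl.comp (Computable.fst.comp (Computable.fst.comp Computable.fst)) Computable.snd).to₂
      (hr.comp (Computable.fst.comp Computable.fst)) (Computable.fst.comp Computable.snd)).to₂
  have hB : Computable fun q : σ × ℕ => ((redL k (fD q.1) (fw q.1)).drop q.2).all
      fun p => inXs k (fD q.1) (fl q.1) (sp2 (fw q.1)).2 p.1 :=
    computable_all (g := fun (q : σ × ℕ) (p : Word ℕ × Bool) =>
      inXs k (fD q.1) (fl q.1) (sp2 (fw q.1)).2 p.1) hd hx
  have hrange : Computable fun a => List.range ((redL k (fD a) (fw a)).length + 1) :=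
    Primrec.list_range.to_comp.comp (Computable.succ.comp (Computable.list_length.comp hL))
  exact Primrec.and.to_comp.comp (computable_inQP0 hD hr)
    (computable_any (g := fun a j => altQ k (fD a) ((redL k (fD a) (fw a)).take j) &&
      ((redL k (fD a) (fw a)).drop j).all fun p => inXs k (fD a) (fl a) (sp2 (fw a)).2 p.1)
      hrange (Primrec.and.to_comp.comp hA hB).to₂)

end Comp

/-! ### The solver -/

/-- The points and the part in `W₂` of a word of `K`. -/
def spK (w : B.Reduce.Raw ℕ) : List (Word ℕ × Bool) × Word ℕ := split 49 toW2 w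

/-- Equality of points. -/
def ptEq (D : Par) (lv : ℤ × ℤ → Bool) (a b : Word ℕ) : Bool :=
  inEE2 nL D lv (FreeGroup.invRev a ++ b)

/-- The reduced points. -/
def redPts (D : Par) (lv : ℤ × ℤ → Bool) (w : B.Reduce.Raw ℕ) : List (Word ℕ × Bool) :=
  gRed (ptEq D lv) (spK w).1

/-- Splitting in `Γ₂`. -/
theorem split_gam {ι κ W : Type} [Group W] (B : Base ι κ W) (g : ℕ → B.W2) (ev : Word ℕ → B.W2)
    (hev : ∀ v, ev v = FreeGroup.lift g (FreeGroup.mk v)) (tc : ℕ) (c : ℕ → Option ℕ)
    (γ : ℕ → B.Gam) (h₁ : γ tc = inl (FreeGroup.of ((1 : B.W2) : B.Pts)))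
    (h₂ : ∀ n, n ≠ tc → γ n = inr ((c n).elim 1 g)) (w : Word ℕ) :
    FreeGroup.lift γ (FreeGroup.mk w) =
      inl (FreeGroup.mk (lmap (fun p => ((ev p : B.W2) : B.Pts)) (split tc c w).1)) *
        inr (ev (split tc c w).2) := by
  refine (split_spec ((1 : B.W2) : B.Pts) g ev hev tc c γ h₁ h₂ w).trans ?_
  simp
  rfl

namespace Family

variable {acc : ℕ → List (Fin nL) → Bool} (Φ : Family acc) (e : ℕ)

theorem gamPart_kg (n : ℕ) : Φ.gamPart e (Φ.kg e n) =
    if n = 49 then inl (FreeGroup.of ((1 : (Φ.base e).W2) : (Φ.base e).Pts))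
    else inr ((toW2 n).elim 1 (g2 (Φ.M e) (Φ.hA e) (Φ.hK e))) := by
  by_cases h52 : 52 ≤ n
  · obtain ⟨m, rfl⟩ : ∃ m, n = m + 52 := ⟨n - 52, by omega⟩
    rw [if_neg (by omega), toW2, if_neg (by omega), if_pos h52, Option.elim_some,
      show m + 52 - 51 = m + 1 by omega]
    rcases decK_sym (Φ.M e) m with ⟨hd, hs⟩ | ⟨g, hd, hs⟩
    · simp [kg, hd, g2, sym2, hs]
      rfl
    · simp [kg, hd, g2, sym2, gamPart, Base.Words.toK, ← hs]
      rfl
  · by_cases h49 : n = 49
    · subst h49
      simp [kg, decK, gamPart, Base.Words.toK, Base.pt]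
    · rw [if_neg h49]
      by_cases h48 : n = 48
      · subst h48
        simp [kg, decK, gamPart, Base.Words.toK, toW2, g2, sym2]
        rfl
      · rw [toW2, if_neg h48, if_neg h52, Option.elim_none, map_one]
        by_cases h1 : n < 24
        · simp [kg, decK, h1, gamPart, Base.Words.toK]
        · by_cases h2 : n - 24 < 24
          · simp [kg, decK, h1, h2, gamPart, Base.Words.toK]
          · have : n = 50 ∨ n = 51 := by omega
            rcases this with rfl | rfl <;> simp [kg, decK, gamPart, Base.Words.toK]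

theorem gamPart_kval (w : B.Reduce.Raw ℕ) : Φ.gamPart e (Φ.kval e w) =
    inl (FreeGroup.mk (lmap
      (fun p => (ev2 (Φ.M e) (Φ.hA e) (Φ.hK e) p : (Φ.base e).Pts)) (spK w).1)) *
      inr (ev2 (Φ.M e) (Φ.hA e) (Φ.hK e) (spK w).2) := by
  have h := split_gam (Φ.base e)
    (g2 (Φ.M e) (Φ.hA e) (Φ.hK e)) (ev2 (Φ.M e) (Φ.hA e) (Φ.hK e))
    (ev2_lift (Φ.M e) (Φ.hA e) (Φ.hK e)) 49 toW2
    (fun n => Φ.gamPart e (Φ.kg e n)) ((Φ.gamPart_kg e 49).trans (if_pos rfl))
    (fun n hn => (Φ.gamPart_kg e n).trans (if_neg hn)) w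
  have he : Φ.gamPart e (Φ.kval e w) =
      FreeGroup.lift (fun n => Φ.gamPart e (Φ.kg e n)) (FreeGroup.mk w) := by
    simp only [kval]
    exact DFunLike.congr_fun (f := (Φ.gamPart e).comp (FreeGroup.lift (Φ.kg e)))
      (g := FreeGroup.lift fun n => Φ.gamPart e (Φ.kg e n))
      (FreeGroup.ext_hom _ _ fun n => by simp) (FreeGroup.mk w)
  rw [he]
  exact h

theorem ptEq_iff (a b : Word ℕ) : ptEq (parOf (Φ.M e)) (Φ.M e).live a b = true ↔
    (ev2 (Φ.M e) (Φ.hA e) (Φ.hK e) a : (Φ.base e).Pts) = ev2 (Φ.M e) (Φ.hA e) (Φ.hK e) b := by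
  rw [ptEq, inEE2_iff (Φ.M e) (Φ.hA e) (Φ.hK e), ev2_append, ev2_invRev]
  exact (QuotientGroup.eq (s := (Φ.base e).EE2)).symm

theorem mem_incl_range_iff [DecidableEq (Φ.base e).Pts] (z : (Φ.base e).Gam) :
    z ∈ (Φ.base e).incl.range ↔ z.right ∈ (Φ.base e).om.range ∧
      ∀ p ∈ z.left.toWord, ∃ ω, (Φ.base e).om ω • (Φ.base e).x0 = p.1 := by
  refine Iff.trans ?_ (and_congr Iff.rfl
    (freeGroup_mem_closure_iff (S := {x | ∃ ω, (Φ.base e).om ω • (Φ.base e).x0 = x})))
  constructor
  · rintro ⟨⟨a, ω⟩, rfl⟩
    refine ⟨⟨ω, rfl⟩, ?_⟩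
    simp only [Base.incl, SemidirectProduct.map_left]
    induction a using FreeGroup.induction_on with
    | C1 => simp [one_mem]
    | of x => exact Subgroup.subset_closure ⟨x.1, x.2, FreeGroup.map.of.symm⟩
    | inv_of x hx => rw [map_inv]; exact inv_mem hx
    | mul a b ha hb => rw [map_mul]; exact mul_mem ha hb
  · rintro ⟨⟨ω, hω⟩, hl⟩
    have hl' : z.left ∈ (FreeGroup.map (Subtype.val : (Φ.base e).Orb → _)).range := by
      refine (Subgroup.closure_le _).2 ?_ hl
      rintro _ ⟨x, hx, rfl⟩
      exact ⟨FreeGroup.of ⟨x, hx⟩, FreeGroup.map.of⟩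
    obtain ⟨a, ha⟩ := hl'
    exact ⟨⟨a, ω⟩, SemidirectProduct.ext ha hω⟩

/-- The word problem of `Γ₂` and membership in `Σ`, for every family. -/
theorem nonempty_sigmaSolver : Nonempty Φ.SigmaSolver := by
  have hD : Computable fun e => parOf (Φ.M e) :=
    Φ.rules_computable.pair (Φ.final_computable.pair Φ.origin_computable)
  have hr : Computable fun p : ℕ × B.Reduce.Raw ℕ => spK p.2 :=
    computable_split 49 primrec_toW2 Computable.snd
  have hD' : Computable fun p : ℕ × B.Reduce.Raw ℕ => parOf (Φ.M p.1) := hD.comp Computable.fst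
  have hl : Computable₂ fun (p : ℕ × B.Reduce.Raw ℕ) x => (Φ.M p.1).live x :=
    (Φ.live_computable.comp (Computable.fst.comp Computable.fst) Computable.snd).to₂
  have hpts : Computable fun p : ℕ × B.Reduce.Raw ℕ =>
      redPts (parOf (Φ.M p.1)) (Φ.M p.1).live p.2 := by
    refine computable_gRed (e := fun p : ℕ × B.Reduce.Raw ℕ =>
      ptEq (parOf (Φ.M p.1)) (Φ.M p.1).live) ?_ (Computable.fst.comp hr)
    exact (computable_inEE2
      (fl := fun r : (ℕ × B.Reduce.Raw ℕ) × (Word ℕ × Word ℕ) => (Φ.M r.1.1).live)
      (hD'.comp Computable.fst)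
      (hl.comp (Computable.fst.comp Computable.fst) Computable.snd).to₂
      (Computable.list_append.comp
        (primrec_invRev.to_comp.comp (Computable.fst.comp Computable.snd))
        (Computable.snd.comp Computable.snd))).to₂
  have hone : Computable fun p : ℕ × B.Reduce.Raw ℕ =>
      (redPts (parOf (Φ.M p.1)) (Φ.M p.1).live p.2).isEmpty &&
        isOne2 nL (modsP (parOf (Φ.M p.1))) (spK p.2).2 :=
    Primrec.and.to_comp.comp (primrec_isEmpty.to_comp.comp hpts)
      (primrec_isOne2.to_comp.comp (computable_modsP.comp hD') (Computable.snd.comp hr))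
  have hmem : Computable fun p : ℕ × B.Reduce.Raw ℕ =>
      inOm nL (parOf (Φ.M p.1)) (spK p.2).2 &&
        (redPts (parOf (Φ.M p.1)) (Φ.M p.1).live p.2).all
          fun x => inOrb nL (parOf (Φ.M p.1)) (Φ.M p.1).live x.1 := by
    refine Primrec.and.to_comp.comp (computable_inOm hD' (Computable.snd.comp hr))
      (computable_all (g := fun (p : ℕ × B.Reduce.Raw ℕ) (x : Word ℕ × Bool) =>
        inOrb nL (parOf (Φ.M p.1)) (Φ.M p.1).live x.1) hpts ?_)
    exact (computable_inOrb
      (fl := fun r : (ℕ × B.Reduce.Raw ℕ) × (Word ℕ × Bool) => (Φ.M r.1.1).live)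
      (hD'.comp Computable.fst)
      (hl.comp (Computable.fst.comp Computable.fst) Computable.snd).to₂
      (Computable.fst.comp Computable.snd)).to₂
  refine ⟨{
    one := fun e w => (redPts (parOf (Φ.M e)) (Φ.M e).live w).isEmpty &&
      isOne2 nL (modsP (parOf (Φ.M e))) (spK w).2
    mem := fun e w => inOm nL (parOf (Φ.M e)) (spK w).2 &&
      (redPts (parOf (Φ.M e)) (Φ.M e).live w).all
        fun x => inOrb nL (parOf (Φ.M e)) (Φ.M e).live x.1
    one_spec := fun e w => ?_
    mem_spec := fun e w => ?_
    one_computable := hone.to₂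
    mem_computable := hmem.to₂ }⟩
  · classical
    rw [Φ.gamPart_kval, Bool.and_eq_true, List.isEmpty_iff, modsP_parOf,
      ev2_eq_one_iff (Φ.M e) (Φ.hA e) (Φ.hK e),
      SemidirectProduct.ext_iff]
    simp only [mul_left, left_inl, left_inr, right_inl, mul_right, right_inr, map_one, mul_one,
      one_mul, one_left, one_right]
    refine and_congr ?_ Iff.rfl
    rw [← FreeGroup.toWord_eq_nil_iff, redPts, toWord_lmap (Φ.ptEq_iff e)]
    simp [lmap]
  · classical
    rw [Φ.gamPart_kval, Φ.mem_incl_range_iff, Bool.and_eq_true,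
      inOm_iff (Φ.M e) (Φ.hA e) (Φ.hK e), List.all_eq_true]
    simp only [mul_left, left_inl, left_inr, right_inl, mul_right, right_inr, map_one, mul_one,
      one_mul]
    refine and_congr Iff.rfl ?_
    rw [redPts, toWord_lmap (Φ.ptEq_iff e)]
    simp only [lmap, List.forall_mem_map]
    exact forall₂_congr fun x _ => inOrb_iff (Φ.M e) (Φ.hA e) (Φ.hK e) x.1

end Family

end Vale.Agent.P193.Dec
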