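import Vale.Agent.P193.Dec.W
import Vale.Agent.P193.C.WPeel
import Vale.Agent.P193.C.WPres

/-!
# P193, module Dec/Sigma, part in `W`: the edge group and the two linear sets

The tests are executable in the rules, the final point, the origin and the test for live points.
An element of the edge group is equal to the edge word of its letters, and the letters of a point of
a linear set are a prefix of the letters of any reduced form.
-/

namespace Vale.Agent.P193.Dec

open Multiplicative
open Vale.Agent.P193.C

variable {k : ℕ}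

/-- A rule as a tuple. -/
abbrev RuleT := ℕ × ℕ × ℕ × ℕ × ℤ × ℤ × ℤ × ℤ

/-- The rules, the final point and the origin. -/
abbrev Par := List RuleT × (ℤ × ℤ) × ℤ

/-- The data of a machine. -/
def parOf (M : Mach k) : Par :=
  (M.rules.map fun r => (r.M, r.N, r.M', r.N', r.a, r.b, r.c, r.d), M.final, M.origin)

/-- The moduli in the data. -/
def modsP (D : Par) : Rules := D.1.map fun r => ((r.1, r.2.1), (r.2.2.1, r.2.2.2.1))

theorem modsP_parOf (M : Mach k) : modsP (parOf M) = M.rules.map mods := by
  simp [modsP, parOf, mods, Function.comp_def]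

theorem computable_modsP : Computable modsP :=
  (Primrec.list_map Primrec.fst (Primrec.pair
    (Primrec.pair (Primrec.fst.comp Primrec.snd) (Primrec.fst.comp (Primrec.snd.comp Primrec.snd)))
    (Primrec.pair (Primrec.fst.comp (Primrec.snd.comp (Primrec.snd.comp Primrec.snd)))
      (Primrec.fst.comp
        (Primrec.snd.comp (Primrec.snd.comp (Primrec.snd.comp Primrec.snd)))))).to₂).to_comp

/-! ### Words of positions and edges -/

/-- A power of a generator. -/
def zw (i : ℕ) (z : ℤ) : Word ℕ := List.replicate z.natAbs (i, decide (0 ≤ z))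

/-- The word of a position. -/
def gword (g : GC k) : Word ℕ :=
  zw 0 g.1.1 ++ (zw 1 g.1.2 ++ g.2.map fun x => (2 + x.1.val, x.2))

/-- The two marked points of each letter, in the order of the codes. -/
def ends (k : ℕ) (D : Par) : List (GC k × GC k) :=
  (List.finRange k).map (fun i : Fin k => ((((0 : ℤ), (0 : ℤ)), []), (((i.val : ℤ) + 1, 0), [(i, true)]))) ++
    ((List.finRange k).map (fun i : Fin k => ((D.2.1, []), (D.2.1, [(i, true)]))) ++
      D.1.map fun r => (((r.2.2.2.2.1, r.2.2.2.2.2.1), []),
        ((r.2.2.2.2.2.2.1, r.2.2.2.2.2.2.2), [])))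

/-- The inverse edge of a generator. -/
def eSub (k : ℕ) (D : Par) (n : ℕ) : Word ℕ :=
  bif decide (n < 2 + k) then [] else
    ((ends k D)[n - (2 + k)]?).elim [] fun x =>
      FreeGroup.invRev (gword x.2) ++ (n, true) :: gword x.1

/-- The edge word of a word. -/
def eRet (k : ℕ) (D : Par) (w : Word ℕ) : Word ℕ := subst (eSub k D) w

/-- The loading letters of a word. -/
def qSub (k : ℕ) (n : ℕ) : Word ℕ :=
  bif decide (2 + k ≤ n ∧ n < 2 + k + k) then [(n, true)] else []

/-- The loading part of a word. -/
def qW (k : ℕ) (w : Word ℕ) : Word ℕ := subst (qSub k) w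

/-- The test for the edge group. -/
def inEE (k : ℕ) (D : Par) (w : Word ℕ) : Bool :=
  isOneW k (modsP D) (eRet k D w ++ FreeGroup.invRev w)

/-- The test for a point of a set times the edge group. -/
def inBase (D : Par) (I : GC k → Bool) (w : Word ℕ) : Bool :=
  let s : St k := redW (modsP D) (w ++ FreeGroup.invRev (eRet k D w))
  s.2.isEmpty && I s.1

/-- The letters of the reduced form. -/
def lettersW (k : ℕ) (D : Par) (w : Word ℕ) : Word ℕ :=
  (redW (k := k) (modsP D) w).2.map Prod.fst

/-- The word of a list of letters. -/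
def lwCode (k : ℕ) (s : Word ℕ) : Word ℕ := s.map fun x => (2 + k + x.1, x.2)

/-- The test for a linear set. -/
def inLin (D : Par) (S : ℕ → Bool) (I : GC k → Bool) (w : Word ℕ) : Bool :=
  (List.range ((lettersW k D w).length + 1)).any fun j =>
    ((lettersW k D w).take j).all (fun p => S p.1) &&
      inBase D I (FreeGroup.invRev (lwCode k ((lettersW k D w).take j)) ++ w)

/-- The first coordinate of a start. -/
def enc (l : List (Fin k)) : ℤ :=
  l.foldr (fun i v => v * ((C.base k : ℕ) : ℤ) + ((i.val + 1 : ℕ) : ℤ)) ((C.base k : ℤ) - 1)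

/-- The test for a start. -/
def isStart (D : Par) (g : GC k) : Bool :=
  (FreeGroup.reduce g.2).all Prod.snd &&
    decide (g.1 = (enc ((FreeGroup.reduce g.2).map Prod.fst), D.2.2))

/-- The test for `R Pf EE`. -/
def inRPf (k : ℕ) (D : Par) (lv : ℤ × ℤ → Bool) (w : Word ℕ) : Bool :=
  inLin (k := k) D (fun p => decide (k ≤ p)) (fun g => lv g.1) w

/-- The test for a start under the loading letters. -/
def inQP0 (k : ℕ) (D : Par) (w : Word ℕ) : Bool :=
  inLin (k := k) D (fun p => decide (p < k)) (isStart D) w

/-! ### Correctness -/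

variable (M : Mach k)

theorem sym_of_lt {n : ℕ} (h : n < (gens k).length) : sym M n = M.ofG (gev (gens k)[n].1) := by
  simp [sym, List.getElem?_eq_getElem h]

theorem sym_letter (p : ℕ) : sym M (2 + k + p) = ((lets M)[p]?).elim 1 M.tL := by
  have h : (gens k)[2 + k + p]? = none := by
    rw [List.getElem?_eq_none_iff, length_gens]; omega
  simp [sym, h]

theorem evalW_subst (φ : ℕ → Word ℕ) (f : M.W →* M.W)
    (h : ∀ n, evalW M (φ n) = f (sym M n)) (w : Word ℕ) : evalW M (subst φ w) = f (evalW M w) := by
  rw [evalW, evalW, mk_subst]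
  exact DFunLike.congr_fun
    (f := (FreeGroup.lift (sym M)).comp (FreeGroup.lift fun a => FreeGroup.mk (φ a)))
    (g := f.comp (FreeGroup.lift (sym M)))
    (FreeGroup.ext_hom _ _ fun n => by simpa [evalW] using h n) (FreeGroup.mk w)

theorem evalW_zw (i : ℕ) (z : ℤ) : evalW M (zw i z) = sym M i ^ z := by
  have h : ∀ (n : ℕ) (b : Bool),
      evalW M (List.replicate n (i, b)) = (cond b (sym M i) (sym M i)⁻¹) ^ n := by
    intro n b
    induction n with
    | zero => simp [evalW_nil]
    | succ n ih => rw [List.replicate_succ, evalW_cons, ih, pow_succ']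
  rw [zw, h]
  rcases le_or_gt 0 z with hz | hz
  · lift z to ℕ using hz
    simp
  · rw [decide_eq_false (by omega), cond_false, inv_pow, ← zpow_natCast,
      show (z.natAbs : ℤ) = -z by omega, zpow_neg, inv_inv]

theorem evalW_gword (g : GC k) : evalW M (gword g) = M.ofG (gev g) := by
  obtain ⟨⟨x, y⟩, v⟩ := g
  have h0 : sym M 0 = M.ofG (gev (((1 : ℤ), 0), [])) := by simp [sym, gens]
  have h1 : sym M 1 = M.ofG (gev (((0 : ℤ), 1), [])) := by simp [sym, gens]
  have h2 : ∀ u : Word (Fin k),
      evalW M (u.map fun x => (2 + x.1.val, x.2)) = M.ofG ((1, FreeGroup.mk u) : G0 k) := by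
    intro u
    induction u with
    | nil =>
      simp only [List.map_nil, evalW_nil, ← FreeGroup.one_eq_mk]
      exact (map_one M.ofG).symm
    | cons a u ih =>
      obtain ⟨i, b⟩ := a
      have hg : sym M (2 + i.val) = M.ofG ((1, FreeGroup.of i) : G0 k) := by
        have hz : ofAdd ((0 : ℤ), (0 : ℤ)) = 1 := rfl
        have hi : (gens k)[2 + i.val]? = some (((0, 0), [(i, true)]), ((0, 0), [(i, false)])) := by
          rw [gens, List.getElem?_append_right (by simp)]
          simp
        simp [sym, hi, gev, hz]
        rfl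
      rw [List.map_cons, evalW_cons, ih]
      simp only [hg]
      cases b
      · rw [cond_false, ← map_inv, ← map_mul]
        simp
        rfl
      · rw [cond_true, ← map_mul]
        simp
        rfl
  rw [gword, evalW_append, evalW_append, evalW_zw, evalW_zw, h2, h0, h1, ← map_zpow, ← map_zpow,
    ← map_mul, ← map_mul]
  congr 1
  refine Prod.ext (toAdd.injective (Prod.ext ?_ ?_)) ?_ <;> simp [gev, ← FreeGroup.one_eq_mk]

/-- The two marked points of a letter as codes. -/
def endsOf : M.Letter → GC k × GC k
  | .q i => (((0, 0), []), (((i : ℤ) + 1, 0), [(i, true)]))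
  | .e i => ((M.final, []), (M.final, [(i, true)]))
  | .rule i => ((((M.rules[i]).a, (M.rules[i]).b), []), (((M.rules[i]).c, (M.rules[i]).d), []))

theorem gev_endsOf (r : M.Letter) :
    gev (endsOf M r).1 = M.src r ∧ gev (endsOf M r).2 = M.tgt r := by
  have hz : ofAdd ((0 : ℤ), (0 : ℤ)) = 1 := rfl
  cases r <;> refine ⟨?_, ?_⟩ <;>
    simp [endsOf, gev, Mach.src, Mach.tgt, tau, ← FreeGroup.one_eq_mk, hz] <;> rfl

theorem ends_eq : ends k (parOf M) = (lets M).map (endsOf M) := by
  have hd : ∀ f : Move → GC k × GC k, M.rules.map f =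
      (List.finRange M.rules.length).map fun i => f M.rules[i] := fun f =>
    List.ext_getElem (by simp) fun i h1 h2 => by simp
  simp only [ends, parOf, lets, List.map_append, List.map_map, Function.comp_def, endsOf]
  rw [hd]

theorem edgeOf_sym (n : ℕ) : evalW M (eSub k (parOf M) n) = M.edgeOf (sym M n) := by
  unfold eSub
  rcases lt_or_ge n (2 + k) with hn | hn
  · rw [decide_eq_true hn, cond_true, sym_of_lt M (by rw [length_gens]; exact hn), evalW_nil]
    simp [Mach.edgeOf, Mach.ofG]
  · obtain ⟨p, rfl⟩ : ∃ p, n = 2 + k + p := ⟨n - (2 + k), by omega⟩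
    rw [decide_eq_false (by omega), cond_false, sym_letter, ends_eq, List.getElem?_map,
      show 2 + k + p - (2 + k) = p by omega]
    cases hr : (lets M)[p]? with
    | none => simp [evalW_nil]
    | some r =>
      simp only [Option.map_some, Option.elim_some]
      rw [evalW_append, evalW_invRev, evalW_cons, evalW_gword, evalW_gword, (gev_endsOf M r).1,
        (gev_endsOf M r).2, cond_true, sym_letter, hr]
      simp [Mach.edgeOf, Mach.tL, Mach.edge, mul_assoc]

theorem evalW_eRet (w : Word ℕ) : evalW M (eRet k (parOf M) w) = M.edgeOf (evalW M w) :=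
  evalW_subst M _ _ (edgeOf_sym M) w

theorem inEE_iff (w : Word ℕ) : inEE k (parOf M) w = true ↔ evalW M w ∈ M.EE := by
  rw [inEE, modsP_parOf, isOneW_iff, evalW_append, evalW_invRev, evalW_eRet, mul_inv_eq_one,
    ← M.mem_EE_iff]

theorem edgeOf_ofG (g : G0 k) : M.edgeOf (M.ofG g) = 1 := by simp [Mach.edgeOf, Mach.ofG]

theorem edgeOf_mem (x : M.W) : M.edgeOf x ∈ M.EE := by
  refine (Subgroup.closure_le (K := M.EE.comap (FreeGroup.lift fun r => (M.edge r)⁻¹))).2 ?_
    (show MHNN.toFree x ∈ Subgroup.closure (Set.range FreeGroup.of) by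
      rw [FreeGroup.closure_range_of]; trivial)
  rintro _ ⟨r, rfl⟩
  simpa [Mach.EE] using Subgroup.subset_closure (Set.mem_range_self r)

theorem inBase_iff {I : GC k → Bool} {J : Set (G0 k)} (hI : ∀ g, I g = true ↔ gev g ∈ J)
    (w : Word ℕ) : inBase (parOf M) I w = true ↔
      ∃ P ∈ J, (M.ofG P)⁻¹ * evalW M w ∈ M.EE := by
  have hy : evalW M (w ++ FreeGroup.invRev (eRet k (parOf M) w)) =
      evalW M w * (M.edgeOf (evalW M w))⁻¹ := by
    rw [evalW_append, evalW_invRev, evalW_eRet]
  obtain ⟨l, hl, hred, hv⟩ := good_redW M (w ++ FreeGroup.invRev (eRet k (parOf M) w))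
  rw [hy] at hv
  simp only [inBase, modsP_parOf, Bool.and_eq_true, List.isEmpty_iff, hI]
  constructor
  · rintro ⟨h1, h2⟩
    rw [h1, List.forall₂_nil_left_iff] at hl
    subst hl
    refine ⟨_, h2, ?_⟩
    rw [MHNN.wprod_nil, mul_one, mul_inv_eq_iff_eq_mul] at hv
    rw [hv, inv_mul_cancel_left]
    exact edgeOf_mem M _
  · rintro ⟨P, hP, he⟩
    have h := (M.mem_EE_iff _).1 he
    rw [map_mul, map_inv, edgeOf_ofG, inv_one, one_mul] at h
    rw [h, mul_inv_rev, inv_inv, mul_inv_cancel_left] at hv
    obtain rfl := MHNN.eq_nil_of_mem_range hred ⟨P, hv⟩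
    rw [MHNN.wprod_nil, mul_one] at hv
    exact ⟨List.forall₂_nil_right_iff.1 hl, MHNN.of_injective (φ := M.iso) hv ▸ hP⟩

theorem lin_iff_prefix {S : Set M.Letter} {J : Set (G0 k)} (hS : M.Stable S J) {h : G0 k}
    {l : List ((M.Letter × Bool) × G0 k)}
    (hl : MHNN.Red (fun r => (M.dom r).range) (fun r => (M.cod r).range) l) {z : M.W}
    (hz : z = M.ofG h * MHNN.wprod M.iso l) :
    z ∈ M.Lin S J ↔ ∃ j ≤ l.length, (∀ x ∈ (l.map Prod.fst).take j, x.1 ∈ S) ∧
      ∃ P ∈ J, (M.lw ((l.map Prod.fst).take j) * M.ofG P)⁻¹ * z ∈ M.EE := by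
  refine ⟨fun hm => ?_, fun ⟨j, _, hs, hP⟩ => ⟨_, hs, hP⟩⟩
  obtain ⟨h₁, l₁, hl₁, he⟩ := M.marked.exists_peeled z
  obtain ⟨k₀, es, hk₀, -, hes, e⟩ := M.marked.exists_rep he
  obtain ⟨h', l', hl', hv, hf⟩ := M.marked.exists_red_mul (h := h₁) hl₁ hk₀ hes
  rw [← e, mul_inv_cancel_left, hz] at hv
  have hfst : l.map Prod.fst = l₁.map Prod.fst ++ es.map Prod.fst :=
    (MHNN.map_fst_eq_of_prod_eq hl hl' hv.symm).trans hf
  rw [Mach.marked_EE] at he
  obtain ⟨hs, hP⟩ := (M.mem_Lin_iff hS hl₁ he).1 hm
  refine ⟨l₁.length, ?_, ?_⟩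
  · have := congrArg List.length hfst
    simp only [List.length_map, List.length_append] at this
    omega
  · rw [hfst, List.take_left' (by simp)]
    exact ⟨hs, hP⟩

theorem evalW_lwCode {s : Word ℕ} {L : List (M.Letter × Bool)}
    (h : List.Forall₂ (fun p x => (lets M)[p.1]? = some x.1 ∧ p.2 = x.2) s L) :
    evalW M (lwCode k s) = M.lw L := by
  induction h with
  | nil => simp [lwCode, evalW_nil]
  | @cons p x s L hp _ ih =>
    rw [M.lw_cons, ← ih, lwCode, List.map_cons, evalW_cons, sym_letter]
    simp only [hp.1, hp.2, Option.elim_some, lwCode]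
    congr 1
    obtain ⟨r, _ | _⟩ := x <;> simp [Mach.tL]

theorem inLin_iff {Sc : ℕ → Bool} {S : Set M.Letter} {I : GC k → Bool} {J : Set (G0 k)}
    (hSc : ∀ p r, (lets M)[p]? = some r → (Sc p = true ↔ r ∈ S))
    (hI : ∀ g, I g = true ↔ gev g ∈ J) (hS : M.Stable S J) (w : Word ℕ) :
    inLin (parOf M) Sc I w = true ↔ evalW M w ∈ M.Lin S J := by
  obtain ⟨l, hl, hred, hv⟩ := good_redW M w
  rw [lin_iff_prefix M hS hred hv]
  have hL : List.Forall₂ (fun p x => (lets M)[p.1]? = some x.1 ∧ p.2 = x.2)
      (lettersW k (parOf M) w) (l.map Prod.fst) := by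
    rw [lettersW, modsP_parOf, List.forall₂_map_left_iff, List.forall₂_map_right_iff]
    exact hl.imp fun _ _ h => ⟨h.1, h.2.1⟩
  have hlen : (lettersW k (parOf M) w).length = l.length := by simpa using hL.length_eq
  have hall : ∀ (s : Word ℕ) (L : List (M.Letter × Bool)),
      List.Forall₂ (fun p x => (lets M)[p.1]? = some x.1 ∧ p.2 = x.2) s L →
      ((∀ p ∈ s, Sc p.1 = true) ↔ ∀ x ∈ L, x.1 ∈ S) := by
    intro s L h
    induction h with
    | nil => simp
    | cons hp _ ih => simp only [List.forall_mem_cons, hSc _ _ hp.1, ih]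
  simp only [inLin, List.any_eq_true, List.mem_range, Bool.and_eq_true, List.all_eq_true,
    inBase_iff M hI, hlen, Nat.lt_succ_iff, evalW_append, evalW_invRev]
  refine exists_congr fun j => and_congr_right fun _ => ?_
  rw [hall _ _ (List.forall₂_take j hL), evalW_lwCode M (List.forall₂_take j hL)]
  simp only [mul_inv_rev, mul_assoc]

theorem enc_eq (l : List (Fin k)) : enc l = encode l := by
  induction l with
  | nil => rfl
  | cons i l ih =>
    simp only [enc, List.foldr_cons] at ih ⊢
    rw [ih, encode]
    push_cast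
    ring

theorem val_eq_mk' (l : List (Fin k)) : val l = FreeGroup.mk (l.map fun i => (i, true)) := by
  induction l with
  | nil => simp [val, ← FreeGroup.one_eq_mk]
  | cons i l ih =>
    simp only [val, List.map_cons, List.prod_cons] at ih ⊢
    rw [ih]
    rfl

theorem toWord_val (l : List (Fin k)) : (val l).toWord = l.map fun i => (i, true) := by
  rw [val_eq_mk', FreeGroup.toWord_mk]
  refine FreeGroup.IsReduced.reduce_eq ?_
  induction l with
  | nil => simp
  | cons i l ih =>
    cases l with
    | nil => simp
    | cons j l => exact FreeGroup.isReduced_cons_cons.2 ⟨fun _ => rfl, ih⟩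

theorem isStart_iff (g : GC k) : isStart (parOf M) g = true ↔ gev g ∈ M.startSet := by
  simp only [isStart, Bool.and_eq_true, List.all_eq_true, decide_eq_true_iff, parOf, enc_eq]
  constructor
  · rintro ⟨h1, h2⟩
    refine ⟨(FreeGroup.reduce g.2).map Prod.fst, ?_⟩
    rw [gev, h2, Mach.start, tau, val_eq_mk', List.map_map]
    refine Prod.ext rfl ?_
    rw [← FreeGroup.reduce.self (L := g.2)]
    refine congrArg FreeGroup.mk ?_
    conv_rhs => rw [← List.map_id (FreeGroup.reduce g.2)]
    exact List.map_congr_left fun p hp => Prod.ext rfl (h1 p hp).symm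
  · rintro ⟨v, hv⟩
    obtain ⟨h1, h2⟩ := Prod.ext_iff.1 hv
    have hr : FreeGroup.reduce g.2 = v.map fun i => (i, true) := by
      rw [← toWord_val, ← FreeGroup.toWord_mk]
      exact congrArg FreeGroup.toWord h2.symm
    refine ⟨fun p hp => ?_, ?_⟩
    · rw [hr, List.mem_map] at hp
      obtain ⟨i, -, rfl⟩ := hp
      rfl
    · rw [hr, List.map_map]
      simpa [Function.comp_def] using (ofAdd.injective h1).symm

theorem inRPf_iff (w : Word ℕ) : inRPf k (parOf M) M.live w = true ↔
    ∃ ρ ∈ M.R, (ρ * M.ofG M.Pf)⁻¹ * evalW M w ∈ M.EE := by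
  rw [M.rPf_iff]
  exact inLin_iff M (fun p r h => by simp [Mach.rSet, isR_iff M h]) (fun g => Iff.rfl) M.stable_live w

theorem inQP0_iff (w : Word ℕ) : inQP0 k (parOf M) w = true ↔
    ∃ u, (M.q u * M.ofG M.P0)⁻¹ * evalW M w ∈ M.EE := by
  rw [M.qP0_iff]
  refine inLin_iff M (fun p r h => ?_) (isStart_iff M) M.stable_start w
  have h' := isR_iff M h
  rw [decide_eq_true_iff, ← not_le, ← h']
  cases r <;> simp [Mach.qSet, Mach.isR]

theorem evalW_qW (w : Word ℕ) : evalW M (qW k w) = M.q (M.qRetr (evalW M w)) := by
  refine evalW_subst M _ (M.q.comp M.qRetr) (fun n => ?_) w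
  simp only [qSub, MonoidHom.comp_apply]
  rcases lt_or_ge n (2 + k) with hn | hn
  · rw [decide_eq_false (by omega), cond_false, sym_of_lt M (by rw [length_gens]; exact hn),
      evalW_nil]
    simp [Mach.qRetr, Mach.ofG]
  · obtain ⟨p, rfl⟩ : ∃ p, n = 2 + k + p := ⟨n - (2 + k), by omega⟩
    rw [sym_letter]
    cases hr : (lets M)[p]? with
    | none =>
      have hp : ¬ p < k := fun hp => by
        simp [lets, List.getElem?_append_left, hp] at hr
      rw [decide_eq_false (by omega), cond_false, evalW_nil]
      simp
    | some r =>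
      have h' := isR_iff M hr
      rcases lt_or_ge p k with hp | hp
      · rw [decide_eq_true (by omega), cond_true, evalW_cons, cond_true, sym_letter, hr, evalW_nil]
        cases r with
        | q i => simp [Mach.qRetr, Mach.q]
        | e i => exact absurd (h'.1 trivial) (by omega)
        | rule i => exact absurd (h'.1 trivial) (by omega)
      · rw [decide_eq_false (by omega), cond_false, evalW_nil]
        cases r with
        | q i => exact absurd (h'.2 hp) id
        | e i => simp [Mach.qRetr]
        | rule i => simp [Mach.qRetr]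


/-! ### Computability -/

theorem primrec_zw : Primrec₂ zw := by
  have hs : Primrec fun z : ℤ => decide (0 ≤ z) :=
    Machine.int_cases Primrec.id (Primrec.const true).to₂ (Primrec.const false).to₂
      (fun a n h => by simp_all) (fun a n h => by simp_all)
  refine (Primrec.list_map (Primrec.list_range.comp (Machine.int_natAbs.comp Primrec.snd))
    (Primrec.pair (Primrec.fst.comp Primrec.fst)
      (hs.comp (Primrec.snd.comp Primrec.fst))).to₂).to₂.of_eq fun i z => ?_
  exact List.ext_getElem (by simp [zw]) fun j h1 h2 => by simp [zw]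

theorem primrec_gword : Primrec (gword : GC k → Word ℕ) :=
  Primrec.list_append.comp
    (primrec_zw.comp (Primrec.const 0) (Primrec.fst.comp Primrec.fst))
    (Primrec.list_append.comp
      (primrec_zw.comp (Primrec.const 1) (Primrec.snd.comp Primrec.fst))
      (Primrec.list_map Primrec.snd
        (Primrec.pair
          (Primrec.nat_add.comp (Primrec.const 2)
            (Primrec.fin_val.comp (Primrec.fst.comp Primrec.snd)))
          (Primrec.snd.comp Primrec.snd)).to₂))

theorem primrec_ends : Primrec (ends k) := by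
  refine Primrec.list_append.comp (Primrec.const _) (Primrec.list_append.comp
    (Primrec.list_map (Primrec.const _) ?_) (Primrec.list_map Primrec.fst ?_))
  · exact (Primrec.pair
      (Primrec.pair (Primrec.fst.comp (Primrec.snd.comp Primrec.fst)) (Primrec.const []))
      (Primrec.pair (Primrec.fst.comp (Primrec.snd.comp Primrec.fst))
        (Primrec.list_cons.comp (Primrec.pair Primrec.snd (Primrec.const true))
          (Primrec.const [])))).to₂
  · have h4 : Primrec fun p : Par × RuleT => p.2.2.2.2.2 :=
      Primrec.snd.comp (Primrec.snd.comp (Primrec.snd.comp (Primrec.snd.comp Primrec.snd)))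
    exact (Primrec.pair
      (Primrec.pair (Primrec.pair (Primrec.fst.comp h4) (Primrec.fst.comp (Primrec.snd.comp h4)))
        (Primrec.const []))
      (Primrec.pair
        (Primrec.pair (Primrec.fst.comp (Primrec.snd.comp (Primrec.snd.comp h4)))
          (Primrec.snd.comp (Primrec.snd.comp (Primrec.snd.comp h4))))
        (Primrec.const []))).to₂

theorem computable_eSub : Computable₂ (eSub k) := by
  have hn : Primrec fun p : Par × ℕ => p.2 := Primrec.snd
  refine ((Primrec.cond (Primrec.nat_lt.comp hn (Primrec.const (2 + k))).decide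
    (Primrec.const [])
    ((Primrec.option_casesOn
      (Primrec.list_getElem?.comp ((primrec_ends (k := k)).comp Primrec.fst)
        (Primrec.nat_sub.comp hn (Primrec.const (2 + k))))
      (Primrec.const [])
      (Primrec.list_append.comp
        (primrec_invRev.comp (primrec_gword.comp (Primrec.snd.comp Primrec.snd)))
        (Primrec.list_cons.comp (Primrec.pair (hn.comp Primrec.fst) (Primrec.const true))
          (primrec_gword.comp (Primrec.fst.comp Primrec.snd)))).to₂))).to_comp.to₂).of_eq
    fun p => ?_
  unfold eSub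
  cases h : (ends k p.1)[p.2 - (2 + k)]? <;> simp [h]

variable {σ : Type*} [Primcodable σ] {fD : σ → Par} {fw : σ → Word ℕ}

theorem computable_eRet (hD : Computable fD) (hw : Computable fw) :
    Computable fun a => eRet k (fD a) (fw a) :=
  computable_subst (φ := fun a => eSub k (fD a))
    ((computable_eSub (k := k)).comp (hD.comp Computable.fst) Computable.snd).to₂ hw

theorem computable_qW (hw : Computable fw) : Computable fun a => qW k (fw a) := by
  refine computable_subst (φ := fun _ : σ => qSub k) ?_ hw
  have h : Primrec (qSub k) :=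
    Primrec.cond ((Primrec.nat_le.comp (Primrec.const (2 + k)) Primrec.id).and
      (Primrec.nat_lt.comp Primrec.id (Primrec.const (2 + k + k)))).decide
      (Primrec.list_cons.comp (Primrec.pair Primrec.id (Primrec.const true)) (Primrec.const []))
      (Primrec.const [])
  exact (h.to_comp.comp Computable.snd).to₂

theorem computable_inEE (hD : Computable fD) (hw : Computable fw) :
    Computable fun a => inEE k (fD a) (fw a) :=
  primrec_isOneW.to_comp.comp (computable_modsP.comp hD)
    (Computable.list_append.comp (computable_eRet hD hw) (primrec_invRev.to_comp.comp hw))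

theorem primrec_isEmpty {α : Type*} [Primcodable α] :
    Primrec fun l : List α => l.isEmpty :=
  (Primrec.eq.comp Primrec.list_length (Primrec.const 0)).decide.of_eq fun l => by
    cases l <;> simp

theorem computable_inBase {fI : σ → GC k → Bool} (hD : Computable fD) (hI : Computable₂ fI)
    (hw : Computable fw) : Computable fun a => inBase (fD a) (fI a) (fw a) := by
  have hs : Computable fun a =>
      redW (k := k) (modsP (fD a)) (fw a ++ FreeGroup.invRev (eRet k (fD a) (fw a))) :=
    primrec_redW.to_comp.comp (computable_modsP.comp hD)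
      (Computable.list_append.comp hw (primrec_invRev.to_comp.comp (computable_eRet hD hw)))
  exact Primrec.and.to_comp.comp (primrec_isEmpty.to_comp.comp (Computable.snd.comp hs))
    (hI.comp Computable.id (Computable.fst.comp hs))

theorem computable_inLin {fS : σ → ℕ → Bool} {fI : σ → GC k → Bool} (hD : Computable fD)
    (hS : Computable₂ fS) (hI : Computable₂ fI) (hw : Computable fw) :
    Computable fun a => inLin (fD a) (fS a) (fI a) (fw a) := by
  have hr : Computable fun a => (redW (k := k) (modsP (fD a)) (fw a)).2 :=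
    Computable.snd.comp (primrec_redW.to_comp.comp (computable_modsP.comp hD) hw)
  have hl : Computable fun a => lettersW k (fD a) (fw a) :=
    computable_map (g := fun (_ : σ) (x : (ℕ × Bool) × GC k) => x.1) hr
      (Computable.fst.comp Computable.snd).to₂
  have hp : Computable fun q : σ × ℕ => (lettersW k (fD q.1) (fw q.1)).take q.2 :=
    Primrec.list_take.to_comp.comp Computable.snd (hl.comp Computable.fst)
  have hlw : Primrec (lwCode k) :=
    Primrec.list_map Primrec.id (Primrec.pair
      (Primrec.nat_add.comp (Primrec.const (2 + k)) (Primrec.fst.comp Primrec.snd))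
      (Primrec.snd.comp Primrec.snd)).to₂
  have hw' : Computable fun q : σ × ℕ =>
      FreeGroup.invRev (lwCode k ((lettersW k (fD q.1) (fw q.1)).take q.2)) ++ fw q.1 :=
    Computable.list_append.comp (primrec_invRev.to_comp.comp (hlw.to_comp.comp hp))
      (hw.comp Computable.fst)
  have hA : Computable fun q : σ × ℕ =>
      ((lettersW k (fD q.1) (fw q.1)).take q.2).all fun p => fS q.1 p.1 :=
    computable_all (g := fun (q : σ × ℕ) (p : ℕ × Bool) => fS q.1 p.1) hp
      (hS.comp (Computable.fst.comp Computable.fst) (Computable.fst.comp Computable.snd)).to₂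
  have hI' : Computable₂ fun (q : σ × ℕ) (g : GC k) => fI q.1 g :=
    (hI.comp (Computable.fst.comp Computable.fst) Computable.snd).to₂
  have hB := computable_inBase (hD.comp (Computable.fst (α := σ) (β := ℕ))) hI' hw'
  have hrange : Computable fun a => List.range ((lettersW k (fD a) (fw a)).length + 1) :=
    Primrec.list_range.to_comp.comp (Computable.succ.comp (Computable.list_length.comp hl))
  exact computable_any (g := fun a j =>
    ((lettersW k (fD a) (fw a)).take j).all (fun p => fS a p.1) &&
      inBase (fD a) (fI a) (FreeGroup.invRev (lwCode k ((lettersW k (fD a) (fw a)).take j)) ++ fw a))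
    hrange (Primrec.and.to_comp.comp hA hB).to₂

theorem primrec_enc : Primrec (enc : List (Fin k) → ℤ) :=
  Primrec.list_foldr Primrec.id (Primrec.const _)
    (primrec_int_add.comp
      (Machine.int_mul_nat.comp (Primrec.snd.comp Primrec.snd) (Primrec.const (C.base k)))
      (Machine.int_ofNat.comp
        (Primrec.succ.comp (Primrec.fin_val.comp (Primrec.fst.comp Primrec.snd))))).to₂

theorem computable_isStart : Computable₂ (isStart (k := k)) := by
  have hr : Computable fun p : Par × GC k => FreeGroup.reduce p.2.2 :=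
    primrec_reduce.to_comp.comp (Computable.snd.comp Computable.snd)
  have hall : Computable fun p : Par × GC k => (FreeGroup.reduce p.2.2).all Prod.snd :=
    computable_all (g := fun (_ : Par × GC k) (x : Fin k × Bool) => x.2) hr
      (Computable.snd.comp Computable.snd).to₂
  have hm : Computable fun p : Par × GC k => (FreeGroup.reduce p.2.2).map Prod.fst :=
    computable_map (g := fun (_ : Par × GC k) (x : Fin k × Bool) => x.1) hr
      (Computable.fst.comp Computable.snd).to₂
  have hen : Computable fun p : Par × GC k => enc ((FreeGroup.reduce p.2.2).map Prod.fst) :=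
    (primrec_enc (k := k)).to_comp.comp hm
  have ho : Computable fun p : Par × GC k => p.1.2.2 :=
    Computable.snd.comp (Computable.snd.comp Computable.fst)
  have hx : Computable fun p : Par × GC k => p.2.1 := Computable.fst.comp Computable.snd
  obtain ⟨f, hf, hspec⟩ := exists_bool_of_computablePred
    (computablePred_eq hx (hen.pair ho))
  have hc : Computable fun p : Par × GC k => (FreeGroup.reduce p.2.2).all Prod.snd && f p :=
    Primrec.and.to_comp.comp hall hf
  show Computable fun p : Par × GC k => isStart p.1 p.2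
  refine Computable.of_eq hc fun p => ?_
  have h : f p = decide (p.2.1 = (enc ((FreeGroup.reduce p.2.2).map Prod.fst), p.1.2.2)) := by
    rw [Bool.eq_iff_iff, decide_eq_true_iff, hspec p]
  rw [h]
  rfl

theorem computable_inRPf {fl : σ → ℤ × ℤ → Bool} (hD : Computable fD) (hl : Computable₂ fl)
    (hw : Computable fw) : Computable fun a => inRPf k (fD a) (fl a) (fw a) :=
  computable_inLin hD
    ((Primrec.nat_le.comp (Primrec.const k) Primrec.snd).decide.to_comp.to₂)
    (hl.comp Computable.fst (Computable.fst.comp Computable.snd)).to₂ hw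

theorem computable_inQP0 (hD : Computable fD) (hw : Computable fw) :
    Computable fun a => inQP0 k (fD a) (fw a) :=
  computable_inLin hD
    ((Primrec.nat_lt.comp Primrec.snd (Primrec.const k)).decide.to_comp.to₂)
    (computable_isStart.comp (hD.comp Computable.fst) Computable.snd).to₂ hw

end Vale.Agent.P193.Dec
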