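import Vale.Agent.P193.Dec.Table
import Vale.Agent.P193.Dec.Acc
import Vale.Agent.P193.Dec.Code
import Vale.Agent.P193.B.Slots
import Vale.Agent.P193.B.ReadMono
import Vale.Agent.P193.Final.GData

/-!
# P193, part D: the decider of `L` and of `E ≤ L` for a program

One recursion on the length gives, for a word, whether it is `1` in `L` and whether it lies in `E`;
the queries to `K` and to membership in `X₀` use only shorter words.
-/

namespace Vale.Agent.P193.Dec.Fix

open B B.Reduce

/-- The alphabet. -/
abbrev Let := WordL.Gen × Bool

/-- The signed letters. -/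
def letters : List Let :=
  [false, true].flatMap fun p => [false, true].flatMap fun b =>
    [B.Letter.a, .b, .e].flatMap fun l => [((p, b, l), false), ((p, b, l), true)]

theorem mem_letters : ∀ a : Let, a ∈ letters := by decide

/-- The `j`-th coded word of `K`. -/
def kw (j : ℕ) : Raw ℕ :=
  ((Encodable.decode j : Option (List (ℕ × Bool))).getD []).take (j + 1)

theorem length_kw_le (j : ℕ) : (kw j).length ≤ j + 1 := by
  simp [kw]

theorem length_le_encode {α : Type} [Encodable α] : ∀ l : List α, l.length ≤ Encodable.encode l
  | [] => Nat.zero_le _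
  | a :: l => by
    rw [Encodable.encode_list_cons, List.length_cons]
    exact Nat.succ_le_succ (le_trans (length_le_encode l) (Nat.right_le_pair _ _))

theorem exists_kw (l : Raw ℕ) : ∃ j, kw j = l := by
  refine ⟨Encodable.encode (l : List (ℕ × Bool)), ?_⟩
  rw [kw, Encodable.encodek, Option.getD_some, List.take_of_length_le]
  exact (length_le_encode l).trans (Nat.le_succ _)

variable {acc : ℕ → List (Fin nL) → Bool} {Φ : Family acc} (S : Φ.KSolver) {G : Type} [Group G]
  (Gd : GData G)

/-- The multiplier of the long words: it beats every linear bound used below. -/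
@[irreducible] def mult : ℕ := 100 * (S.C + 1)

/-- The word problem of `K` from an oracle. -/
def oneKO (e : ℕ) (O : GWord → Bool × Bool) (x : Raw ℕ) : Bool :=
  S.one e (fun l => (O l).1) x

/-- The test of membership in `X₀` from an oracle, used only up to its canonical length. -/
def testO (e : ℕ) (O : GWord → Bool × Bool) (x : Raw ℕ) : Bool :=
  (S.back e (fun l => (Table.guardLt (S.C * x.length + 1) O l).1) x).elim false
    fun l => (Table.guardLt (S.C * x.length + 1) O l).2

/-- The answer `k_j ∉ X₀`. -/
def inJO (e : ℕ) (O : GWord → Bool × Bool) (j : ℕ) : Bool := !testO S e O (kw j)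

/-- The slot predicate. -/
def slotJ (e : ℕ) (O : GWord → Bool × Bool) (j s : ℕ) : Bool := decide (s = 0) && inJO S e O j

/-- The word problem of `D` from an oracle. -/
def oneDO (e : ℕ) (O : GWord → Bool × Bool) (v : Raw Slots.T) : Bool :=
  DWord.oneD (oneKO S e O) Gd.oneG v

/-- Membership in `X` from an oracle. -/
def memDO (e : ℕ) (O : GWord → Bool × Bool) (v : Raw Slots.T) : Bool :=
  DWord.memD (testO S e O) (inJO S e O) kw (oneKO S e O) Gd.oneG v

/-- One step of the recursion. -/
def step (e : ℕ) (O : GWord → Bool × Bool) (w : GWord) : Bool × Bool :=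
  (WordL.oneL (mult S) (Slots.de₁ (slotJ S e O) kw) Slots.de₂ (oneDO S Gd e O) w,
    WordL.inE (mult S) (Slots.de₁ (slotJ S e O) kw) Slots.de₂ (oneDO S Gd e O)
      (memDO S Gd e O) w)

/-- The decider. -/
@[irreducible] def dec (e : ℕ) : GWord → Bool × Bool := Table.value letters (step S Gd) e

theorem dec_eq (e : ℕ) (w : GWord) :
    dec S Gd e w = step S Gd e (Table.guardLt w.length (dec S Gd e)) w := by
  unfold dec
  exact Table.value_eq mem_letters e w

theorem dec_nil (e : ℕ) : dec S Gd e [] = (true, true) := by
  rw [dec_eq]
  rfl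

theorem guardLt_eq {n : ℕ} {O : GWord → Bool × Bool} {l : GWord} (h : l.length < n) :
    Table.guardLt n O l = O l := if_pos h

theorem testO_guard {e n : ℕ} (O : GWord → Bool × Bool) {x : Raw ℕ}
    (h : S.C * x.length + 1 ≤ n) : testO S e (Table.guardLt n O) x = testO S e O x := by
  have : Table.guardLt (S.C * x.length + 1) (Table.guardLt n O) =
      Table.guardLt (S.C * x.length + 1) O :=
    Table.guardLt_congr fun l hl => guardLt_eq (lt_of_lt_of_le hl h)
  simp only [testO, this]

end Vale.Agent.P193.Dec.Fix
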