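import Vale.Agent.P193.Dec.StepPrim

/-!
# P193, part D: the step is computable in the program and the oracle
-/

namespace Vale.Agent.P193.Dec.Fix

open B B.Reduce

section Generic

variable {T : Type}

/-- `settle` as a loop over the stack: a flag, the moving syllable, the untouched part. -/
def settleStep (dc : Raw B.Letter → Option (Raw ℕ)) (one : Raw T → Bool) (exp : Raw ℕ → Raw T)
    (p : Bool × Syl T × List (Syl T)) (t : Syl T) : Bool × Syl T × List (Syl T) :=
  cond p.1 (true, p.2.1, p.2.2 ++ [t])
    ((conv dc one exp p.2.1).elim (true, p.2.1, [t]) fun s' => (false, merge t s', []))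

theorem settle_eq (dc : Raw B.Letter → Option (Raw ℕ)) (one : Raw T → Bool) (exp : Raw ℕ → Raw T) :
    ∀ (st : List (Syl T)) (s : Syl T),
      settle dc one exp s st =
        (st.foldl (settleStep dc one exp) (false, s, [])).2.1 ::
          (st.foldl (settleStep dc one exp) (false, s, [])).2.2 := by
  have hdone : ∀ (st : List (Syl T)) (s : Syl T) (out : List (Syl T)),
      st.foldl (settleStep dc one exp) (true, s, out) = (true, s, out ++ st) := by
    intro st
    induction st with
    | nil => simp
    | cons t st ih => intro s out; simp [settleStep, ih]
  intro st
  induction st with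
  | nil => intro s; simp [settle]
  | cons t st ih =>
    intro s
    cases hc : conv dc one exp s with
    | none => simp [settle, settleStep, hc, hdone]
    | some s' => simp [settle, settleStep, hc, ih]

variable {σ : Type} [Primcodable σ] [Primcodable T] {dc : Raw B.Letter → Option (Raw ℕ)}
  {one : σ → Raw T → Bool} {exp : σ → Raw ℕ → Raw T}
  (hd : Computable dc) (ho : Computable₂ one) (he : Computable₂ exp)

include hd ho he in
theorem computable_conv {fs : σ → Syl T} (hs : Computable fs) :
    Computable fun x => conv dc (one x) (exp x) (fs x) := by
  have hu : Computable fun x => (fs x).2.2 := Computable.snd.comp (Computable.snd.comp hs)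
  have hexp : Computable fun q : σ × Raw ℕ => exp q.1 q.2 :=
    he.comp Computable.fst Computable.snd
  have hu' : Computable fun q : σ × Raw ℕ => (fs q.1).2.2 := hu.comp Computable.fst
  refine (Computable.option_bind (hd.comp hu) ((Computable.cond
    ((Computable.fst.comp hs).comp Computable.fst)
    (Computable.option_some.comp ((Computable.const false).pair (hexp.pair hu')))
    (Computable.cond
      (ho.comp Computable.fst (Computable.list_append.comp
        ((Computable.fst.comp (Computable.snd.comp hs)).comp Computable.fst)
        (primrec_invRev.to_comp.comp hexp)))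
      (Computable.option_some.comp ((Computable.const true).pair
        ((Computable.const ([] : Raw T)).pair hu')))
      (Computable.const none))).to₂)).of_eq fun x => ?_
  unfold conv
  cases dc (fs x).2.2 with
  | none => rfl
  | some q => simp [Bool.cond_eq_ite]

omit [Primcodable σ] in
theorem computable_merge {τ : Type} [Primcodable τ] {ft fs : τ → Syl T} (ht : Computable ft)
    (hs : Computable fs) : Computable fun x => merge (ft x) (fs x) :=
  (Computable.fst.comp ht).pair
    ((Computable.list_append.comp (Computable.fst.comp (Computable.snd.comp ht))
        (Computable.fst.comp (Computable.snd.comp hs))).pair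
      (Computable.list_append.comp (Computable.snd.comp (Computable.snd.comp ht))
        (Computable.snd.comp (Computable.snd.comp hs))))

include hd ho he in
theorem computable_settle {fs : σ → Syl T} {fst' : σ → List (Syl T)} (hs : Computable fs)
    (hst : Computable fst') :
    Computable fun x => settle dc (one x) (exp x) (fs x) (fst' x) := by
  let τ := σ × (Bool × Syl T × List (Syl T)) × Syl T
  have hp : Computable fun q : τ => q.2.1 := Computable.fst.comp Computable.snd
  have ht : Computable fun q : τ => q.2.2 := Computable.snd.comp Computable.snd
  have hcur : Computable fun q : τ => q.2.1.2.1 :=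
    Computable.fst.comp (Computable.snd.comp hp)
  have hcv : Computable fun q : τ => conv dc (one q.1) (exp q.1) q.2.1.2.1 :=
    computable_conv (one := fun (q : τ) => one q.1) (exp := fun (q : τ) => exp q.1) hd
      ((ho.comp (Computable.fst.comp Computable.fst) Computable.snd).to₂)
      ((he.comp (Computable.fst.comp Computable.fst) Computable.snd).to₂) hcur
  have hbody : Computable₂ fun (x : σ) (p : (Bool × Syl T × List (Syl T)) × Syl T) =>
      settleStep dc (one x) (exp x) p.1 p.2 := by
    show Computable fun q : τ => settleStep dc (one q.1) (exp q.1) q.2.1 q.2.2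
    refine (Computable.cond (Computable.fst.comp hp)
      ((Computable.const true).pair (hcur.pair (Computable.list_append.comp
        (Computable.snd.comp (Computable.snd.comp hp))
        (Computable.list_cons.comp ht (Computable.const [])))))
      (Computable.option_casesOn hcv
        ((Computable.const true).pair (hcur.pair
          (Computable.list_cons.comp ht (Computable.const []))))
        (((Computable.const false).pair ((computable_merge (ht.comp Computable.fst)
          Computable.snd).pair (Computable.const []))).to₂))).of_eq fun q => ?_
    unfold settleStep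
    cases conv dc (one q.1) (exp q.1) q.2.1.2.1 <;> rfl
  have hfold : Computable fun x => (fst' x).foldl
      (fun p t => settleStep dc (one x) (exp x) p t) (false, fs x, []) :=
    computable_foldl (h := fun x p => settleStep dc (one x) (exp x) p.1 p.2) hst
      ((Computable.const false).pair (hs.pair (Computable.const []))) hbody
  exact (Computable.list_cons.comp (Computable.fst.comp (Computable.snd.comp hfold))
    (Computable.snd.comp (Computable.snd.comp hfold))).of_eq fun x =>
      (settle_eq dc (one x) (exp x) (fst' x) (fs x)).symm

include hd ho he in
theorem computable_push {fs : σ → Syl T} {fst' : σ → List (Syl T)} (hst : Computable fst')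
    (hs : Computable fs) : Computable fun x => Reduce.push dc (one x) (exp x) (fst' x) (fs x) := by
  let τ := σ × Syl T × List (Syl T)
  have ht : Computable fun q : τ => q.2.1 := Computable.fst.comp Computable.snd
  have hr : Computable fun q : τ => q.2.2 := Computable.snd.comp Computable.snd
  have hs' : Computable fun q : τ => fs q.1 := hs.comp Computable.fst
  have ho' : Computable₂ fun (q : τ) v => one q.1 v :=
    (ho.comp (Computable.fst.comp Computable.fst) Computable.snd).to₂
  have he' : Computable₂ fun (q : τ) v => exp q.1 v :=
    (he.comp (Computable.fst.comp Computable.fst) Computable.snd).to₂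
  have hmain : Computable fun q : τ =>
      cond (q.2.1.1 == (fs q.1).1) (settle dc (one q.1) (exp q.1) (merge q.2.1 (fs q.1)) q.2.2)
        (cond (q.2.2.isEmpty)
          ((conv dc (one q.1) (exp q.1) q.2.1).elim
            (settle dc (one q.1) (exp q.1) (fs q.1) (q.2.1 :: q.2.2))
            fun t' => [merge t' (fs q.1)])
          (settle dc (one q.1) (exp q.1) (fs q.1) (q.2.1 :: q.2.2))) := by
    have hrest := computable_settle hd ho' he' hs' (Computable.list_cons.comp ht hr)
    refine Computable.cond ((Primrec.beq (α := Bool)).to_comp.comp (Computable.fst.comp ht)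
      (Computable.fst.comp hs'))
      (computable_settle hd ho' he' (computable_merge ht hs') hr)
      (Computable.cond ?_ ((Computable.option_casesOn (computable_conv hd ho' he' ht) hrest
        ((Computable.list_cons.comp (computable_merge Computable.snd (hs'.comp Computable.fst))
          (Computable.const [])).to₂)).of_eq fun q => ?_) hrest)
    · exact ((Primrec.eq.decide.to_comp.comp (Computable.list_length.comp hr)
        (Computable.const 0))).of_eq fun q => by cases q.2.2 <;> simp
    · cases conv dc (one q.1) (exp q.1) q.2.1 <;> rfl
  refine (Graph.computable_listCases hst (Computable.list_cons.comp hs (Computable.const []))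
    hmain.to₂).of_eq fun x => ?_
  cases hh : fst' x with
  | nil => rfl
  | cons t st =>
    simp only [Reduce.push]
    cases hb : ((t.1 == (fs x).1) : Bool) with
    | true => rw [if_pos (by simpa using hb)]; rfl
    | false =>
      rw [if_neg (by simpa using hb)]
      cases st with
      | nil => cases conv dc (one x) (exp x) t <;> rfl
      | cons r st => cases conv dc (one x) (exp x) t <;> rfl

include hd ho he in
theorem computable_run {fw : σ → List (Syl T)} (hw : Computable fw) :
    Computable fun x => run dc (one x) (exp x) (fw x) := by
  refine computable_foldl (h := fun x p => Reduce.push dc (one x) (exp x) p.1 p.2) hw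
    (Computable.const []) ?_
  show Computable fun q : σ × List (Syl T) × Syl T => Reduce.push dc (one q.1) (exp q.1) q.2.1 q.2.2
  exact computable_push (one := fun (q : σ × List (Syl T) × Syl T) => one q.1)
    (exp := fun (q : σ × List (Syl T) × Syl T) => exp q.1) hd
    ((ho.comp (Computable.fst.comp Computable.fst) Computable.snd).to₂)
    ((he.comp (Computable.fst.comp Computable.fst) Computable.snd).to₂)
    (Computable.fst.comp Computable.snd) (Computable.snd.comp Computable.snd)

include ho in
theorem computable_isOne {fst' : σ → List (Syl T)} (hst : Computable fst') :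
    Computable fun x => isOne (one x) (fst' x) := by
  let τ := σ × Syl T × List (Syl T)
  have ht : Computable fun q : τ => q.2.1 := Computable.fst.comp Computable.snd
  have hbody : Computable fun q : τ => cond (q.2.2.isEmpty)
      ((q.2.1.1 || one q.1 q.2.1.2.1) && (FreeGroup.reduce q.2.1.2.2).isEmpty) false := by
    have hemp : ∀ {β : Type} [Primcodable β], Computable fun l : List β => l.isEmpty := fun {β} _ =>
      ((Primrec.eq.comp Primrec.list_length (Primrec.const 0)).decide.to_comp).of_eq fun l => by
        cases l <;> simp
    exact Computable.cond (hemp.comp (Computable.snd.comp Computable.snd))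
      (Primrec.and.to_comp.comp
        (Primrec.or.to_comp.comp (Computable.fst.comp ht)
          (ho.comp Computable.fst (Computable.fst.comp (Computable.snd.comp ht))))
        (hemp.comp ((primrec_reduce (α := B.Letter)).to_comp.comp
          (Computable.snd.comp (Computable.snd.comp ht)))))
      (Computable.const false)
  refine (Graph.computable_listCases hst (Computable.const true) hbody.to₂).of_eq fun x => ?_
  rcases fst' x with _ | ⟨t, _ | ⟨r, st⟩⟩ <;> rfl

end Generic

theorem computable_isEmpty {β : Type} [Primcodable β] : Computable fun l : List β => l.isEmpty :=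
  ((Primrec.eq.comp Primrec.list_length (Primrec.const 0)).decide.to_comp).of_eq fun l => by
    cases l <;> simp

/-- `expand` is computable in the family of words. -/
theorem computable_expand {σ TT : Type} [Primcodable σ] [Primcodable TT]
    {de : σ → ℕ → Raw TT} (hde : Computable₂ de) :
    Computable₂ fun x q => expand (de x) q := by
  show Computable fun p : σ × Raw ℕ => expand (de p.1) p.2
  refine (computable_subst (φ := fun p : σ × Raw ℕ => de p.1)
    ((hde.comp (Computable.fst.comp Computable.fst) Computable.snd).to₂) Computable.snd).of_eq
    fun p => ?_
  unfold expand subst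
  refine List.flatMap_congr fun q _ => ?_
  cases q.2 <;> rfl

section DWord

variable {σ : Type} [Primcodable σ] {oneK test : σ → Raw ℕ → Bool} {oneG : Raw ℕ → Bool}
  {inJ : σ → ℕ → Bool} (hK : Computable₂ oneK) (hG : Computable oneG)
  (ht : Computable₂ test) (hJ : Computable₂ inJ)

include hK hG in
theorem computable_triv {fw : σ → Raw Slots.T} (hw : Computable fw) :
    Computable fun x => DWord.triv (oneK x) oneG (fw x) :=
  Primrec.and.to_comp.comp
    (Primrec.and.to_comp.comp (hK.comp Computable.id (primrec_projK.to_comp.comp hw))
      (hG.comp (primrec_projG.to_comp.comp hw)))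
    (computable_isEmpty.comp ((primrec_reduce (α := DWord.FL)).to_comp.comp
      (primrec_projF.to_comp.comp hw)))

include hK hG in
theorem computable_red {fv : σ → Raw Slots.T} (hv : Computable fv) :
    Computable fun x => DWord.red (oneK x) oneG (fv x) := by
  refine computable_foldl (h := fun x p => DWord.step (oneK x) oneG p.1 p.2) hv
    (Computable.const []) ?_
  let τ := σ × List (Raw Slots.T) × (Slots.T × Bool)
  show Computable fun q : τ => DWord.step (oneK q.1) oneG q.2.1 q.2.2
  have hst : Computable fun q : τ => q.2.1 := Computable.fst.comp Computable.snd
  have hp : Computable fun q : τ => [q.2.2] :=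
    Computable.list_cons.comp (Computable.snd.comp Computable.snd) (Computable.const [])
  have hK' : Computable₂ fun (q : τ) v => oneK q.1 v :=
    (hK.comp (Computable.fst.comp Computable.fst) Computable.snd).to₂
  let υ := τ × Raw Slots.T × List (Raw Slots.T)
  have hw : Computable fun r : υ => r.2.1 := Computable.fst.comp Computable.snd
  have hrest : Computable fun r : υ => r.2.2 := Computable.snd.comp Computable.snd
  have hp' : Computable fun r : υ => [r.1.2.2] := hp.comp Computable.fst
  have hK'' : Computable₂ fun (r : υ) v => oneK r.1.1 v :=
    (hK.comp (Computable.fst.comp (Computable.fst.comp Computable.fst)) Computable.snd).to₂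
  have hcat : Computable fun r : υ => r.2.1 ++ [r.1.2.2] := Computable.list_append.comp hw hp'
  have hbody : Computable fun r : υ =>
      cond (DWord.sameTag r.2.1 r.1.2.2)
        (cond (DWord.triv (oneK r.1.1) oneG (r.2.1 ++ [r.1.2.2])) r.2.2
          ((r.2.1 ++ [r.1.2.2]) :: r.2.2))
        (cond (DWord.triv (oneK r.1.1) oneG [r.1.2.2]) (r.2.1 :: r.2.2)
          ([r.1.2.2] :: r.2.1 :: r.2.2)) :=
    Computable.cond
      (primrec_sameTag.to_comp.comp hw
        ((Computable.snd.comp Computable.snd).comp Computable.fst))
      (Computable.cond (computable_triv hK'' hG hcat) hrest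
        (Computable.list_cons.comp hcat hrest))
      (Computable.cond (computable_triv hK'' hG hp') (Computable.list_cons.comp hw hrest)
        (Computable.list_cons.comp hp' (Computable.list_cons.comp hw hrest)))
  refine (Graph.computable_listCases hst
    (Computable.cond (computable_triv hK' hG hp) (Computable.const [])
      (Computable.list_cons.comp hp (Computable.const []))) hbody.to₂).of_eq fun q => ?_
  cases hh : q.2.1 with
  | nil => simp only [DWord.step]; cases DWord.triv (oneK q.1) oneG [q.2.2] <;> rfl
  | cons w st =>
    simp only [DWord.step]
    cases DWord.sameTag w q.2.2 <;> cases DWord.triv (oneK q.1) oneG (w ++ [q.2.2]) <;>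
      cases DWord.triv (oneK q.1) oneG [q.2.2] <;> rfl

/-- `next`, as case distinctions. -/
def nextC (test : Raw ℕ → Bool) (inJ : ℕ → Bool) (p : DWord.Pos ℕ) (s : DWord.Sym ℕ) :
    List (DWord.Pos ℕ) :=
  Option.casesOn (motive := fun _ => List (DWord.Pos ℕ)) s [] fun z =>
    Sum.casesOn (motive := fun _ => List (DWord.Pos ℕ)) z
      (fun x => Option.casesOn (motive := fun _ => List (DWord.Pos ℕ)) p []
        fun acc => [some (acc ++ x)])
      fun l => Sum.casesOn (motive := fun _ => List (DWord.Pos ℕ)) l.1
        (fun b => cond b [] (cond l.2
          (Option.casesOn (motive := fun _ => List (DWord.Pos ℕ)) p [some []] fun _ => [])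
          (Option.casesOn (motive := fun _ => List (DWord.Pos ℕ)) p []
            fun acc => cond (test acc) [none] [])))
        fun j => cond l.2
          (Option.casesOn (motive := fun _ => List (DWord.Pos ℕ)) p []
            fun acc => cond (test acc) [some []] [] ++
              cond (inJ j && test (acc ++ kw j)) [none] [])
          (Option.casesOn (motive := fun _ => List (DWord.Pos ℕ)) p
            (cond (inJ j) [some (FreeGroup.invRev (kw j))] [])
            fun acc => cond (test acc) [some []] [])

theorem next_eq (test : Raw ℕ → Bool) (inJ : ℕ → Bool) (p : DWord.Pos ℕ) (s : DWord.Sym ℕ) :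
    DWord.next test inJ kw p s = nextC test inJ p s := by
  rcases s with _ | (x | ⟨(_ | _) | j, (_ | _)⟩) <;> rcases p with _ | acc <;>
    simp [DWord.next, nextC, Bool.cond_eq_ite]

include ht hJ in
theorem computable_next {fp : σ → DWord.Pos ℕ} {fs : σ → DWord.Sym ℕ} (hp : Computable fp)
    (hs : Computable fs) : Computable fun x => DWord.next (test x) (inJ x) kw (fp x) (fs x) := by
  let τ := σ × (Raw ℕ ⊕ (DWord.FL × Bool))
  let υ := τ × (DWord.FL × Bool)
  have hpx : Computable fun a : τ => fp a.1 := hp.comp Computable.fst
  have hpu : Computable fun a : υ => fp a.1.1 := hpx.comp Computable.fst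
  have hl : Computable fun a : υ => a.2.2 := Computable.snd.comp Computable.snd
  have htu : ∀ {ρ : Type} [Primcodable ρ] {f : ρ → σ} {g : ρ → Raw ℕ}, Computable f →
      Computable g → Computable fun a => test (f a) (g a) := fun hf hg => ht.comp hf hg
  have hb : Computable₂ fun (a : υ) (b : Bool) =>
      cond b [] (cond a.2.2
        (Option.casesOn (motive := fun _ => List (DWord.Pos ℕ)) (fp a.1.1) [some []] fun _ => [])
        (Option.casesOn (motive := fun _ => List (DWord.Pos ℕ)) (fp a.1.1) []
          fun acc => cond (test a.1.1 acc) [none] [])) :=
    (Computable.cond Computable.snd (Computable.const [])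
      (Computable.cond (hl.comp Computable.fst)
        (Computable.option_casesOn (hpu.comp Computable.fst) (Computable.const [some []])
          (Computable.const []).to₂)
        (Computable.option_casesOn (hpu.comp Computable.fst) (Computable.const [])
          ((Computable.cond (htu (Computable.fst.comp (Computable.fst.comp
              (Computable.fst.comp Computable.fst))) Computable.snd)
            (Computable.const [none]) (Computable.const [])).to₂)))).to₂
  let ω := (υ × ℕ) × Raw ℕ
  have hσ : Computable fun a : ω => a.1.1.1.1 :=
    Computable.fst.comp (Computable.fst.comp (Computable.fst.comp Computable.fst))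
  have hjω : Computable fun a : ω => a.1.2 := Computable.snd.comp Computable.fst
  have hkω : Computable fun a : ω => kw a.1.2 := computable_kw.comp hjω
  have hcatω : Computable fun a : ω => a.2 ++ kw a.1.2 :=
    Computable.list_append.comp Computable.snd hkω
  have hj : Computable₂ fun (a : υ) (j : ℕ) =>
      cond a.2.2
        (Option.casesOn (motive := fun _ => List (DWord.Pos ℕ)) (fp a.1.1) []
          fun acc => cond (test a.1.1 acc) [some []] [] ++
            cond (inJ a.1.1 j && test a.1.1 (acc ++ kw j)) [none] [])
        (Option.casesOn (motive := fun _ => List (DWord.Pos ℕ)) (fp a.1.1)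
          (cond (inJ a.1.1 j) [some (FreeGroup.invRev (kw j))] [])
          fun acc => cond (test a.1.1 acc) [some []] []) := by
    have hT : Computable fun a : ω => cond (test a.1.1.1.1 a.2)
        ([some []] : List (DWord.Pos ℕ)) [] :=
      Computable.cond (htu hσ Computable.snd) (Computable.const _) (Computable.const _)
    refine (Computable.cond (hl.comp Computable.fst)
      (Computable.option_casesOn (hpu.comp Computable.fst) (Computable.const [])
        ((Computable.list_append.comp hT (Computable.cond
          (Primrec.and.to_comp.comp (hJ.comp hσ hjω) (htu hσ hcatω))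
          (Computable.const [none]) (Computable.const []))).to₂))
      (Computable.option_casesOn (hpu.comp Computable.fst)
        (Computable.cond
          (hJ.comp (Computable.fst.comp (Computable.fst.comp Computable.fst)) Computable.snd)
          (Computable.list_cons.comp (Computable.option_some.comp
            (primrec_invRev.to_comp.comp (computable_kw.comp Computable.snd))) (Computable.const []))
          (Computable.const []))
        hT.to₂)).to₂
  refine (Computable.option_casesOn hs (Computable.const []) ((Computable.sumCasesOn
    (Computable.snd : Computable fun a : τ => a.2)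
    ((Computable.option_casesOn (hpx.comp Computable.fst) (Computable.const [])
      ((Computable.list_cons.comp (Computable.option_some.comp
        (Computable.list_append.comp Computable.snd (Computable.snd.comp Computable.fst)))
        (Computable.const [])).to₂)).to₂)
    ((Computable.sumCasesOn (Computable.fst.comp (Computable.snd :
      Computable fun a : υ => a.2)) hb hj).to₂)).to₂)).of_eq fun x => ?_
  rw [next_eq]
  unfold nextC
  rcases fs x with _ | (y | ⟨a | a, t⟩) <;> rfl

include hK hG ht hJ in
theorem computable_memD {fv : σ → Raw Slots.T} (hv : Computable fv) :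
    Computable fun x => DWord.memD (test x) (inJ x) kw (oneK x) oneG (fv x) := by
  have hsyms : Computable fun x =>
      (DWord.red (oneK x) oneG (fv x)).reverse.flatMap DWord.symsOf :=
    computable_flatMap (Primrec.list_reverse.to_comp.comp (computable_red hK hG hv))
      ((primrec_symsOf.to_comp.comp Computable.snd).to₂)
  have hread : Computable fun x => DWord.readSyms (test x) (inJ x) kw
      ((DWord.red (oneK x) oneG (fv x)).reverse.flatMap DWord.symsOf) := by
    refine computable_foldl
      (h := fun x (p : List (DWord.Pos ℕ) × DWord.Sym ℕ) =>
        p.1.flatMap fun q => DWord.next (test x) (inJ x) kw q p.2)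
      hsyms (Computable.const [some []]) ?_
    show Computable fun a : σ × List (DWord.Pos ℕ) × DWord.Sym ℕ =>
      a.2.1.flatMap fun q => DWord.next (test a.1) (inJ a.1) kw q a.2.2
    refine computable_flatMap (g := fun (a : σ × List (DWord.Pos ℕ) × DWord.Sym ℕ) q =>
      DWord.next (test a.1) (inJ a.1) kw q a.2.2) (Computable.fst.comp Computable.snd) ?_
    let τ := (σ × List (DWord.Pos ℕ) × DWord.Sym ℕ) × DWord.Pos ℕ
    show Computable fun a : τ => DWord.next (test a.1.1) (inJ a.1.1) kw a.2 a.1.2.2
    exact computable_next
      ((ht.comp (Computable.fst.comp (Computable.fst.comp Computable.fst)) Computable.snd).to₂)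
      ((hJ.comp (Computable.fst.comp (Computable.fst.comp Computable.fst)) Computable.snd).to₂)
      Computable.snd (Computable.snd.comp (Computable.snd.comp Computable.fst))
  refine computable_any hread ?_
  show Computable fun a : σ × DWord.Pos ℕ => DWord.accepts (test a.1) a.2
  refine (Computable.option_casesOn Computable.snd (Computable.const false)
    ((ht.comp (Computable.fst.comp Computable.fst) Computable.snd).to₂)).of_eq fun a => ?_
  rcases a with ⟨x, _ | acc⟩ <;> rfl

end DWord

section WordL

variable {σ : Type} [Primcodable σ] {oneD memD : σ → Raw Slots.T → Bool}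
  {de₁ : σ → ℕ → Raw Slots.T} (M : ℕ) (hO : Computable₂ oneD) (hM : Computable₂ memD)
  (h₁ : Computable₂ de₁)

include hO in
theorem computable_runI {fv : σ → Raw (WordL.TI Slots.T)} (hv : Computable fv) :
    Computable fun x => WordL.runI M Slots.de₂ (oneD x) (fv x) :=
  computable_run (primrec_decode M).to_comp hO
    (computable_expand ((computable_de₂.comp Computable.snd).to₂))
    (computable_map hv ((primrec_itemI.to_comp.comp Computable.snd).to₂))

include hO in
theorem computable_oneI {fv : σ → Raw (WordL.TI Slots.T)} (hv : Computable fv) :
    Computable fun x => WordL.oneI M Slots.de₂ (oneD x) (fv x) :=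
  computable_isOne hO (computable_runI M hO hv)

include hO hM in
theorem computable_memI {fv : σ → Raw (WordL.TI Slots.T)} (hv : Computable fv) :
    Computable fun x => WordL.memI M Slots.de₂ (oneD x) (memD x) (fv x) := by
  let τ := σ × Syl Slots.T × List (Syl Slots.T)
  have ht : Computable fun q : τ => q.2.1 := Computable.fst.comp Computable.snd
  have hbody : Computable fun q : τ => cond q.2.2.isEmpty
      ((FreeGroup.reduce q.2.1.2.2).isEmpty && (q.2.1.1 || memD q.1 q.2.1.2.1)) false :=
    Computable.cond (computable_isEmpty.comp (Computable.snd.comp Computable.snd))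
      (Primrec.and.to_comp.comp
        (computable_isEmpty.comp ((primrec_reduce (α := B.Letter)).to_comp.comp
          (Computable.snd.comp (Computable.snd.comp ht))))
        (Primrec.or.to_comp.comp (Computable.fst.comp ht)
          (hM.comp Computable.fst (Computable.fst.comp (Computable.snd.comp ht)))))
      (Computable.const false)
  refine (Graph.computable_listCases (computable_runI M hO hv) (Computable.const true)
    hbody.to₂).of_eq fun x => ?_
  unfold WordL.memI
  rcases WordL.runI M Slots.de₂ (oneD x) (fv x) with _ | ⟨t, _ | ⟨r, st⟩⟩ <;> rfl

include hO h₁ in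
theorem computable_runL {fw : σ → GWord} (hw : Computable fw) :
    Computable fun x => WordL.runL M (de₁ x) Slots.de₂ (oneD x) (fw x) := by
  have hone : Computable₂ fun x v => WordL.oneI M Slots.de₂ (oneD x) v :=
    computable_oneI (oneD := fun (a : σ × Raw (WordL.TI Slots.T)) => oneD a.1) M
      ((hO.comp (Computable.fst.comp Computable.fst) Computable.snd).to₂) Computable.snd
  have hlift : Primrec fun p : Slots.T × Bool => ((Sum.inl p.1, p.2) : WordL.TI Slots.T × Bool) :=
    Primrec.pair (Primrec.sumInl.comp Primrec.fst) Primrec.snd
  have hdeI : Computable₂ fun x i => WordL.deI (de₁ x) i := by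
    show Computable fun p : σ × ℕ => WordL.deI (de₁ p.1) p.2
    refine (computable_map (g := fun (_ : σ × ℕ) (p : Slots.T × Bool) =>
      ((Sum.inl p.1, p.2) : WordL.TI Slots.T × Bool)) h₁ ((hlift.to_comp.comp Computable.snd).to₂)).of_eq
      fun p => ?_
    rfl
  exact computable_run (primrec_decode M).to_comp hone (computable_expand hdeI)
    (computable_map hw ((primrec_itemL.to_comp.comp Computable.snd).to₂))

include hO h₁ in
theorem computable_oneL {fw : σ → GWord} (hw : Computable fw) :
    Computable fun x => WordL.oneL M (de₁ x) Slots.de₂ (oneD x) (fw x) :=
  computable_isOne (one := fun x v => WordL.oneI M Slots.de₂ (oneD x) v)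
    (computable_oneI (oneD := fun (a : σ × Raw (WordL.TI Slots.T)) => oneD a.1) M
      ((hO.comp (Computable.fst.comp Computable.fst) Computable.snd).to₂) Computable.snd).to₂
    (computable_runL M hO h₁ hw)

include hO hM h₁ in
theorem computable_inE {fw : σ → GWord} (hw : Computable fw) :
    Computable fun x => WordL.inE M (de₁ x) Slots.de₂ (oneD x) (memD x) (fw x) := by
  refine computable_all (computable_runL M hO h₁ hw) ?_
  show Computable fun a : σ × Syl (WordL.TI Slots.T) =>
    a.2.1 || WordL.memI M Slots.de₂ (oneD a.1) (memD a.1) a.2.2.1
  exact Primrec.or.to_comp.comp (Computable.fst.comp Computable.snd)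
    (computable_memI M ((hO.comp (Computable.fst.comp Computable.fst) Computable.snd).to₂)
      ((hM.comp (Computable.fst.comp Computable.fst) Computable.snd).to₂)
      (Computable.fst.comp (Computable.snd.comp Computable.snd)))

end WordL

variable {Φ : Family accE} (S : Φ.KSolver) {G : Type} [Group G] (Gd : GData G)

/-- **The step is computable.** -/
theorem stepComputable : StepComputable S Gd := by
  intro τ _ fx fO fw hx hO hw
  have hfx : Computable fun a : τ × Raw Slots.T => fx a.1 := hx.comp Computable.fst
  have hfO : Computable₂ fun (a : τ × Raw Slots.T) l => fO a.1 l :=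
    (hO.comp (Computable.fst.comp Computable.fst) Computable.snd).to₂
  have hK : Computable₂ fun (a : τ × Raw Slots.T) u => oneKO S (fx a.1) (fO a.1) u :=
    computable_oneKO S (hfx.comp Computable.fst)
      ((hfO.comp (Computable.fst.comp Computable.fst) Computable.snd).to₂) Computable.snd
  have hT : Computable₂ fun (a : τ × Raw Slots.T) u => testO S (fx a.1) (fO a.1) u :=
    computable_testO S (hfx.comp Computable.fst)
      ((hfO.comp (Computable.fst.comp Computable.fst) Computable.snd).to₂) Computable.snd
  have hJ : Computable₂ fun (a : τ × Raw Slots.T) j => inJO S (fx a.1) (fO a.1) j :=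
    computable_inJO S (hfx.comp Computable.fst)
      ((hfO.comp (Computable.fst.comp Computable.fst) Computable.snd).to₂) Computable.snd
  have hone : Computable₂ fun x v => oneDO S Gd (fx x) (fO x) v :=
    computable_isEmpty.comp (computable_red hK Gd.oneG_computable Computable.snd)
  have hmem : Computable₂ fun x v => memDO S Gd (fx x) (fO x) v :=
    computable_memD hK Gd.oneG_computable hT hJ Computable.snd
  have hde : Computable₂ fun x i => Slots.de₁ (slotJ S (fx x) (fO x)) kw i := by
    refine computable_de₁ ?_
    exact computable_slotJ S (hx.comp Computable.fst)
      ((hO.comp (Computable.fst.comp Computable.fst) Computable.snd).to₂)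
      (Computable.fst.comp Computable.snd) (Computable.snd.comp Computable.snd)
  exact (computable_oneL (mult S) hone hde hw).pair (computable_inE (mult S) hone hmem hde hw)

end Vale.Agent.P193.Dec.Fix
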