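import Vale.Agent.P193.Dec.RelComp
import Vale.Agent.P193.Dec.GraphComp
import Vale.Agent.P193.Machine.IntPrim

/-!
# P193, part D: the oracle-free parts of the step are primitive recursive
-/

namespace Vale.Agent.P193.Dec.Fix

open B B.Reduce

theorem primrec_predInt : Primrec fun z : ℤ => z - 1 := by
  refine Machine.int_cases Primrec.id
    (f := fun (_ : ℤ) n => cond (decide (n = 0)) (Int.negSucc 0) ((n - 1 : ℕ) : ℤ))
    (g := fun (_ : ℤ) n => Int.negSucc (n + 1))
    ((Primrec.cond (Primrec.eq.comp Primrec.snd (Primrec.const 0)).decide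
      (Primrec.const (Int.negSucc 0))
      (Machine.int_ofNat.comp (Primrec.nat_sub.comp Primrec.snd (Primrec.const 1)))).to₂)
    ((Machine.int_negSucc.comp (Primrec.succ.comp Primrec.snd)).to₂)
    (fun z n h => ?_) fun z n h => ?_
  · rcases n with _ | n
    · subst h; rfl
    · subst h; simp
  · subst h; simp [Int.negSucc_eq]; omega

theorem primrec_isE : Primrec fun l : B.Letter => decide (l = B.Letter.e) := Primrec.dom_finite _

theorem primrec_rowStep : Primrec₂ rowStep := by
  show Primrec fun q : (ℤ × Raw Row) × (B.Letter × Bool) => rowStep q.1 q.2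
  have hl : Primrec fun q : (ℤ × Raw Row) × (B.Letter × Bool) => q.2.1 :=
    Primrec.fst.comp Primrec.snd
  have hz : Primrec fun q : (ℤ × Raw Row) × (B.Letter × Bool) => q.1.1 :=
    Primrec.fst.comp Primrec.fst
  refine (Primrec.cond ((Primrec.dom_finite fun l : B.Letter => decide (l = B.Letter.a)).comp hl)
    (Primrec.pair (Primrec.cond (Primrec.snd.comp Primrec.snd)
      (Machine.int_add_nat.comp hz (Primrec.const 1)) (primrec_predInt.comp hz))
      (Primrec.snd.comp Primrec.fst))
    (Primrec.pair hz (Primrec.list_append.comp (Primrec.snd.comp Primrec.fst)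
      (Primrec.list_cons.comp (Primrec.pair
        (Primrec.pair hz ((Primrec.dom_finite fun l : B.Letter => decide (l = B.Letter.b)).comp hl))
        (Primrec.snd.comp Primrec.snd)) (Primrec.const []))))).of_eq fun q => ?_
  obtain ⟨⟨z, r⟩, l, s⟩ := q
  cases l <;> cases s <;> simp [rowStep]

theorem primrec_rows : Primrec rows :=
  Primrec.list_foldl Primrec.id (Primrec.const ((0 : ℤ), ([] : Raw Row)))
    (primrec_rowStep.comp (Primrec.fst.comp Primrec.snd) (Primrec.snd.comp Primrec.snd)).to₂

theorem primrec_candidate : Primrec candidate := by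
  have hf : Primrec fun p : Row × Bool =>
      if p.1.2 then none else if 0 ≤ p.1.1 then some (p.1.1.toNat, p.2) else none := by
    have h2 : Primrec fun p : Row × Bool => if 0 ≤ p.1.1 then some (p.1.1.toNat, p.2) else none :=
      Machine.int_cases (Primrec.fst.comp Primrec.fst)
        (f := fun (p : Row × Bool) n => some (n, p.2)) (g := fun _ _ => none)
        ((Primrec.option_some.comp (Primrec.pair Primrec.snd
          (Primrec.snd.comp Primrec.fst))).to₂)
        ((Primrec.const none).to₂)
        (fun p n h => by rw [h]; simp) fun p n h => by rw [h]; simp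
    refine (Primrec.cond (Primrec.snd.comp Primrec.fst) (Primrec.const none) h2).of_eq fun p => ?_
    obtain ⟨⟨z, b⟩, s⟩ := p
    cases b <;> cases z <;> simp
  exact Primrec.listFilterMap Primrec.id (hf.comp Primrec.snd).to₂

theorem primrec_block (M : ℕ) : Primrec (block M) := by
  have hi : Primrec fun q : ℕ × Bool => (q.1 : ℤ) := Machine.int_ofNat.comp Primrec.fst
  have hrep : ∀ s : Bool, Primrec fun q : ℕ × Bool =>
      (List.range (M * (q.1 + 1))).map fun _ => ((((q.1 : ℤ), true), s) : Row × Bool) := fun s =>
    Primrec.list_map (Primrec.list_range.comp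
      (Primrec.nat_mul.comp (Primrec.const M) (Primrec.succ.comp Primrec.fst)))
      ((Primrec.pair (Primrec.pair hi (Primrec.const true)) (Primrec.const s)).comp
        Primrec.fst).to₂
  refine (Primrec.cond Primrec.snd
    (Primrec.list_cons.comp (Primrec.pair (Primrec.pair hi (Primrec.const false))
      (Primrec.const true)) (hrep true))
    (Primrec.list_append.comp (hrep false) (Primrec.list_cons.comp
      (Primrec.pair (Primrec.pair hi (Primrec.const false)) (Primrec.const false))
      (Primrec.const [])))).of_eq fun q => ?_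
  obtain ⟨i, s⟩ := q
  cases s <;> simp [block, List.map_const']

theorem primrec_decode (M : ℕ) : Primrec (decode M) := by
  have hr := (primrec_reduce (α := Row)).comp (Primrec.snd.comp primrec_rows)
  have hc := primrec_candidate.comp hr
  refine (Primrec.cond
    (Primrec.and.comp (Primrec.eq.comp (Primrec.fst.comp primrec_rows) (Primrec.const 0)).decide
      (Primrec.eq.comp (Primrec.list_flatMap hc ((primrec_block M).comp Primrec.snd).to₂) hr).decide)
    (Primrec.option_some.comp hc) (Primrec.const none)).of_eq fun u => ?_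
  unfold decode
  by_cases h1 : (rows u).1 = 0 <;>
    by_cases h2 : (candidate (FreeGroup.reduce (rows u).2)).flatMap (block M) =
      FreeGroup.reduce (rows u).2 <;> simp [h1, h2]

theorem primrec_projK : Primrec (DWord.projK (κ := ℕ) (γ := ℕ)) := by
  have hf : Primrec fun p : Slots.T × Bool =>
      Sum.casesOn (motive := fun _ => Option (ℕ × Bool)) p.1 (fun a => some (a, p.2))
        fun _ => none :=
    Primrec.sumCasesOn Primrec.fst
      (Primrec.option_some.comp (Primrec.pair Primrec.snd (Primrec.snd.comp Primrec.fst))).to₂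
      (Primrec.const none).to₂
  refine (Primrec.listFilterMap Primrec.id (hf.comp Primrec.snd).to₂).of_eq fun w => ?_
  refine List.filterMap_congr fun p _ => ?_
  rcases p with ⟨a | a, s⟩ <;> rfl

theorem primrec_projG : Primrec (DWord.projG (κ := ℕ) (γ := ℕ)) := by
  have hf : Primrec fun p : Slots.T × Bool =>
      Sum.casesOn (motive := fun _ => Option (ℕ × Bool)) p.1 (fun _ => none) fun r =>
        Sum.casesOn (motive := fun _ => Option (ℕ × Bool)) r (fun a => some (a, p.2))
          fun _ => none :=
    Primrec.sumCasesOn Primrec.fst (Primrec.const none).to₂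
      (Primrec.sumCasesOn Primrec.snd
        (Primrec.option_some.comp (Primrec.pair Primrec.snd
          (Primrec.snd.comp (Primrec.fst.comp Primrec.fst)))).to₂
        (Primrec.const none).to₂).to₂
  refine (Primrec.listFilterMap Primrec.id (hf.comp Primrec.snd).to₂).of_eq fun w => ?_
  refine List.filterMap_congr fun p _ => ?_
  rcases p with ⟨a | a | a, s⟩ <;> rfl

theorem primrec_projF : Primrec (DWord.projF (κ := ℕ) (γ := ℕ)) := by
  have hf : Primrec fun p : Slots.T × Bool =>
      Sum.casesOn (motive := fun _ => Option (DWord.FL × Bool)) p.1 (fun _ => none) fun r =>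
        Sum.casesOn (motive := fun _ => Option (DWord.FL × Bool)) r (fun _ => none)
          fun a => some (a, p.2) :=
    Primrec.sumCasesOn Primrec.fst (Primrec.const none).to₂
      (Primrec.sumCasesOn Primrec.snd (Primrec.const none).to₂
        (Primrec.option_some.comp (Primrec.pair Primrec.snd
          (Primrec.snd.comp (Primrec.fst.comp Primrec.fst)))).to₂).to₂
  refine (Primrec.listFilterMap Primrec.id (hf.comp Primrec.snd).to₂).of_eq fun w => ?_
  refine List.filterMap_congr fun p _ => ?_
  rcases p with ⟨a | a | a, s⟩ <;> rfl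

/-- The factor of a letter as a number. -/
def tagN : Slots.T → ℕ
  | .inl _ => 0
  | .inr (.inl _) => 1
  | .inr (.inr _) => 2

theorem primrec_tagN : Primrec tagN := by
  refine (Primrec.sumCasesOn (α := Slots.T) Primrec.id (Primrec.const 0).to₂
    (Primrec.sumCasesOn (α := Slots.T × (ℕ ⊕ DWord.FL)) Primrec.snd (Primrec.const 1).to₂
      (Primrec.const 2).to₂).to₂).of_eq fun t => ?_
  rcases t with a | a | a <;> rfl

theorem tag_eq_iff (s t : Slots.T) :
    decide (DWord.tag s = DWord.tag t) = decide (tagN s = tagN t) := by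
  rcases s with a | a | a <;> rcases t with b | b | b <;> simp [DWord.tag, tagN]

theorem primrec_sameTag : Primrec₂ (DWord.sameTag (κ := ℕ) (γ := ℕ)) := by
  refine (Primrec.option_casesOn (Primrec.list_head?.comp Primrec.fst) (Primrec.const false)
    ((Primrec.eq.comp (primrec_tagN.comp (Primrec.fst.comp Primrec.snd))
      (primrec_tagN.comp (Primrec.fst.comp (Primrec.snd.comp Primrec.fst)))).decide.to₂)).of_eq
    fun q => ?_
  obtain ⟨w, p⟩ := q
  cases w with
  | nil => rfl
  | cons x w => exact (tag_eq_iff x.1 p.1).symm

theorem primrec_symsOf : Primrec (DWord.symsOf (κ := ℕ) (γ := ℕ)) := by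
  have hK : Primrec fun w : Raw Slots.T => ([some (.inl (DWord.projK w))] : List (DWord.Sym ℕ)) :=
    Primrec.list_cons.comp (Primrec.option_some.comp (Primrec.sumInl.comp primrec_projK))
      (Primrec.const [])
  have hF : Primrec fun w : Raw Slots.T =>
      ((FreeGroup.reduce (DWord.projF w)).map fun l => (some (.inr l) : DWord.Sym ℕ)) :=
    Primrec.list_map ((primrec_reduce (α := DWord.FL)).comp primrec_projF)
      (Primrec.option_some.comp (Primrec.sumInr.comp Primrec.snd)).to₂
  have ht : ∀ k, PrimrecPred fun q : Raw Slots.T × (Slots.T × Bool) => tagN q.2.1 = k := fun k =>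
    Primrec.eq.comp (primrec_tagN.comp (Primrec.fst.comp Primrec.snd)) (Primrec.const k)
  refine (Primrec.option_casesOn Primrec.list_head? (Primrec.const [])
    (Primrec.ite (ht 0) (hK.comp Primrec.fst)
      (Primrec.ite (ht 1) (Primrec.const [none]) (hF.comp Primrec.fst))).to₂).of_eq fun w => ?_
  rcases w with _ | ⟨⟨a | a | a, s⟩, w⟩ <;> simp [DWord.symsOf, tagN]

theorem primrec_itemI : Primrec (WordL.itemI (TD := Slots.T)) := by
  refine (Primrec.sumCasesOn (α := WordL.TI Slots.T × Bool) Primrec.fst
    ((Primrec.pair (Primrec.const false) (Primrec.pair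
      (Primrec.list_cons.comp (Primrec.pair Primrec.snd (Primrec.snd.comp Primrec.fst))
        (Primrec.const [])) (Primrec.const []))).to₂)
    ((Primrec.pair (Primrec.fst.comp Primrec.snd) (Primrec.pair (Primrec.const [])
      (Primrec.list_cons.comp (Primrec.pair (Primrec.snd.comp Primrec.snd)
        (Primrec.snd.comp Primrec.fst)) (Primrec.const [])))).to₂)).of_eq fun p => ?_
  rcases p with ⟨t | ⟨b, l⟩, s⟩ <;> rfl

theorem primrec_itemL : Primrec (WordL.itemL (TD := Slots.T)) := by
  refine (Primrec.cond (Primrec.fst.comp Primrec.fst)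
    (Primrec.pair (Primrec.const false) (Primrec.pair
      (Primrec.list_cons.comp (Primrec.pair
        (Primrec.sumInr.comp (Primrec.snd.comp Primrec.fst)) Primrec.snd) (Primrec.const []))
      (Primrec.const [])))
    (Primrec.pair (Primrec.fst.comp (Primrec.snd.comp Primrec.fst)) (Primrec.pair (Primrec.const [])
      (Primrec.list_cons.comp (Primrec.pair
        (Primrec.snd.comp (Primrec.snd.comp Primrec.fst)) Primrec.snd)
        (Primrec.const []))))).of_eq fun p => ?_
  obtain ⟨⟨pr, b, l⟩, s⟩ := p
  cases pr <;> rfl

end Vale.Agent.P193.Dec.Fix
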