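import Vale.Agent.P193.Dec.Base

/-!
# P193, part D: recursion on the length of words by tables
-/

namespace Vale.Agent.P193.Dec.Table

variable {L β σ : Type} [Fintype L] [DecidableEq L] [Inhabited β]

/-- An oracle restricted to words shorter than `n`. -/
def guardLt (n : ℕ) (O : List L → β) (l : List L) : β := if l.length < n then O l else default

theorem guardLt_congr {n : ℕ} {O O' : List L → β} (h : ∀ l, l.length < n → O l = O' l) :
    guardLt n O = guardLt n O' := by
  funext l
  unfold guardLt
  split
  · exact h l ‹_›
  · rfl

/-- The value stored for a word. -/
def look (t : List (List L × β)) (l : List L) : β :=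
  ((t[t.findIdx fun p => decide (p.1 = l)]?).map Prod.snd).getD default

theorem look_map {g : List L → β} {ws : List (List L)} {l : List L} (h : l ∈ ws) :
    look (ws.map fun w => (w, g w)) l = g l := by
  induction ws with
  | nil => simp at h
  | cons w ws ih =>
    by_cases hw : w = l
    · subst hw
      simp [look, List.findIdx_cons]
    · have hl : l ∈ ws := (List.mem_cons.1 h).resolve_left fun e => hw e.symm
      have := ih hl
      simpa [look, List.findIdx_cons, hw] using this

variable (letters : List L) (F : σ → (List L → β) → List L → β)

/-- The values on the words shorter than `n`, as a table. -/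
def table (x : σ) : ℕ → List (List L × β)
  | 0 => []
  | n + 1 => (listsLE letters n).map fun w => (w, F x (guardLt w.length (look (table x n))) w)

/-- The recursive function. -/
def value (x : σ) (w : List L) : β := look (table letters F x (w.length + 1)) w

variable {letters F} (hletters : ∀ a, a ∈ letters)

include hletters in
theorem mem_lists {n : ℕ} {w : List L} (h : w.length ≤ n) : w ∈ listsLE letters n :=
  mem_listsLE.2 ⟨h, fun a _ => hletters a⟩

include hletters in
theorem look_table (x : σ) : ∀ {n : ℕ} {w : List L}, w.length < n →
    look (table letters F x n) w =
      F x (guardLt w.length (look (table letters F x (n - 1)))) w := by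
  intro n w h
  obtain ⟨m, rfl⟩ : ∃ m, n = m + 1 := ⟨n - 1, by omega⟩
  rw [table, look_map (mem_lists hletters (by omega)), Nat.add_sub_cancel]

include hletters in
theorem look_stable (x : σ) : ∀ {n : ℕ} {w : List L}, w.length < n →
    look (table letters F x n) w = value letters F x w := by
  intro n
  induction n using Nat.strong_induction_on with
  | _ n ih =>
    intro w h
    rw [value, look_table hletters x h, look_table hletters x (Nat.lt_succ_self _),
      show w.length.succ - 1 = w.length from rfl]
    congr 1
    refine guardLt_congr fun l hl => ?_
    rw [ih (n - 1) (by omega) (by omega)]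
    by_cases hn : w.length < n - 1
    · exact (ih w.length (by omega) hl).symm
    · rw [show n - 1 = w.length by omega] at *
      exact (ih w.length (by omega) hl).symm

include hletters in
/-- The recursion equation. -/
theorem value_eq (x : σ) (w : List L) :
    value letters F x w = F x (guardLt w.length (value letters F x)) w := by
  rw [value, look_table hletters x (Nat.lt_succ_self _), show w.length.succ - 1 = w.length from rfl]
  congr 1
  exact guardLt_congr fun l hl => look_stable hletters x hl

variable [Primcodable L] [Primcodable β] [Primcodable σ]

theorem computable_look {τ : Type} [Primcodable τ] {ft : τ → List (List L × β)} {fl : τ → List L}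
    (ht : Computable ft) (hl : Computable fl) : Computable fun x => look (ft x) (fl x) := by
  have h : Primrec₂ (look (L := L) (β := β)) := by
    refine Primrec.option_getD.comp ?_ (Primrec.const default)
    refine Primrec.option_map ?_ (Primrec.snd.comp Primrec.snd).to₂
    exact Primrec.list_getElem?.comp Primrec.fst
      (Primrec.list_findIdx Primrec.fst
        (Primrec.eq.comp (Primrec.fst.comp Primrec.snd) (Primrec.snd.comp Primrec.fst)).decide.to₂)
  exact h.to_comp.comp ht hl

theorem computable_guardLt {τ : Type} [Primcodable τ] {fn : τ → ℕ}
    {ft : τ → List (List L × β)} (hn : Computable fn) (ht : Computable ft) :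
    Computable₂ fun t l => guardLt (fn t) (look (ft t)) l := by
  have hdec : Computable fun p : τ × List L => decide (p.2.length < fn p.1) :=
    (Primrec.nat_lt.decide).to_comp.comp (Computable.list_length.comp Computable.snd)
      (hn.comp Computable.fst)
  show Computable fun p : τ × List L => guardLt (fn p.1) (look (ft p.1)) p.2
  refine (Computable.cond hdec (computable_look (ht.comp Computable.fst) Computable.snd)
    (Computable.const default)).of_eq fun p => ?_
  by_cases h : p.2.length < fn p.1 <;> simp [guardLt, h]

variable (hF : ∀ {τ : Type} [Primcodable τ] {fx : τ → σ} {fO : τ → List L → β} {fw : τ → List L},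
  Computable fx → Computable₂ fO → Computable fw → Computable fun t => F (fx t) (fO t) (fw t))

include hF in
theorem computable_entry : Computable₂ fun (q : σ × List (List L × β)) (w : List L) =>
    (w, F q.1 (guardLt w.length (look q.2)) w) := by
  show Computable fun p : (σ × List (List L × β)) × List L =>
    (p.2, F p.1.1 (guardLt p.2.length (look p.1.2)) p.2)
  exact Computable.snd.pair (hF (Computable.fst.comp Computable.fst)
    (computable_guardLt (Computable.list_length.comp Computable.snd)
      (Computable.snd.comp Computable.fst)) Computable.snd)

include hF in
theorem computable_row : Computable₂ fun (a : σ × ℕ) (p : ℕ × List (List L × β)) =>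
    (listsLE letters p.1).map fun w => (w, F a.1 (guardLt w.length (look p.2)) w) := by
  have hmap : Computable fun u : (σ × List (List L × β)) × List (List L) =>
      u.2.map fun w => (w, F u.1.1 (guardLt w.length (look u.1.2)) w) :=
    computable_map Computable.snd
      ((computable_entry hF).comp (Computable.fst.comp Computable.fst) Computable.snd).to₂
  have harg : Computable fun q : (σ × ℕ) × (ℕ × List (List L × β)) =>
      (((q.1.1, q.2.2), listsLE letters q.2.1) : (σ × List (List L × β)) × List (List L)) :=
    ((Computable.fst.comp Computable.fst).pair (Computable.snd.comp Computable.snd)).pair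
      (primrec_listsLE.comp (Primrec.const letters) (Primrec.fst.comp Primrec.snd)).to_comp
  exact (hmap.comp harg).to₂

include hF in
theorem computable_value : Computable₂ (value letters F) := by
  have htab : Computable fun a : σ × ℕ => table letters F a.1 a.2 := by
    refine (Computable.nat_rec Computable.snd (Computable.const [])
      (computable_row (letters := letters) hF)).of_eq fun a => ?_
    obtain ⟨x, n⟩ := a
    induction n with
    | zero => rfl
    | succ n ih => simp only [table] at ih ⊢; rw [← ih]
  exact (computable_look (htab.comp (Computable.fst.pair
    (Computable.succ.comp (Computable.list_length.comp Computable.snd)))) Computable.snd).to₂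

end Vale.Agent.P193.Dec.Table
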